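import Vale.Agent.Lib.P083.Defs2

/-!
# P083: a C*-algebra generated by a countable set is separable
-/

namespace Vale.Agent.P083

/-- the C*-subalgebra generated by a countable set is separable -/
theorem separable_adjoin {B : Type} [CStarAlgebra B] (E : Set B) (hE : E.Countable) :
    TopologicalSpace.SeparableSpace (StarAlgebra.adjoin ℂ E).topologicalClosure := by
  have hE' : (E ∪ star E).Countable := by
    refine hE.union ?_
    rw [← Set.image_star]
    exact hE.image _
  have h1 : ((Submonoid.closure (E ∪ star E) : Submonoid B) : Set B).Countable := by
    have : Countable (E ∪ star E : Set B) := hE'.to_subtype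
    rw [Submonoid.closure_eq_mrange, MonoidHom.coe_mrange]
    have : Countable (FreeMonoid (E ∪ star E : Set B)) :=
      inferInstanceAs (Countable (List (E ∪ star E : Set B)))
    exact Set.countable_range _
  have h2 : TopologicalSpace.IsSeparable
      ((Submodule.span ℂ (Submonoid.closure (E ∪ star E) : Set B) : Submodule ℂ B) : Set B) :=
    h1.isSeparable.span
  have h3 : ((StarAlgebra.adjoin ℂ E : StarSubalgebra ℂ B) : Set B) =
      ((Submodule.span ℂ (Submonoid.closure (E ∪ star E) : Set B) : Submodule ℂ B) : Set B) := by
    rw [← Algebra.adjoin_eq_span]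
    rfl
  have h4 : TopologicalSpace.IsSeparable
      (((StarAlgebra.adjoin ℂ E).topologicalClosure : StarSubalgebra ℂ B) : Set B) := by
    rw [StarSubalgebra.topologicalClosure_coe, h3]
    exact h2.closure
  exact h4.separableSpace

end Vale.Agent.P083
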