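import Mathlib

/-!
# P083: definitions for the negative answer (see PROOF.md)
-/

namespace Vale.Agent.P083

open scoped BigOperators InnerProductSpace

/-- the field with 37 elements -/
abbrev F : Type := ZMod 37

instance fact37 : Fact (Nat.Prime 37) := ⟨by norm_num⟩

/-- letters -/
abbrev X : Type := Fin 3 → F

/-- 3x3 matrices -/
abbrev Mt : Type := Matrix (Fin 3) (Fin 3) F

/-- words of length `k` -/
abbrev W (k : ℕ) : Type := Fin k → X

/-- the Heisenberg group over `F` -/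
@[ext] structure Heis where
  a : F
  b : F
  c : F
deriving DecidableEq

namespace Heis

instance : Mul Heis := ⟨fun g h => ⟨g.a + h.a, g.b + h.b, g.c + h.c + g.a * h.b⟩⟩
instance : One Heis := ⟨⟨0, 0, 0⟩⟩
instance : Inv Heis := ⟨fun g => ⟨-g.a, -g.b, -g.c + g.a * g.b⟩⟩

@[simp] theorem mul_a (g h : Heis) : (g * h).a = g.a + h.a := rfl
@[simp] theorem mul_b (g h : Heis) : (g * h).b = g.b + h.b := rfl
@[simp] theorem mul_c (g h : Heis) : (g * h).c = g.c + h.c + g.a * h.b := rfl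
@[simp] theorem one_a : (1 : Heis).a = 0 := rfl
@[simp] theorem one_b : (1 : Heis).b = 0 := rfl
@[simp] theorem one_c : (1 : Heis).c = 0 := rfl
@[simp] theorem inv_a (g : Heis) : (g⁻¹).a = -g.a := rfl
@[simp] theorem inv_b (g : Heis) : (g⁻¹).b = -g.b := rfl
@[simp] theorem inv_c (g : Heis) : (g⁻¹).c = -g.c + g.a * g.b := rfl

instance : Group Heis :=
  Group.ofLeftAxioms
    (fun g h k => by ext <;> simp <;> ring)
    (fun g => by ext <;> simp)
    (fun g => by ext <;> simp)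

/-- coordinates -/
def equivProd : Heis ≃ F × F × F where
  toFun g := (g.a, g.b, g.c)
  invFun q := ⟨q.1, q.2.1, q.2.2⟩
  left_inv _ := rfl
  right_inv _ := rfl

instance : Fintype Heis := Fintype.ofEquiv _ equivProd.symm

end Heis

/-- a triple `(A, B, t)`: it acts on words by `w ↦ (A + tB) w + t₀` -/
@[ext] structure Tri where
  A : Mt
  B : Mt
  t : X

namespace Tri

/-- first letter of the image of a word with first letter `v` -/
def fst (τ : Tri) (v : X) : X := τ.A.mulVec v + τ.t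

/-- the section at the letter `v` -/
def sec (τ : Tri) (v : X) : Tri := ⟨τ.A, τ.B, τ.B.mulVec v⟩

/-- action on words over `X ∪ {o}` (`o = none`) -/
def onL (A B : Mt) : X → List (Option X) → List (Option X)
  | _, [] => []
  | _, none :: w => none :: w
  | c, some v :: w => some (A.mulVec v + c) :: onL A B (B.mulVec v) w

/-- action on words of length `k` -/
def onW {k : ℕ} (τ : Tri) (w : W k) : W k := fun i =>
  τ.A.mulVec (w i) + (if h : (i : ℕ) = 0 then τ.t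
    else τ.B.mulVec (w ⟨(i : ℕ) - 1, lt_of_le_of_lt (Nat.sub_le _ _) i.isLt⟩))

/-- product (valid if `τ.B * σ.B = 0` and `τ.B.mulVec σ.t = 0`) -/
def mul (τ σ : Tri) : Tri := ⟨τ.A * σ.A, τ.A * σ.B + τ.B * σ.A, τ.A.mulVec σ.t + τ.t⟩

/-- identity -/
def one : Tri := ⟨1, 0, 0⟩

end Tri

/-- the generators: `x^s, y^s, z^s, w^s` -/
def gen (i : Fin 4) (s : F) : Tri :=
  match i with
  | 0 => ⟨!![1, s, 0; 0, 1, 0; 0, 0, 1], 0, 0⟩
  | 1 => ⟨!![1, 0, 0; 0, 1, s; 0, 0, 1], 0, 0⟩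
  | 2 => ⟨1, !![0, 0, 0; 0, 0, 0; s, 0, 0], 0⟩
  | 3 => ⟨1, 0, ![0, 0, s]⟩

/-- the six pairs of generators -/
def dat (e : Fin 6) (g : Heis) : Tri :=
  match e with
  | 0 => ⟨!![1, g.a, g.c; 0, 1, g.b; 0, 0, 1], 0, 0⟩
  | 1 => ⟨!![1, 0, 0; 0, 1, g.a; 0, 0, 1], !![0, 0, 0; g.c, 0, 0; g.b, 0, 0], 0⟩
  | 2 => ⟨!![1, g.b, 0; 0, 1, 0; 0, 0, 1], !![0, 0, 0; 0, 0, 0; g.a, g.c, 0], 0⟩
  | 3 => ⟨!![1, 0, 0; 0, 1, g.a; 0, 0, 1], 0, ![0, g.c, g.b]⟩
  | 4 => ⟨!![1, g.a, 0; 0, 1, 0; 0, 0, 1], 0, ![0, 0, g.b]⟩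
  | 5 => ⟨1, !![0, 0, 0; 0, 0, 0; g.a, 0, 0], ![0, 0, g.b]⟩

/-- first generator of the pair `e` -/
def src : Fin 6 → Fin 4 := ![0, 1, 2, 1, 0, 2]

/-- second generator of the pair `e` -/
def tgt : Fin 6 → Fin 4 := ![1, 2, 0, 3, 3, 3]

/-- a `δ`-approximate system of six representations of the Heisenberg group which agree on the four
cyclic groups -/
structure IsSys {B : Type*} [NormedRing B] [StarRing B] (δ : ℝ) (u : Fin 6 → Heis → B)
    (G : Fin 4 → F → B) : Prop where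
  src : ∀ e s, u e ⟨s, 0, 0⟩ = G (src e) s
  tgt : ∀ e s, u e ⟨0, s, 0⟩ = G (tgt e) s
  one : ∀ e, ‖u e 1 - 1‖ ≤ δ
  mul : ∀ e g h, ‖u e g * u e h - u e (g * h)‖ ≤ δ
  star : ∀ e g, ‖star (u e g) - u e g⁻¹‖ ≤ δ

/-- a `δ`-approximate model of the relations of section 1 of PROOF.md -/
structure IsModel {B : Type*} [NormedRing B] [StarRing B] (δ : ℝ) (u : Fin 6 → Heis → B)
    (G : Fin 4 → F → B) (s : X → B) (a : B) : Prop where
  sys : IsSys δ u G
  iso : ∀ v v', ‖star (s v) * s v' - (if v = v' then 1 else 0)‖ ≤ δ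
  sec0 : ∀ c v, ‖G 0 c * s v - s ((gen 0 c).fst v) * G 0 c‖ ≤ δ
  sec1 : ∀ c v, ‖G 1 c * s v - s ((gen 1 c).fst v) * G 1 c‖ ≤ δ
  sec2 : ∀ c v, ‖G 2 c * s v - s v * u 5 (⟨c, 0, 0⟩ * ⟨0, c * v 0, 0⟩)‖ ≤ δ
  sec3 : ∀ c v, ‖G 3 c * s v - s ((gen 3 c).fst v)‖ ≤ δ
  baseIso : ‖star a * a - 1‖ ≤ δ
  base : ∀ i c, ‖G i c * a - a‖ ≤ δ

/-- `1` minus the average over the cyclic group `i` -/
noncomputable def Q {B : Type*} [Ring B] [Algebra ℂ B] (G : Fin 4 → F → B) (i : Fin 4) : B :=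
  1 - (37 : ℂ)⁻¹ • ∑ c : F, G i c

/-- the Laplacian -/
noncomputable def D {B : Type*} [Ring B] [Algebra ℂ B] (G : Fin 4 → F → B) : B :=
  ∑ i : Fin 4, Q G i

/-- `om = exp(2 pi i / 37)` -/
noncomputable def om : ℂ := Complex.exp (2 * Real.pi * Complex.I / 37)

/-- the vector `e₁` -/
def e1 : X := ![1, 0, 0]

/-- the word of length `k + 1` with last letter `e₁`, other letters `0` -/
def lastE1 (k : ℕ) : W (k + 1) := Pi.single (Fin.last k) e1

section Theta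

variable {H : Type*} [NormedAddCommGroup H] [InnerProductSpace ℂ H]

/-- `b ⊗ σ` on `ℓ²(Y; H)` for a finite set `Y`, `σ` a permutation of `Y` -/
noncomputable def Theta {Y : Type*} [Fintype Y] (b : H →L[ℂ] H) (σ : Equiv.Perm Y) :
    PiLp 2 (fun _ : Y => H) →L[ℂ] PiLp 2 (fun _ : Y => H) :=
  LinearMap.mkContinuous
    { toFun := fun ζ => WithLp.toLp 2 (fun y => b (ζ (σ.symm y)))
      map_add' := fun ζ ξ => by ext y; simp
      map_smul' := fun c ζ => by ext y; simp } ‖b‖ (by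
    intro ζ
    have h1 : ‖WithLp.toLp 2 (fun y => b (ζ (σ.symm y)))‖ ^ 2 ≤ (‖b‖ * ‖ζ‖) ^ 2 := by
      rw [PiLp.norm_sq_eq_of_L2, mul_pow, PiLp.norm_sq_eq_of_L2, Finset.mul_sum]
      rw [← Equiv.sum_comp σ.symm (fun y => ‖b‖ ^ 2 * ‖ζ y‖ ^ 2)]
      refine Finset.sum_le_sum fun y _ => ?_
      rw [← mul_pow]
      exact pow_le_pow_left₀ (norm_nonneg _) (b.le_opNorm _) 2
    exact abs_le_of_sq_le_sq' h1 (by positivity) |>.2)

@[simp] theorem Theta_apply {Y : Type*} [Fintype Y] (b : H →L[ℂ] H) (σ : Equiv.Perm Y)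
    (ζ : PiLp 2 (fun _ : Y => H)) (y : Y) : Theta b σ ζ y = b (ζ (σ.symm y)) := rfl

/-- `ζ ∈ H ⊗ V_{k+1}`: shifting the last letter by `e₁` multiplies by `om` -/
def IsV {k : ℕ} (ζ : PiLp 2 (fun _ : W (k + 1) => H)) : Prop :=
  ∀ w, ζ (w + lastE1 k) = om • ζ w

end Theta

/-- exact system of permutations of `Y` -/
structure PermSys (Y : Type*) where
  π : Fin 6 → Heis →* Equiv.Perm Y
  P : Fin 4 → F → Equiv.Perm Y
  src : ∀ e s, π e ⟨s, 0, 0⟩ = P (Vale.Agent.P083.src e) s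
  tgt : ∀ e s, π e ⟨0, s, 0⟩ = P (Vale.Agent.P083.tgt e) s

end Vale.Agent.P083
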