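import Mathlib

/-!
# P083: the definitions used in the statement
-/

open scoped Topology BoundedContinuousFunction
open Filter

namespace Vale.Agent.P083

/-- `s 0`, `s 1` are isometries with `s₀ s₀* + s₁ s₁* = 1` (the Cuntz relations). -/
structure IsCuntzPair {O : Type*} [CStarAlgebra O] (s : Fin 2 → O) : Prop where
  isometry : ∀ i, star (s i) * s i = 1
  sum : s 0 * star (s 0) + s 1 * star (s 1) = 1

/-- `q : ℓ^∞(ℕ, O) → U` is the quotient map onto the norm ultrapower `O^ω`: it is onto, and its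
kernel is the set of the bounded sequences `(a_n)` with `lim_{n → ω} ‖a_n‖ = 0`.  (`ℕ →ᵇ O` is the
C*-algebra of all bounded functions from the discrete space `ℕ` to `O`.) -/
structure IsUltrapowerMap {O U : Type*} [CStarAlgebra O] [CStarAlgebra U] (ω : Ultrafilter ℕ)
    (q : (ℕ →ᵇ O) →⋆ₐ[ℂ] U) : Prop where
  surjective : Function.Surjective q
  eq_zero_iff : ∀ a : ℕ →ᵇ O, q a = 0 ↔ Tendsto (fun n => ‖a n‖) (ω : Filter ℕ) (𝓝 0)

end Vale.Agent.P083
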