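import Mathlib
import Vale.Agent.Lib.P083.Stmt
import Vale.Agent.Lib.P083.Defs

/-!
# P083: more definitions (used only in proofs)
-/

namespace Vale.Agent.P083

open scoped BigOperators InnerProductSpace

section Exact
variable {K : Type*} [NormedAddCommGroup K] [InnerProductSpace ℂ K]

/-- `1 -` average over `{(s,0,0)}` -/
noncomputable def QA (L : Heis → K →L[ℂ] K) : K →L[ℂ] K := 1 - (37 : ℂ)⁻¹ • ∑ s : F, L ⟨s, 0, 0⟩

/-- `1 -` average over `{(0,s,0)}` -/
noncomputable def QB (L : Heis → K →L[ℂ] K) : K →L[ℂ] K := 1 - (37 : ℂ)⁻¹ • ∑ s : F, L ⟨0, s, 0⟩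

/-- `δ`-approximate representation of the Heisenberg group -/
structure IsApx [CompleteSpace K] (δ : ℝ) (u : Heis → K →L[ℂ] K) : Prop where
  one : ‖u 1 - 1‖ ≤ δ
  mul : ∀ g h, ‖u g * u h - u (g * h)‖ ≤ δ
  star : ∀ g, ‖star (u g) - u g⁻¹‖ ≤ δ

end Exact

/-- the standard system of permutations of `W k` -/
structure IsStd {k : ℕ} (Z : PermSys (W k)) : Prop where
  pi : ∀ e g w, Z.π e g w = (dat e g).onW w
  P : ∀ i s w, Z.P i s w = (gen i s).onW w

/-- the word operator `S_α` -/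
def wd {B : Type*} [Monoid B] (S : Fin 2 → B) : List (Fin 2) → B
  | [] => 1
  | i :: α => S i * wd S α

end Vale.Agent.P083
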