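import Mathlib
import Vale.Agent.Lib.P083.Stmt
import Vale.Agent.Lib.P083.Defs2

/-!
# P083: words in two Cuntz isometries
-/

namespace Vale.Agent.P083

open scoped BigOperators InnerProductSpace

section Cuntz

variable {B : Type*} [CStarAlgebra B] {S : Fin 2 → B}

theorem wd_append (α β : List (Fin 2)) : wd S (α ++ β) = wd S α * wd S β := by
  induction α with
  | nil => exact (one_mul _).symm
  | cons i α ih =>
    change S i * wd S (α ++ β) = S i * wd S α * wd S β
    rw [ih, mul_assoc]

namespace Words

theorem orth01 (hS : IsCuntzPair S) : star (S 0) * S 1 = 0 := by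
  have h1 : star (S 0) * (S 0 * star (S 0) + S 1 * star (S 1)) = star (S 0) := by
    rw [hS.sum, mul_one]
  rw [mul_add, ← mul_assoc, hS.isometry, one_mul] at h1
  have h2 : star (S 0) * (S 1 * star (S 1)) = 0 := by
    have := h1
    rwa [add_eq_left] at this
  calc star (S 0) * S 1 = star (S 0) * (S 1 * star (S 1)) * S 1 := by
        rw [mul_assoc, mul_assoc (S 1), hS.isometry, mul_one]
    _ = 0 := by rw [h2, zero_mul]

theorem orth (hS : IsCuntzPair S) {i j : Fin 2} (h : i ≠ j) : star (S i) * S j = 0 := by
  have h01 := orth01 hS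
  have h10 : star (S 1) * S 0 = 0 := by
    have h2 := congrArg star h01
    rwa [star_mul, star_star, star_zero] at h2
  fin_cases i <;> fin_cases j
  · exact absurd rfl h
  · exact h01
  · exact h10
  · exact absurd rfl h

theorem step (α β : List (Fin 2)) (i j : Fin 2) :
    star (wd S (i :: α)) * wd S (j :: β) = star (wd S α) * (star (S i) * S j) * wd S β := by
  change star (S i * wd S α) * (S j * wd S β) = _
  rw [star_mul]
  simp only [mul_assoc]

end Words

theorem wd_iso (hS : IsCuntzPair S) (α : List (Fin 2)) : star (wd S α) * wd S α = 1 := by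
  induction α with
  | nil =>
    change star (1 : B) * 1 = 1
    rw [star_one, one_mul]
  | cons i α ih => rw [Words.step, hS.isometry, mul_one, ih]

theorem wd_orth (hS : IsCuntzPair S) {α β : List (Fin 2)} (hl : α.length = β.length)
    (hne : α ≠ β) : star (wd S α) * wd S β = 0 := by
  induction α generalizing β with
  | nil =>
    exfalso
    apply hne
    exact (List.eq_nil_of_length_eq_zero hl.symm).symm
  | cons i α ih =>
    cases β with
    | nil => exact absurd hl (by simp)
    | cons j β =>
      rw [Words.step]
      by_cases hij : i = j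
      · subst hij
        rw [hS.isometry, mul_one]
        refine ih (by simpa using hl) ?_
        intro h
        exact hne (by rw [h])
      · rw [Words.orth hS hij, mul_zero, zero_mul]

theorem wd_sum (hS : IsCuntzPair S) (n : ℕ) :
    ∑ f : Fin n → Fin 2, wd S (List.ofFn f) * star (wd S (List.ofFn f)) = 1 := by
  induction n with
  | zero =>
    rw [Fintype.sum_unique]
    simp [wd]
  | succ n ih =>
    rw [← (Fin.consEquiv (fun _ : Fin (n + 1) => Fin 2)).sum_comp, Fintype.sum_prod_type]
    have h1 : ∀ i : Fin 2, ∑ f : Fin n → Fin 2,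
        wd S (List.ofFn ((Fin.consEquiv (fun _ : Fin (n + 1) => Fin 2)) (i, f))) *
          star (wd S (List.ofFn ((Fin.consEquiv (fun _ : Fin (n + 1) => Fin 2)) (i, f)))) =
        S i * star (S i) := by
      intro i
      have h2 : ∀ f : Fin n → Fin 2,
          wd S (List.ofFn ((Fin.consEquiv (fun _ : Fin (n + 1) => Fin 2)) (i, f))) *
          star (wd S (List.ofFn ((Fin.consEquiv (fun _ : Fin (n + 1) => Fin 2)) (i, f)))) =
          S i * (wd S (List.ofFn f) * star (wd S (List.ofFn f))) * star (S i) := by
        intro f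
        have h3 : List.ofFn ((Fin.consEquiv (fun _ : Fin (n + 1) => Fin 2)) (i, f)) =
            i :: List.ofFn f := by
          change List.ofFn (Fin.cons i f : Fin (n + 1) → Fin 2) = _
          rw [List.ofFn_cons]
        rw [h3]
        change S i * wd S (List.ofFn f) * star (S i * wd S (List.ofFn f)) = _
        rw [star_mul]
        simp only [mul_assoc]
      rw [Finset.sum_congr rfl fun f _ => h2 f, ← Finset.sum_mul, ← Finset.mul_sum, ih, mul_one]
    rw [Finset.sum_congr rfl fun i _ => h1 i, Fin.sum_univ_two]
    exact hS.sum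

namespace Words

/-- the product `S_β* S_γ` is a word, the adjoint of a word, or zero -/
theorem star_mul_cases (hS : IsCuntzPair S) (β γ : List (Fin 2)) :
    (∃ γ', star (wd S β) * wd S γ = wd S γ') ∨ (∃ β', star (wd S β) * wd S γ = star (wd S β')) ∨
      star (wd S β) * wd S γ = 0 := by
  induction β generalizing γ with
  | nil =>
    left
    refine ⟨γ, ?_⟩
    change star (1 : B) * _ = _
    rw [star_one, one_mul]
  | cons i β ih =>
    cases γ with
    | nil =>
      right
      left
      exact ⟨i :: β, mul_one _⟩
    | cons j γ =>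
      by_cases hij : i = j
      · subst hij
        have h := ih γ
        rw [step, hS.isometry, mul_one]
        exact h
      · right
        right
        rw [step, orth hS hij, mul_zero, zero_mul]

/-- the spanning set -/
def sp (S : Fin 2 → B) : Set B :=
  Set.range fun q : List (Fin 2) × List (Fin 2) => wd S q.1 * star (wd S q.2)

theorem mem_sp (α β : List (Fin 2)) : wd S α * star (wd S β) ∈ Submodule.span ℂ (sp S) :=
  Submodule.subset_span ⟨(α, β), rfl⟩

theorem mul_sp (hS : IsCuntzPair S) {x y : B} (hx : x ∈ Submodule.span ℂ (sp S))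
    (hy : y ∈ Submodule.span ℂ (sp S)) : x * y ∈ Submodule.span ℂ (sp S) := by
  have h1 := Submodule.mul_mem_mul hx hy
  rw [Submodule.span_mul_span] at h1
  refine Submodule.span_le.2 ?_ h1
  rintro _ ⟨_, ⟨⟨α, β⟩, rfl⟩, _, ⟨⟨γ, δ⟩, rfl⟩, rfl⟩
  change wd S α * star (wd S β) * (wd S γ * star (wd S δ)) ∈ Submodule.span ℂ (sp S)
  have h2 : wd S α * star (wd S β) * (wd S γ * star (wd S δ)) =
      wd S α * (star (wd S β) * wd S γ) * star (wd S δ) := by
    simp only [mul_assoc]
  rw [h2]
  rcases star_mul_cases hS β γ with ⟨γ', h⟩ | ⟨β', h⟩ | h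
  · rw [h, ← wd_append]
    exact mem_sp _ _
  · rw [h, mul_assoc, ← star_mul, ← wd_append]
    exact mem_sp _ _
  · rw [h, mul_zero, zero_mul]
    exact Submodule.zero_mem _

theorem star_sp {x : B} (hx : x ∈ Submodule.span ℂ (sp S)) :
    star x ∈ Submodule.span ℂ (sp S) := by
  induction hx using Submodule.span_induction with
  | mem x h =>
    obtain ⟨⟨α, β⟩, rfl⟩ := h
    change star (wd S α * star (wd S β)) ∈ _
    rw [star_mul, star_star]
    exact mem_sp _ _
  | zero =>
    rw [star_zero]
    exact Submodule.zero_mem _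
  | add x y _ _ hx hy =>
    rw [star_add]
    exact Submodule.add_mem _ hx hy
  | smul c x _ hx =>
    rw [star_smul]
    exact Submodule.smul_mem _ _ hx

theorem one_sp : (1 : B) ∈ Submodule.span ℂ (sp S) := by
  have h := mem_sp (S := S) [] []
  change (1 : B) * star (1 : B) ∈ _ at h
  rwa [star_one, one_mul] at h

end Words

theorem adjoin_le_span (hS : IsCuntzPair S) {b : B} (hb : b ∈ StarAlgebra.adjoin ℂ (Set.range S)) :
    b ∈ Submodule.span ℂ (Set.range fun q : List (Fin 2) × List (Fin 2) =>
      wd S q.1 * star (wd S q.2)) := by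
  change b ∈ Submodule.span ℂ (Words.sp S)
  induction hb using StarAlgebra.adjoin_induction with
  | mem x h =>
    obtain ⟨i, rfl⟩ := h
    have h := Words.mem_sp (S := S) [i] []
    change S i * 1 * star (1 : B) ∈ _ at h
    rwa [star_one, mul_one, mul_one] at h
  | algebraMap r =>
    rw [Algebra.algebraMap_eq_smul_one]
    exact Submodule.smul_mem _ _ Words.one_sp
  | add x y _ _ hx hy => exact Submodule.add_mem _ hx hy
  | mul x y _ _ hx hy => exact Words.mul_sp hS hx hy
  | star x _ hx => exact Words.star_sp hx

end Cuntz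

end Vale.Agent.P083
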