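import Mathlib

/-!
# P083: every nonzero unital C*-algebra has a representation
-/

namespace Vale.Agent.P083

open scoped ComplexOrder
open Complex

namespace States

attribute [local instance] CStarAlgebra.spectralOrder CStarAlgebra.spectralOrderedRing

variable {O : Type} [CStarAlgebra O] [Nontrivial O]

/-- a norm one functional with `g 1 = 1` is real on selfadjoint elements -/
theorem im_eq_zero (g : StrongDual ℂ O) (hg : ‖g‖ = 1) (h1 : g 1 = 1) (a : O)
    (ha : IsSelfAdjoint a) : (g a).im = 0 := by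
  have key : ∀ t : ℝ, (g a).re ^ 2 + ((g a).im + t) ^ 2 ≤ ‖a‖ ^ 2 + t ^ 2 := by
    intro t
    have h2 : ‖a + algebraMap ℂ O (t * I)‖ ^ 2 ≤ ‖a‖ ^ 2 + t ^ 2 := by
      rw [sq, ← CStarRing.norm_star_mul_self]
      have h3 : star (a + algebraMap ℂ O (t * I)) * (a + algebraMap ℂ O (t * I)) =
          a * a + algebraMap ℂ O (t ^ 2) := by
        rw [star_add, ha.star_eq, ← algebraMap_star_comm]
        have h4 : star ((t : ℂ) * I) = -(t * I) := by
          simp
        rw [h4, map_neg]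
        have h5 : algebraMap ℂ O ((t : ℂ) ^ 2) = -(algebraMap ℂ O (t * I) * algebraMap ℂ O (t * I)) := by
          rw [← map_mul, ← map_neg]
          congr 1
          ring_nf
          rw [I_sq]
          ring
        rw [h5]
        have h6 := Algebra.commutes ((t : ℂ) * I) a
        rw [add_mul, mul_add, mul_add]
        simp only [neg_mul]
        rw [h6]
        abel
      rw [h3]
      refine (norm_add_le _ _).trans (add_le_add ?_ ?_)
      · rw [sq]; exact norm_mul_le a a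
      · rw [norm_algebraMap']
        simp
    have h7 : ‖g (a + algebraMap ℂ O (t * I))‖ ≤ ‖a + algebraMap ℂ O (t * I)‖ := by
      have := g.le_opNorm (a + algebraMap ℂ O (t * I))
      rwa [hg, one_mul] at this
    have h8 : g (a + algebraMap ℂ O (t * I)) = g a + t * I := by
      rw [map_add, Algebra.algebraMap_eq_smul_one, map_smul, h1, smul_eq_mul, mul_one]
    rw [h8] at h7
    have h9 : ‖g a + t * I‖ ^ 2 = (g a).re ^ 2 + ((g a).im + t) ^ 2 := by
      rw [← normSq_eq_norm_sq, normSq_apply]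
      simp
      ring
    rw [← h9]
    exact (pow_le_pow_left₀ (norm_nonneg _) h7 2).trans h2
  by_contra hne
  have h := key ((‖a‖ ^ 2 + 1) / (2 * (g a).im))
  have h2 : 2 * (g a).im * ((‖a‖ ^ 2 + 1) / (2 * (g a).im)) = ‖a‖ ^ 2 + 1 := by
    field_simp
  nlinarith [sq_nonneg (g a).re, sq_nonneg (g a).im]

theorem pos (g : StrongDual ℂ O) (hg : ‖g‖ = 1) (h1 : g 1 = 1) (a : O) (ha : 0 ≤ a) :
    0 ≤ g a := by
  have hsa : IsSelfAdjoint a := IsSelfAdjoint.of_nonneg ha
  have h2 := hsa.le_algebraMap_norm_self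
  have h3 : 0 ≤ algebraMap ℝ O ‖a‖ - a := sub_nonneg.2 h2
  have h4 : ‖algebraMap ℝ O ‖a‖ - a‖ ≤ ‖a‖ := by
    have h5 : algebraMap ℝ O ‖a‖ - a ≤ algebraMap ℝ O ‖a‖ := sub_le_self _ ha
    have h6 := CStarAlgebra.norm_le_norm_of_nonneg_of_le h3 h5
    rwa [norm_algebraMap', Real.norm_of_nonneg (norm_nonneg a)] at h6
  have h7 : ‖g (algebraMap ℝ O ‖a‖ - a)‖ ≤ ‖a‖ := by
    have := g.le_opNorm (algebraMap ℝ O ‖a‖ - a)
    rw [hg, one_mul] at this
    exact this.trans h4
  have h8 : g (algebraMap ℝ O ‖a‖ - a) = ‖a‖ - g a := by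
    have e1 : algebraMap ℝ O ‖a‖ = (‖a‖ : ℂ) • (1 : O) := by
      rw [Algebra.algebraMap_eq_smul_one]
      exact (Complex.coe_smul _ _).symm
    rw [map_sub, e1, map_smul, h1, smul_eq_mul, mul_one]
  rw [h8] at h7
  have h9 : ‖a‖ - (g a).re ≤ ‖a‖ := by
    have := (Complex.re_le_norm ((‖a‖ : ℂ) - g a)).trans h7
    simpa using this
  rw [Complex.nonneg_iff]
  exact ⟨by linarith, (im_eq_zero g hg h1 a hsa).symm⟩

end States

open States in
theorem exists_rep (O : Type) [CStarAlgebra O] [Nontrivial O] :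
    ∃ (H : Type) (_ : NormedAddCommGroup H) (_ : InnerProductSpace ℂ H) (_ : CompleteSpace H)
      (_ : Nontrivial H), Nonempty (O →⋆ₐ[ℂ] (H →L[ℂ] H)) := by
  let _ := CStarAlgebra.spectralOrder O
  let _ := CStarAlgebra.spectralOrderedRing O
  obtain ⟨g, hg, h1⟩ := exists_dual_vector ℂ (1 : O) (by rw [norm_one]; exact one_ne_zero)
  rw [norm_one] at h1
  have h1' : g 1 = 1 := by simpa using h1
  let f : O →ₚ[ℂ] ℂ := PositiveLinearMap.mk₀ (g : O →ₗ[ℂ] ℂ) (fun a ha => States.pos g hg h1' a ha)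
  refine ⟨f.GNS, inferInstance, inferInstance, inferInstance, ?_, ⟨f.gnsStarAlgHom⟩⟩
  refine ⟨⟨((f.toPreGNS 1 : f.PreGNS) : f.GNS), 0, ?_⟩⟩
  intro h
  have h2 : ‖((f.toPreGNS 1 : f.PreGNS) : f.GNS)‖ = 0 := by rw [h, norm_zero]
  rw [UniformSpace.Completion.norm_coe, f.preGNS_norm_def] at h2
  have h3 : f (star (f.ofPreGNS (f.toPreGNS 1)) * f.ofPreGNS (f.toPreGNS 1)) = 1 := by
    rw [f.ofPreGNS_toPreGNS, star_one, mul_one]
    exact h1'
  rw [h3] at h2
  simp at h2

end Vale.Agent.P083
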