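import Vale.Agent.Lib.P083.Defs2

/-!
# P083, module Base: the base vector (PROOF.md section 3, level one)
-/

namespace Vale.Agent.P083

open scoped BigOperators InnerProductSpace Topology ENNReal

namespace BaseAux

/-- the additive character with value `om` at `1` -/
noncomputable abbrev ψ : AddChar F ℂ := ZMod.stdAddChar

theorem psi_one : ψ 1 = om := by
  have h := ZMod.stdAddChar_coe (N := 37) 1
  simp only [Int.cast_one] at h
  rw [ψ, h, om]
  congr 1
  push_cast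
  ring

theorem norm_psi (j : F) : ‖ψ j‖ = 1 := by
  exact AddChar.norm_apply _ _

theorem gen_e1 (i : Fin 4) (c : F) (v : X) (j : F) :
    (gen i c).fst (v + j • e1) = (gen i c).fst v + j • e1 := by
  have h : (gen i c).A.mulVec e1 = e1 := by
    fin_cases i
    · funext x
      fin_cases x <;> simp [gen, e1, Matrix.mulVec, dotProduct, Fin.sum_univ_three]
    · funext x
      fin_cases x <;> simp [gen, e1, Matrix.mulVec, dotProduct, Fin.sum_univ_three]
    · simp [gen]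
    · simp [gen]
  unfold Tri.fst
  rw [Matrix.mulVec_add, Matrix.mulVec_smul, h]
  abel

section
variable {H : Type*} [NormedAddCommGroup H] [InnerProductSpace ℂ H] [CompleteSpace H]

theorem norm_le_two {b : H →L[ℂ] H} {δ : ℝ} (h1 : δ ≤ 1 / 10 ^ 16) (h : ‖star b * b - 1‖ ≤ δ) :
    ‖b‖ ≤ 2 := by
  have h2 : ‖star b * b‖ ≤ 1 + δ := by
    have h3 : star b * b = (star b * b - 1) + 1 := by abel
    rw [h3]
    refine (norm_add_le _ _).trans ?_
    have h4 : ‖(1 : H →L[ℂ] H)‖ ≤ 1 := ContinuousLinearMap.norm_id_le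
    linarith
  rw [CStarRing.norm_star_mul_self] at h2
  by_contra h5
  push Not at h5
  have : 4 < ‖b‖ * ‖b‖ := by nlinarith
  norm_num at h1
  linarith

theorem norm_u_le {u : Fin 6 → Heis → H →L[ℂ] H} {G : Fin 4 → F → H →L[ℂ] H} {δ : ℝ}
    (hs : IsSys δ u G) (h1 : δ ≤ 1 / 10 ^ 16) (e : Fin 6) (g : Heis) : ‖u e g‖ ≤ 2 := by
  set b := u e g with hb
  have h2 : star b * b = (star b - u e g⁻¹) * b + (u e g⁻¹ * b - u e (g⁻¹ * g))
      + (u e 1 - 1) + 1 := by
    rw [inv_mul_cancel, sub_mul]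
    abel
  have h3 : ‖star b * b‖ ≤ δ * ‖b‖ + δ + δ + 1 := by
    rw [h2]
    have h4 : ‖(1 : H →L[ℂ] H)‖ ≤ 1 := ContinuousLinearMap.norm_id_le
    have h5 : ‖(star b - u e g⁻¹) * b‖ ≤ δ * ‖b‖ :=
      (norm_mul_le _ _).trans (by gcongr; exact hs.star e g)
    refine (norm_add_le _ _).trans (add_le_add ?_ h4)
    refine (norm_add_le _ _).trans (add_le_add ?_ (hs.one e))
    exact (norm_add_le _ _).trans (add_le_add h5 (hs.mul e _ _))
  rw [CStarRing.norm_star_mul_self] at h3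
  by_contra h5
  push Not at h5
  norm_num at h1
  have h6 : δ * ‖b‖ ≤ 1 / 10000000000000000 * ‖b‖ := by gcongr
  nlinarith

theorem norm_G_le {u : Fin 6 → Heis → H →L[ℂ] H} {G : Fin 4 → F → H →L[ℂ] H} {δ : ℝ}
    (hs : IsSys δ u G) (h1 : δ ≤ 1 / 10 ^ 16) (i : Fin 4) (c : F) : ‖G i c‖ ≤ 2 := by
  fin_cases i
  · have h := norm_u_le hs h1 0 ⟨c, 0, 0⟩
    rwa [hs.src 0 c] at h
  · have h := norm_u_le hs h1 1 ⟨c, 0, 0⟩
    rwa [hs.src 1 c] at h
  · have h := norm_u_le hs h1 2 ⟨c, 0, 0⟩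
    rwa [hs.src 2 c] at h
  · have h := norm_u_le hs h1 3 ⟨0, c, 0⟩
    rwa [hs.tgt 3 c] at h

end

end BaseAux

open BaseAux

section
variable {H : Type*} [NormedAddCommGroup H] [InnerProductSpace ℂ H] [CompleteSpace H] [Nontrivial H]
variable {u : Fin 6 → Heis → H →L[ℂ] H} {G : Fin 4 → F → H →L[ℂ] H} {s : X → H →L[ℂ] H}
  {a : H →L[ℂ] H} {δ : ℝ}

omit [Nontrivial H] in
theorem BaseAux.move (hm : IsModel δ u G s a) (h0 : 0 ≤ δ) (h1 : δ ≤ 1 / 10 ^ 16)
    (i : Fin 4) (c : F) (v : X) (η : H) :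
    ‖G i c (s v (a η)) - s ((gen i c).fst v) (a η)‖ ≤ 20 * δ * ‖η‖ := by
  have hs : ∀ v, ‖s v‖ ≤ 2 := fun v => norm_le_two h1 (by simpa using hm.iso v v)
  have ha : ‖a‖ ≤ 2 := norm_le_two h1 hm.baseIso
  have hG : ∀ i c, ‖G i c‖ ≤ 2 := fun i c => BaseAux.norm_G_le hm.sys h1 i c
  have haη : ‖a η‖ ≤ 2 * ‖η‖ := (a.le_opNorm η).trans (by gcongr)
  have hη := norm_nonneg η
  have hb : ∀ i c, ‖G i c (a η) - a η‖ ≤ δ * ‖η‖ := by
    intro i c
    have h2 := (G i c * a - a).le_opNorm η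
    exact h2.trans (by gcongr; exact hm.base i c)
  have hcase : ∀ (g : H →L[ℂ] H) (i : Fin 4) (w : X), ‖g * s v - s w * G i c‖ ≤ δ →
      ‖g (s v (a η)) - s w (a η)‖ ≤ 20 * δ * ‖η‖ := by
    intro g i w hg
    have h2 : ‖g (s v (a η)) - s w (G i c (a η))‖ ≤ δ * (2 * ‖η‖) := by
      have h3 := (g * s v - s w * G i c).le_opNorm (a η)
      exact h3.trans (by gcongr)
    have h3 : ‖s w (G i c (a η)) - s w (a η)‖ ≤ 2 * (δ * ‖η‖) := by
      rw [← map_sub]
      exact ((s w).le_opNorm _).trans (by gcongr; exacts [hs w, hb i c])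
    have h4 : g (s v (a η)) - s w (a η)
        = (g (s v (a η)) - s w (G i c (a η))) + (s w (G i c (a η)) - s w (a η)) := by abel
    rw [h4]
    refine (norm_add_le _ _).trans ((add_le_add h2 h3).trans ?_)
    nlinarith [mul_nonneg h0 hη]
  fin_cases i
  · exact hcase (G 0 c) 0 _ (hm.sec0 c v)
  · exact hcase (G 1 c) 1 _ (hm.sec1 c v)
  · have hf : (gen 2 c).fst v = v := by simp [gen, Tri.fst]
    change ‖G 2 c (s v (a η)) - s ((gen 2 c).fst v) (a η)‖ ≤ 20 * δ * ‖η‖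
    rw [hf]
    set g : Heis := ⟨c, 0, 0⟩ * ⟨0, c * v 0, 0⟩ with hg
    have h2 : ‖G 2 c (s v (a η)) - s v (u 5 g (a η))‖ ≤ δ * (2 * ‖η‖) := by
      have h3 := (G 2 c * s v - s v * u 5 g).le_opNorm (a η)
      exact h3.trans (by gcongr; exact hm.sec2 c v)
    have e1' : u 5 ⟨c, 0, 0⟩ = G 2 c := hm.sys.src 5 c
    have e2' : u 5 ⟨0, c * v 0, 0⟩ = G 3 (c * v 0) := hm.sys.tgt 5 (c * v 0)
    have h3 : ‖G 2 c (G 3 (c * v 0) (a η)) - u 5 g (a η)‖ ≤ δ * (2 * ‖η‖) := by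
      have h4 := hm.sys.mul 5 ⟨c, 0, 0⟩ ⟨0, c * v 0, 0⟩
      rw [e1', e2', ← hg] at h4
      have h5 := (G 2 c * G 3 (c * v 0) - u 5 g).le_opNorm (a η)
      exact h5.trans (by gcongr)
    have h4 : ‖G 2 c (G 3 (c * v 0) (a η)) - G 2 c (a η)‖ ≤ 2 * (δ * ‖η‖) := by
      rw [← map_sub]
      exact ((G 2 c).le_opNorm _).trans (by gcongr; exacts [hG 2 c, hb 3 _])
    have h5 : ‖u 5 g (a η) - a η‖ ≤ 5 * (δ * ‖η‖) := by
      have h6 : u 5 g (a η) - a η = -(G 2 c (G 3 (c * v 0) (a η)) - u 5 g (a η))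
          + (G 2 c (G 3 (c * v 0) (a η)) - G 2 c (a η)) + (G 2 c (a η) - a η) := by abel
      rw [h6]
      refine (norm_add_le _ _).trans ?_
      refine (add_le_add (norm_add_le _ _) le_rfl).trans ?_
      rw [norm_neg]
      have := hb 2 c
      nlinarith
    have h6 : ‖s v (u 5 g (a η)) - s v (a η)‖ ≤ 2 * (5 * (δ * ‖η‖)) := by
      rw [← map_sub]
      exact ((s v).le_opNorm _).trans (by gcongr; exact hs v)
    have h7 : G 2 c (s v (a η)) - s v (a η)
        = (G 2 c (s v (a η)) - s v (u 5 g (a η))) + (s v (u 5 g (a η)) - s v (a η)) := by abel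
    rw [h7]
    refine (norm_add_le _ _).trans ((add_le_add h2 h6).trans ?_)
    nlinarith [mul_nonneg h0 hη]
  · change ‖G 3 c (s v (a η)) - s ((gen 3 c).fst v) (a η)‖ ≤ 20 * δ * ‖η‖
    have h2 := (G 3 c * s v - s ((gen 3 c).fst v)).le_opNorm (a η)
    have h3 : ‖G 3 c (s v (a η)) - s ((gen 3 c).fst v) (a η)‖ ≤ δ * (2 * ‖η‖) :=
      h2.trans (by gcongr; exact hm.sec3 c v)
    nlinarith [mul_nonneg h0 hη]

omit [Nontrivial H] in
theorem BaseAux.sum_lower (hs : ∀ v v', ‖star (s v) * s v' - (if v = v' then 1 else 0)‖ ≤ δ)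
    (h1 : δ ≤ 1 / 10 ^ 16) (v : F → X) (hv : Function.Injective v) (c : F → ℂ)
    (hc : ∀ j, ‖c j‖ = 1) (y : H) : 36 * ‖y‖ ^ 2 ≤ ‖∑ j, c j • s (v j) y‖ ^ 2 := by
  have hE : ∀ j l, (if j = l then (1 : ℝ) else 0) * ‖y‖ ^ 2 - δ * ‖y‖ ^ 2 ≤
      RCLike.re (inner ℂ (c j • s (v j) y) (c l • s (v l) y)) := by
    intro j l
    have e1' : inner ℂ (s (v j) y) (s (v l) y) = inner ℂ y ((star (s (v j)) * s (v l)) y) := by
      rw [ContinuousLinearMap.star_eq_adjoint]
      exact (ContinuousLinearMap.adjoint_inner_right (s (v j)) y (s (v l) y)).symm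
    have e2' : (star (s (v j)) * s (v l)) y
        = (star (s (v j)) * s (v l) - (if v j = v l then 1 else 0)) y
          + (if j = l then (1 : ℂ) else 0) • y := by
      by_cases h : j = l
      · subst h; simp
      · rw [if_neg h, if_neg (fun h' => h (hv h'))]; simp
    set T : H →L[ℂ] H := star (s (v j)) * s (v l) - (if v j = v l then 1 else 0) with hT
    have hTy : ‖inner ℂ y (T y)‖ ≤ δ * ‖y‖ ^ 2 := by
      refine (norm_inner_le_norm _ _).trans ?_
      have := T.le_opNorm y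
      have h3 : ‖T y‖ ≤ δ * ‖y‖ := this.trans (by gcongr; exact hs _ _)
      nlinarith [norm_nonneg y]
    rw [inner_smul_left, inner_smul_right, e1', e2', inner_add_right, inner_smul_right]
    have h4 : ‖(starRingEnd ℂ) (c j) * (c l * inner ℂ y (T y))‖ ≤ δ * ‖y‖ ^ 2 := by
      rw [norm_mul, norm_mul, RCLike.norm_conj, hc, hc, one_mul, one_mul]
      exact hTy
    have h5 : -(δ * ‖y‖ ^ 2) ≤ RCLike.re ((starRingEnd ℂ) (c j) * (c l * inner ℂ y (T y))) := by
      have h6 := RCLike.abs_re_le_norm ((starRingEnd ℂ) (c j) * (c l * inner ℂ y (T y)))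
      have h7 := neg_abs_le (RCLike.re ((starRingEnd ℂ) (c j) * (c l * inner ℂ y (T y))))
      linarith
    have h8 : (starRingEnd ℂ) (c j) * (c l * (inner ℂ y (T y)
          + (if j = l then (1 : ℂ) else 0) * inner ℂ y y))
        = (starRingEnd ℂ) (c j) * (c l * inner ℂ y (T y))
          + (if j = l then ((‖y‖ ^ 2 : ℝ) : ℂ) else 0) := by
      by_cases h : j = l
      · subst h
        simp only [if_true, one_mul]
        have h9 : (starRingEnd ℂ) (c j) * c j = 1 := by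
          rw [mul_comm, RCLike.mul_conj, hc]; simp
        have h10 : (inner ℂ y y : ℂ) = ((‖y‖ ^ 2 : ℝ) : ℂ) := by
          rw [inner_self_eq_norm_sq_to_K]; push_cast; rfl
        rw [h10, mul_add, mul_add, ← mul_assoc ((starRingEnd ℂ) (c j)) (c j) ((‖y‖ ^ 2 : ℝ) : ℂ),
          h9, one_mul]
      · simp [h]
    rw [h8, map_add]
    have h9 : RCLike.re (if j = l then ((‖y‖ ^ 2 : ℝ) : ℂ) else 0)
        = (if j = l then (1 : ℝ) else 0) * ‖y‖ ^ 2 := by
      by_cases h : j = l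
      · simp only [h, if_true, one_mul]; exact Complex.ofReal_re _
      · simp [h]
    rw [h9]
    linarith
  have hsum : ‖∑ j, c j • s (v j) y‖ ^ 2
      = ∑ j, ∑ l, RCLike.re (inner ℂ (c j • s (v j) y) (c l • s (v l) y)) := by
    rw [← inner_self_eq_norm_sq (𝕜 := ℂ), sum_inner, map_sum]
    refine Finset.sum_congr rfl fun j _ => ?_
    rw [inner_sum, map_sum]
  rw [hsum]
  have h2 : ∑ j : F, ∑ l : F, ((if j = l then (1 : ℝ) else 0) * ‖y‖ ^ 2 - δ * ‖y‖ ^ 2)
      = 37 * ‖y‖ ^ 2 - 37 ^ 2 * (δ * ‖y‖ ^ 2) := by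
    simp only [Finset.sum_sub_distrib, ← Finset.sum_mul, Finset.sum_ite_eq, Finset.mem_univ,
      if_true, Finset.sum_const, Finset.card_univ, ZMod.card, nsmul_eq_mul]
    push_cast
    ring
  have h3 := Finset.sum_le_sum fun j (_ : j ∈ (Finset.univ : Finset F)) =>
    Finset.sum_le_sum fun l (_ : l ∈ (Finset.univ : Finset F)) => hE j l
  rw [h2] at h3
  refine le_trans ?_ h3
  have : δ * ‖y‖ ^ 2 ≤ 1 / 10 ^ 16 * ‖y‖ ^ 2 := by gcongr
  norm_num at this ⊢
  nlinarith [sq_nonneg ‖y‖]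

theorem base_vec (hm : IsModel δ u G s a) (h0 : 0 ≤ δ) (h1 : δ ≤ 1 / 10 ^ 16)
    {Z : PermSys (W 1)} (hZ : IsStd Z) :
    ∃ ζ : PiLp 2 (fun _ : W 1 => H), ‖ζ‖ = 1 ∧ IsV (k := 0) ζ ∧
      ∀ i c, ‖Theta (G i c) (Z.P i c) ζ - ζ‖ ≤ 1 / 100 := by
  obtain ⟨η, hη⟩ := exists_norm_eq H zero_le_one
  set y : H := a η with hy
  have hy2 : 1 / 2 ≤ ‖y‖ ^ 2 := by
    have e1' : inner ℂ y y = inner ℂ η ((star a * a) η) := by
      rw [ContinuousLinearMap.star_eq_adjoint]
      exact (ContinuousLinearMap.adjoint_inner_right a η (a η)).symm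
    have e2' : (star a * a) η = (star a * a - 1) η + η := by simp
    have e3' : ‖y‖ ^ 2 = RCLike.re (inner ℂ η ((star a * a - 1) η)) + 1 := by
      rw [← inner_self_eq_norm_sq (𝕜 := ℂ), e1', e2', inner_add_right, map_add,
        inner_self_eq_norm_sq, hη, one_pow]
    have h3 : ‖inner ℂ η ((star a * a - 1) η)‖ ≤ δ := by
      refine (norm_inner_le_norm _ _).trans ?_
      have := (star a * a - 1).le_opNorm η
      rw [hη] at this ⊢
      have h5 := hm.baseIso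
      linarith
    have h6 := RCLike.abs_re_le_norm (inner ℂ η ((star a * a - 1) η))
    have h7 := neg_abs_le (RCLike.re (inner ℂ η ((star a * a - 1) η)))
    rw [e3']
    norm_num at h1
    linarith
  set ζ₀ : PiLp 2 (fun _ : W 1 => H) :=
    WithLp.toLp 2 (fun w => ∑ j : F, ψ (-j) • s (w 0 + j • e1) y) with hζ₀
  have hz : ∀ w, ζ₀ w = ∑ j : F, ψ (-j) • s (w 0 + j • e1) y := fun w => rfl
  have hNpos : (0 : ℝ) < Fintype.card (W 1) := by exact_mod_cast Fintype.card_pos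
  have hlow : 18 * (Fintype.card (W 1) : ℝ) ≤ ‖ζ₀‖ ^ 2 := by
    rw [PiLp.norm_sq_eq_of_L2]
    have h2 : ∀ w : W 1, (18 : ℝ) ≤ ‖ζ₀ w‖ ^ 2 := by
      intro w
      rw [hz]
      have h3 := BaseAux.sum_lower hm.iso h1 (fun j => w 0 + j • e1) (by
        intro j l h
        have h4 := congrFun (add_left_cancel h) 0
        simpa [e1] using h4) (fun j => ψ (-j)) (fun j => norm_psi _) y
      linarith
    calc 18 * (Fintype.card (W 1) : ℝ) = ∑ w : W 1, (18 : ℝ) := by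
          rw [Finset.sum_const, Finset.card_univ, nsmul_eq_mul]; ring
      _ ≤ _ := Finset.sum_le_sum fun w _ => h2 w
  have hdef : ∀ i c, ‖Theta (G i c) (Z.P i c) ζ₀ - ζ₀‖ ^ 2
      ≤ (Fintype.card (W 1) : ℝ) * (740 * δ) ^ 2 := by
    intro i c
    rw [PiLp.norm_sq_eq_of_L2]
    have h2 : ∀ w : W 1, ‖(Theta (G i c) (Z.P i c) ζ₀ - ζ₀) w‖ ^ 2 ≤ (740 * δ) ^ 2 := by
      intro w
      refine pow_le_pow_left₀ (norm_nonneg _) ?_ 2
      rw [PiLp.sub_apply, Theta_apply]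
      set w' := (Z.P i c).symm w with hw'
      have hw : w = (gen i c).onW w' := by
        rw [← hZ.P i c w', hw', Equiv.apply_symm_apply]
      have hw0 : w 0 = (gen i c).fst (w' 0) := by
        rw [hw]
        simp [Tri.onW, Tri.fst]
      have h3 : G i c (ζ₀ w') - ζ₀ w = ∑ j : F, ψ (-j) • (G i c (s (w' 0 + j • e1) y)
          - s ((gen i c).fst (w' 0 + j • e1)) y) := by
        rw [hz, hz, map_sum, ← Finset.sum_sub_distrib]
        refine Finset.sum_congr rfl fun j _ => ?_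
        rw [map_smul, gen_e1, ← hw0, smul_sub]
      rw [h3]
      refine (norm_sum_le _ _).trans ?_
      have h4 : ∀ j : F, ‖ψ (-j) • (G i c (s (w' 0 + j • e1) y)
          - s ((gen i c).fst (w' 0 + j • e1)) y)‖ ≤ 20 * δ := by
        intro j
        rw [norm_smul, norm_psi, one_mul]
        have := BaseAux.move hm h0 h1 i c (w' 0 + j • e1) η
        rw [hη, mul_one] at this
        exact this
      refine (Finset.sum_le_sum fun j _ => h4 j).trans (le_of_eq ?_)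
      rw [Finset.sum_const, Finset.card_univ, ZMod.card, nsmul_eq_mul]
      push_cast
      ring
    calc ∑ w : W 1, ‖(Theta (G i c) (Z.P i c) ζ₀ - ζ₀) w‖ ^ 2
        ≤ ∑ w : W 1, (740 * δ) ^ 2 := Finset.sum_le_sum fun w _ => h2 w
      _ = _ := by rw [Finset.sum_const, Finset.card_univ, nsmul_eq_mul]
  have hpos : 0 < ‖ζ₀‖ := by
    by_contra h
    have h2 : ‖ζ₀‖ = 0 := le_antisymm (not_lt.1 h) (norm_nonneg _)
    rw [h2] at hlow
    nlinarith
  have hV₀ : ∀ w : W 1, ζ₀ (w + lastE1 0) = om • ζ₀ w := by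
    intro w
    rw [hz, hz, Finset.smul_sum]
    have hl : (lastE1 0 : W 1) 0 = e1 := by
      simp [lastE1]
    rw [← Equiv.sum_comp (Equiv.subRight (1 : F))]
    refine Finset.sum_congr rfl fun j _ => ?_
    rw [Equiv.subRight_apply, Pi.add_apply, hl, smul_smul]
    have h3 : w 0 + e1 + (j - 1) • e1 = w 0 + j • e1 := by
      rw [sub_smul, one_smul]; abel
    have h4 : ψ (-(j - 1)) = om * ψ (-j) := by
      rw [← psi_one, ← AddChar.map_add_eq_mul]
      congr 1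
      ring
    rw [h3, h4]
  refine ⟨((‖ζ₀‖⁻¹ : ℝ) : ℂ) • ζ₀, ?_, ?_, ?_⟩
  · rw [norm_smul, Complex.norm_real, Real.norm_of_nonneg (inv_nonneg.2 hpos.le),
      inv_mul_cancel₀ hpos.ne']
  · intro w
    rw [PiLp.smul_apply, PiLp.smul_apply, hV₀, smul_comm]
  · intro i c
    rw [map_smul, ← smul_sub, norm_smul, Complex.norm_real,
      Real.norm_of_nonneg (inv_nonneg.2 hpos.le), inv_mul_le_iff₀ hpos]
    have h2 := hdef i c
    refine abs_le_of_sq_le_sq' ?_ (by positivity) |>.2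
    have h3 : (740 * δ) ^ 2 ≤ 1 / 10 ^ 6 := by
      have h4 : 740 * δ ≤ 1 / 1000 := by
        norm_num at h1 ⊢
        linarith
      have h6 : (0 : ℝ) ≤ 740 * δ := mul_nonneg (by norm_num) h0
      have h7 : (740 * δ) * (740 * δ) ≤ (1 / 1000) * (1 / 1000) :=
        mul_le_mul h4 h4 h6 (by norm_num)
      rw [sq]
      refine h7.trans (le_of_eq ?_)
      norm_num
    have h4 : (Fintype.card (W 1) : ℝ) * (740 * δ) ^ 2
        ≤ (Fintype.card (W 1) : ℝ) * (1 / 10 ^ 6) := by gcongr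
    nlinarith

end

end Vale.Agent.P083
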