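import Mathlib
import Vale.Agent.Lib.P083.Defs2

/-!
# P083 module Bottom: the bottom of the spectrum (PROOF.md, 2e)
-/

namespace Vale.Agent.P083

open scoped BigOperators InnerProductSpace Topology BoundedContinuousFunction ENNReal ComplexOrder
open Filter

section Exact
variable {K : Type*} [NormedAddCommGroup K] [InnerProductSpace ℂ K]

namespace Bottom

/-- expansion of the form of `A - c` at `v - t (A - c) v` -/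
theorem expand (A : K →L[ℂ] K) (hs : ∀ x y, ⟪A x, y⟫_ℂ = ⟪x, A y⟫_ℂ) (v : K) (t : ℝ) :
    RCLike.re ⟪v - (t : ℂ) • A v, A (v - (t : ℂ) • A v)⟫_ℂ =
      RCLike.re ⟪v, A v⟫_ℂ - 2 * t * ‖A v‖ ^ 2 + t ^ 2 * RCLike.re ⟪A v, A (A v)⟫_ℂ := by
  have h1 : ⟪v, A (A v)⟫_ℂ = ⟪A v, A v⟫_ℂ := (hs v (A v)).symm
  have h2 : ⟪A v, A v⟫_ℂ = ((‖A v‖ ^ 2 : ℝ) : ℂ) := by
    rw [inner_self_eq_norm_sq_to_K]; norm_cast
  have h3 : ⟪v - (t : ℂ) • A v, A (v - (t : ℂ) • A v)⟫_ℂ =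
      ⟪v, A v⟫_ℂ - (t : ℂ) * ⟪v, A (A v)⟫_ℂ - (t : ℂ) * ⟪A v, A v⟫_ℂ +
        (t : ℂ) ^ 2 * ⟪A v, A (A v)⟫_ℂ := by
    rw [map_sub, map_smul, inner_sub_left, inner_sub_right, inner_sub_right, inner_smul_left,
      inner_smul_right, inner_smul_right, inner_smul_left, Complex.conj_ofReal]
    ring
  rw [h3, h1, h2]
  simp only [map_sub, map_add, ← Complex.ofReal_pow, ← Complex.ofReal_mul]
  have e1 : ∀ r : ℝ, RCLike.re ((r : ℂ)) = r := fun r => by simp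
  have e2 : RCLike.re (((t ^ 2 : ℝ) : ℂ) * ⟪A v, A (A v)⟫_ℂ) =
      t ^ 2 * RCLike.re ⟪A v, A (A v)⟫_ℂ := by
    simp only [RCLike.re_to_complex, Complex.re_ofReal_mul]
  rw [e1, e2]
  ring

/-- a form which is nonnegative on an invariant subspace controls the norm -/
theorem norm_sq_le (A : K →L[ℂ] K) (hs : ∀ x y, ⟪A x, y⟫_ℂ = ⟪x, A y⟫_ℂ) (S : Submodule ℂ K)
    (hS : ∀ v ∈ S, A v ∈ S) (h0 : ∀ v ∈ S, 0 ≤ RCLike.re ⟪v, A v⟫_ℂ) {M : ℝ} (hM : 0 < M)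
    (hAM : ‖A‖ ≤ M) (v : K) (hv : v ∈ S) : ‖A v‖ ^ 2 ≤ M * RCLike.re ⟪v, A v⟫_ℂ := by
  have h1 := expand A hs v M⁻¹
  have h2 : 0 ≤ RCLike.re ⟪v - ((M⁻¹ : ℝ) : ℂ) • A v, A (v - ((M⁻¹ : ℝ) : ℂ) • A v)⟫_ℂ :=
    h0 _ (S.sub_mem hv (S.smul_mem _ (hS v hv)))
  have h3 : RCLike.re ⟪A v, A (A v)⟫_ℂ ≤ M * ‖A v‖ ^ 2 := by
    calc RCLike.re ⟪A v, A (A v)⟫_ℂ ≤ ‖A v‖ * ‖A (A v)‖ := re_inner_le_norm _ _
      _ ≤ ‖A v‖ * (M * ‖A v‖) := by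
          gcongr
          exact (A.le_opNorm _).trans (by gcongr)
      _ = M * ‖A v‖ ^ 2 := by ring
  rw [h1] at h2
  have h4 : M⁻¹ ^ 2 * RCLike.re ⟪A v, A (A v)⟫_ℂ ≤ M⁻¹ ^ 2 * (M * ‖A v‖ ^ 2) := by gcongr
  have h5 : M⁻¹ ^ 2 * (M * ‖A v‖ ^ 2) = M⁻¹ * ‖A v‖ ^ 2 := by
    field_simp
  have h6 : M⁻¹ * ‖A v‖ ^ 2 ≤ RCLike.re ⟪v, A v⟫_ℂ := by linarith
  calc ‖A v‖ ^ 2 = M * (M⁻¹ * ‖A v‖ ^ 2) := by field_simp
    _ ≤ M * RCLike.re ⟪v, A v⟫_ℂ := by gcongr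

end Bottom

variable [CompleteSpace K]

theorem bottom (A : K →L[ℂ] K) (hA : star A = A) (S : Submodule ℂ K) (hS : ∀ v ∈ S, A v ∈ S)
    {η : ℝ} (hη : 0 ≤ η)
    (hgap : ∀ v ∈ S, (1 / 2) * RCLike.re ⟪v, A v⟫_ℂ - η * ‖v‖ ^ 2 ≤ ‖A v‖ ^ 2)
    (hex : ∃ v ∈ S, ‖v‖ = 1 ∧ RCLike.re ⟪v, A v⟫_ℂ < 1 / 4) {ε : ℝ} (hε : 0 < ε) :
    ∃ v ∈ S, ‖v‖ = 1 ∧ RCLike.re ⟪v, A v⟫_ℂ ≤ 4 * η + ε := by
  by_contra hcon
  push Not at hcon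
  have hs : ∀ x y, ⟪A x, y⟫_ℂ = ⟪x, A y⟫_ℂ := by
    intro x y
    rw [← ContinuousLinearMap.adjoint_inner_right, ← ContinuousLinearMap.star_eq_adjoint, hA]
  set R : Set ℝ := {r | ∃ v ∈ S, ‖v‖ = 1 ∧ r = RCLike.re ⟪v, A v⟫_ℂ} with hR
  set l : ℝ := sInf R with hl
  have hbdd : BddBelow R := ⟨4 * η + ε, by
    rintro r ⟨v, hv, hv1, rfl⟩
    exact (hcon v hv hv1).le⟩
  obtain ⟨v0, hv0, hv01, hv02⟩ := hex
  have hne : R.Nonempty := ⟨_, v0, hv0, hv01, rfl⟩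
  have hl1 : 4 * η + ε ≤ l := le_csInf hne (by
    rintro r ⟨v, hv, hv1, rfl⟩
    exact (hcon v hv hv1).le)
  have hl2 : l < 1 / 4 := lt_of_le_of_lt (csInf_le hbdd ⟨v0, hv0, hv01, rfl⟩) hv02
  -- the shifted operator
  set B : K →L[ℂ] K := A - (l : ℂ) • (1 : K →L[ℂ] K) with hB
  have hBv : ∀ v, B v = A v - (l : ℂ) • v := fun v => by simp [hB]
  have hBs : ∀ x y, ⟪B x, y⟫_ℂ = ⟪x, B y⟫_ℂ := by
    intro x y
    rw [hBv, hBv, inner_sub_left, inner_sub_right, hs, inner_smul_left, inner_smul_right,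
      Complex.conj_ofReal]
  have hBS : ∀ v ∈ S, B v ∈ S := fun v hv => by
    rw [hBv]
    exact S.sub_mem (hS v hv) (S.smul_mem _ hv)
  have hBre : ∀ v, RCLike.re ⟪v, B v⟫_ℂ = RCLike.re ⟪v, A v⟫_ℂ - l * ‖v‖ ^ 2 := by
    intro v
    rw [hBv, inner_sub_right, inner_smul_right, map_sub, inner_self_eq_norm_sq_to_K]
    congr 1
    have : (l : ℂ) * ((‖v‖ : ℝ) : ℂ) ^ 2 = ((l * ‖v‖ ^ 2 : ℝ) : ℂ) := by push_cast; ring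
    simp only [RCLike.re_to_complex, Complex.coe_algebraMap] at this ⊢
    rw [this]
    exact Complex.ofReal_re _
  have hB0 : ∀ v ∈ S, 0 ≤ RCLike.re ⟪v, B v⟫_ℂ := by
    intro v hv
    rw [hBre]
    by_cases hv0 : v = 0
    · subst hv0; simp
    · have hn : 0 < ‖v‖ := norm_pos_iff.2 hv0
      have h1 : ‖((‖v‖⁻¹ : ℝ) : ℂ) • v‖ = 1 := by
        rw [norm_smul, Complex.norm_real, Real.norm_eq_abs, abs_of_pos (inv_pos.2 hn)]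
        exact inv_mul_cancel₀ hn.ne'
      have h2 : l ≤ RCLike.re ⟪((‖v‖⁻¹ : ℝ) : ℂ) • v, A (((‖v‖⁻¹ : ℝ) : ℂ) • v)⟫_ℂ :=
        csInf_le hbdd ⟨_, S.smul_mem _ hv, h1, rfl⟩
      have h3 : RCLike.re ⟪((‖v‖⁻¹ : ℝ) : ℂ) • v, A (((‖v‖⁻¹ : ℝ) : ℂ) • v)⟫_ℂ =
          ‖v‖⁻¹ ^ 2 * RCLike.re ⟪v, A v⟫_ℂ := by
        rw [map_smul, inner_smul_left, inner_smul_right, Complex.conj_ofReal, ← mul_assoc,
          ← Complex.ofReal_mul]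
        simp only [RCLike.re_to_complex, Complex.re_ofReal_mul]
        ring
      rw [h3] at h2
      have h4 : l * ‖v‖ ^ 2 ≤ ‖v‖⁻¹ ^ 2 * RCLike.re ⟪v, A v⟫_ℂ * ‖v‖ ^ 2 :=
        mul_le_mul_of_nonneg_right h2 (by positivity)
      have h5 : ‖v‖⁻¹ ^ 2 * RCLike.re ⟪v, A v⟫_ℂ * ‖v‖ ^ 2 = RCLike.re ⟪v, A v⟫_ℂ := by
        field_simp
      linarith
  set M : ℝ := ‖B‖ + 1 with hM
  have hM0 : 0 < M := by positivity
  have hkey := fun v hv => Bottom.norm_sq_le B hBs S hBS hB0 hM0 (by linarith) v hv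
  obtain ⟨r, ⟨v, hv, hv1, rfl⟩, hr⟩ := exists_lt_of_csInf_lt hne
    (show sInf R < l + ε / (4 * (M + 1)) by
      have : 0 < ε / (4 * (M + 1)) := by positivity
      linarith)
  have hρ := hB0 v hv
  have h1 := hkey v hv
  have h2 := hgap v hv
  have h3 : ‖A v‖ ^ 2 = ‖B v‖ ^ 2 + 2 * l * RCLike.re ⟪v, B v⟫_ℂ + l ^ 2 := by
    have h4 : A v = B v + (l : ℂ) • v := by rw [hBv]; abel
    rw [h4, @norm_add_sq ℂ, norm_smul, hv1, inner_smul_right, Complex.norm_real,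
      Real.norm_eq_abs, mul_one, sq_abs]
    have h5 : RCLike.re ((l : ℂ) * ⟪B v, v⟫_ℂ) = l * RCLike.re ⟪v, B v⟫_ℂ := by
      rw [hBs]
      simp only [RCLike.re_to_complex, Complex.re_ofReal_mul]
    rw [h5]
    ring
  have h4 := hBre v
  rw [hv1, one_pow, mul_one] at h4
  rw [hv1, one_pow, mul_one] at h2
  set ρ : ℝ := RCLike.re ⟪v, B v⟫_ℂ with hρdef
  have h6 : RCLike.re ⟪v, A v⟫_ℂ = l + ρ := by linarith
  have h7 : ρ < ε / (4 * (M + 1)) := by linarith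
  rw [h6] at h2
  have h8 : (M + 1) * ρ < ε / 4 := by
    have := mul_lt_mul_of_pos_left h7 (show 0 < M + 1 by positivity)
    calc (M + 1) * ρ < (M + 1) * (ε / (4 * (M + 1))) := this
      _ = ε / 4 := by field_simp
  have hl0 : 0 < l := by linarith
  have h9 : l ^ 2 ≤ l * (1 / 4) := by
    rw [sq]
    exact mul_le_mul_of_nonneg_left hl2.le hl0.le
  have h10 : 2 * l * ρ ≤ ρ := by
    have : 2 * l * ρ ≤ 1 * ρ := mul_le_mul_of_nonneg_right (by linarith) hρ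
    linarith
  nlinarith

end Exact

end Vale.Agent.P083
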