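import Mathlib
import Vale.Agent.Lib.P083.Stmt
import Vale.Agent.Lib.P083.Defs
import Vale.Agent.Lib.P083.Defs2
import Vale.Agent.Lib.P083.Words

/-!
# P083: finite-dimensional compressions of elements of a represented Cuntz algebra
-/

namespace Vale.Agent.P083

open scoped BigOperators InnerProductSpace Topology BoundedContinuousFunction ENNReal ComplexOrder
open Filter

namespace Compress

/-- `w` enumerates the words of length in `[l, l + L)` -/
structure IsEnum {m : ℕ} (w : Fin m → List (Fin 2)) (l L : ℕ) : Prop where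
  inj : Function.Injective w
  mem : ∀ α : List (Fin 2), (∃ i, w i = α) ↔ l ≤ α.length ∧ α.length < l + L
  sum : ∀ f : List (Fin 2) → ℝ, ∑ i, f (w i) =
    ∑ n ∈ Finset.range L, ∑ g : Fin (l + n) → Fin 2, f (List.ofFn g)

theorem exists_enum (l L : ℕ) : ∃ (m : ℕ) (w : Fin m → List (Fin 2)), IsEnum w l L := by
  classical
  let I : Type := Σ n : Fin L, (Fin (l + (n : ℕ)) → Fin 2)
  let e : Fin (Fintype.card I) ≃ I := (Fintype.equivFin I).symm
  refine ⟨Fintype.card I, fun i => List.ofFn (e i).2, ?_, ?_, ?_⟩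
  · intro i j hij
    apply e.injective
    have h1 : List.ofFn (e i).2 = List.ofFn (e j).2 := hij
    revert h1
    generalize e i = x
    generalize e j = y
    intro h1
    obtain ⟨⟨n, hn⟩, f⟩ := x
    obtain ⟨⟨n', hn'⟩, g⟩ := y
    have h2 : n = n' := by
      have := congrArg List.length h1
      simp only [List.length_ofFn] at this
      omega
    subst h2
    have h3 : f = g := List.ofFn_injective h1
    rw [h3]
  · intro α
    constructor
    · rintro ⟨i, rfl⟩
      have h1 := (e i).1.2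
      simp only [List.length_ofFn]
      omega
    · rintro ⟨h1, h2⟩
      obtain ⟨n, hn⟩ := Nat.exists_eq_add_of_le h1
      have h3 : ∀ k : ℕ, α.length = k → ∃ g : Fin k → Fin 2, List.ofFn g = α := by
        intro k hk
        subst hk
        exact ⟨α.get, List.ofFn_get α⟩
      obtain ⟨g, hg⟩ := h3 _ hn
      have hn' : n < L := by omega
      refine ⟨e.symm ⟨⟨n, hn'⟩, g⟩, ?_⟩
      rw [Equiv.apply_symm_apply]
      exact hg
  · intro f
    rw [Equiv.sum_comp e (fun x : I => f (List.ofFn x.2))]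
    rw [Fintype.sum_sigma]
    exact Fin.sum_univ_eq_sum_range
      (fun n => ∑ g : Fin (l + n) → Fin 2, f (List.ofFn g)) L

section Ops

variable {H : Type*} [NormedAddCommGroup H] [InnerProductSpace ℂ H] [CompleteSpace H]
  {S : Fin 2 → H →L[ℂ] H}

theorem apply_star_apply (hS : IsCuntzPair S) (α : List (Fin 2)) (x : H) :
    (star (wd S α)) (wd S α x) = x := by
  have h := wd_iso hS α
  have h2 := congrArg (fun T : H →L[ℂ] H => T x) h
  exact h2

theorem inner_star_left (T : H →L[ℂ] H) (x y : H) : ⟪(star T) x, y⟫_ℂ = ⟪x, T y⟫_ℂ := by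
  rw [ContinuousLinearMap.star_eq_adjoint, ContinuousLinearMap.adjoint_inner_left]

theorem inner_star_right (T : H →L[ℂ] H) (x y : H) : ⟪x, (star T) y⟫_ℂ = ⟪T x, y⟫_ℂ := by
  rw [ContinuousLinearMap.star_eq_adjoint, ContinuousLinearMap.adjoint_inner_right]

theorem norm_wd (hS : IsCuntzPair S) (α : List (Fin 2)) (x : H) : ‖wd S α x‖ = ‖x‖ := by
  have h1 : ⟪wd S α x, wd S α x⟫_ℂ = ⟪x, x⟫_ℂ := by
    rw [← inner_star_left, apply_star_apply hS]
  have h2 : ‖wd S α x‖ ^ 2 = ‖x‖ ^ 2 := by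
    rw [← inner_self_eq_norm_sq (𝕜 := ℂ) (wd S α x), ← inner_self_eq_norm_sq (𝕜 := ℂ) x, h1]
  exact (sq_eq_sq₀ (norm_nonneg _) (norm_nonneg _)).1 h2

theorem sum_norm (hS : IsCuntzPair S) (n : ℕ) (x : H) :
    ∑ f : Fin n → Fin 2, ‖(star (wd S (List.ofFn f))) x‖ ^ 2 = ‖x‖ ^ 2 := by
  have h1 := congrArg (fun T : H →L[ℂ] H => RCLike.re ⟪x, T x⟫_ℂ) (wd_sum hS n)
  have h2 : RCLike.re ⟪x, (1 : H →L[ℂ] H) x⟫_ℂ = ‖x‖ ^ 2 := by
    change RCLike.re ⟪x, x⟫_ℂ = _
    exact inner_self_eq_norm_sq (𝕜 := ℂ) x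
  rw [← h2, ← h1]
  simp only [sum_apply, inner_sum, map_sum]
  refine Finset.sum_congr rfl fun f _ => ?_
  rw [← inner_self_eq_norm_sq (𝕜 := ℂ), inner_star_left]
  rfl

/-- prefix-incomparable words have orthogonal ranges -/
theorem wd_incomp (hS : IsCuntzPair S) {α β : List (Fin 2)} (h1 : ¬ α <+: β) (h2 : ¬ β <+: α) :
    star (wd S α) * wd S β = 0 := by
  induction α generalizing β with
  | nil => exact absurd (List.nil_prefix) h1
  | cons i α ih =>
    cases β with
    | nil => exact absurd (List.nil_prefix) h2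
    | cons j β =>
      rw [Words.step]
      by_cases hij : i = j
      · subst hij
        rw [hS.isometry, mul_one]
        refine ih ?_ ?_
        · intro h
          exact h1 ((List.cons_prefix_cons).2 ⟨rfl, h⟩)
        · intro h
          exact h2 ((List.cons_prefix_cons).2 ⟨rfl, h⟩)
      · rw [Words.orth hS hij, mul_zero, zero_mul]

/-- the marker word `0^M 1` -/
def mk (M : ℕ) : List (Fin 2) := List.replicate M 0 ++ [1]

theorem length_mk (M : ℕ) : (mk M).length = M + 1 := by simp [mk]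

theorem not_prefix {M : ℕ} {μ ν : List (Fin 2)} (hν : ν.length ≤ M)
    (hne : μ ≠ ν) : ¬ (μ ++ mk M) <+: (ν ++ mk M) := by
  intro h
  have hlen := h.length_le
  simp only [List.length_append, length_mk] at hlen
  by_cases heq : μ.length = ν.length
  · have h3 : μ ++ mk M = ν ++ mk M := by
      apply h.eq_of_length
      simp [heq]
    exact hne (List.append_cancel_right h3)
  · have hi : μ.length + M < (μ ++ mk M).length := by
      simp only [List.length_append, length_mk]; omega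
    have h4 := h.getElem hi
    rw [List.getElem_append_right (by omega), List.getElem_append_right (by omega)] at h4
    have h5 : (mk M)[μ.length + M - μ.length]'(by rw [length_mk]; omega) = 1 := by
      simp only [mk]
      rw [List.getElem_append_right (by simp)]
      simp
    have h6 : (mk M)[μ.length + M - ν.length]'(by rw [length_mk]; omega) = 0 := by
      simp only [mk]
      rw [List.getElem_append_left (by simp; omega)]
      simp
    rw [h5, h6] at h4
    exact absurd h4 (by decide)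

theorem inner_mk (hS : IsCuntzPair S) {M : ℕ} {η0 : H} (hη : ‖η0‖ = 1) {μ ν : List (Fin 2)}
    (hμ : μ.length ≤ M) (hν : ν.length ≤ M) :
    ⟪wd S μ (wd S (mk M) η0), wd S ν (wd S (mk M) η0)⟫_ℂ = if μ = ν then 1 else 0 := by
  by_cases h : μ = ν
  · subst h
    rw [if_pos rfl, ← inner_star_left, apply_star_apply hS, ← inner_star_left,
      apply_star_apply hS, inner_self_eq_norm_sq_to_K, hη]
    simp
  · rw [if_neg h]
    have h1 : star (wd S (μ ++ mk M)) * wd S (ν ++ mk M) = 0 :=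
      wd_incomp hS (not_prefix hν h) (not_prefix hμ (Ne.symm h))
    have h2 : ⟪wd S (μ ++ mk M) η0, wd S (ν ++ mk M) η0⟫_ℂ =
        ⟪η0, (star (wd S (μ ++ mk M)) * wd S (ν ++ mk M)) η0⟫_ℂ := by
      change _ = ⟪η0, (star (wd S (μ ++ mk M))) (wd S (ν ++ mk M) η0)⟫_ℂ
      rw [inner_star_right]
    rw [h1] at h2
    rw [wd_append, wd_append] at h2
    change ⟪wd S μ (wd S (mk M) η0), wd S ν (wd S (mk M) η0)⟫_ℂ = _ at h2
    rw [h2]
    simp

variable {m : ℕ} {w : Fin m → List (Fin 2)} {l L M : ℕ} {η : H}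

/-- the compressed matrix -/
noncomputable def tf (S : Fin 2 → H →L[ℂ] H) (w : Fin m → List (Fin 2)) (η : H)
    (c : H →L[ℂ] H) : Matrix (Fin m) (Fin m) ℂ :=
  fun μ ν => ⟪wd S (w μ) η, c (wd S (w ν) η)⟫_ℂ

/-- the spreading map -/
noncomputable def Vf (S : Fin 2 → H →L[ℂ] H) (w : Fin m → List (Fin 2)) (L : ℕ) (h : H) :
    Fin m → H :=
  fun i => (((√(L : ℝ))⁻¹ : ℝ) : ℂ) • (star (wd S (w i))) h

/-- the error vector -/
noncomputable def err (S : Fin 2 → H →L[ℂ] H) (w : Fin m → List (Fin 2)) (L : ℕ) (η : H)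
    (c : H →L[ℂ] H) (h : H) : Fin m → H :=
  fun μ => ∑ ν, tf S w η c μ ν • Vf S w L h ν - Vf S w L (c h) μ

theorem norm_toLp_sq (x : Fin m → H) :
    ‖(WithLp.toLp 2 x : PiLp 2 (fun _ : Fin m => H))‖ ^ 2 = ∑ i, ‖x i‖ ^ 2 := by
  rw [PiLp.norm_sq_eq_of_L2]

theorem norm_Vf_sq (i : Fin m) (h : H) :
    ‖Vf S w L h i‖ ^ 2 = (L : ℝ)⁻¹ * ‖(star (wd S (w i))) h‖ ^ 2 := by
  simp only [Vf]
  rw [norm_smul, mul_pow]
  congr 1
  rw [Complex.norm_real, Real.norm_eq_abs, sq_abs, inv_pow, Real.sq_sqrt (Nat.cast_nonneg L)]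

theorem norm_Vf (hS : IsCuntzPair S) (hw : IsEnum w l L) (hL : 0 < L) (h : H) :
    ‖(WithLp.toLp 2 (Vf S w L h) : PiLp 2 (fun _ : Fin m => H))‖ = ‖h‖ := by
  have h1 : ‖(WithLp.toLp 2 (Vf S w L h) : PiLp 2 (fun _ : Fin m => H))‖ ^ 2 = ‖h‖ ^ 2 := by
    rw [norm_toLp_sq]
    simp only [norm_Vf_sq]
    rw [← Finset.mul_sum, hw.sum (fun α => ‖(star (wd S α)) h‖ ^ 2)]
    simp only [sum_norm hS]
    rw [Finset.sum_const, Finset.card_range, nsmul_eq_mul]
    have hL' : (L : ℝ) ≠ 0 := by positivity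
    field_simp
  exact (sq_eq_sq₀ (norm_nonneg _) (norm_nonneg _)).1 h1

/-- the isometry -/
noncomputable def Vi (hS : IsCuntzPair S) (hw : IsEnum w l L) (hL : 0 < L) :
    H →ₗᵢ[ℂ] PiLp 2 (fun _ : Fin m => H) where
  toFun h := WithLp.toLp 2 (Vf S w L h)
  map_add' x y := by
    rw [← WithLp.toLp_add]
    congr 1
    funext i
    simp only [Vf, map_add, smul_add, Pi.add_apply]
  map_smul' z x := by
    rw [RingHom.id_apply, ← WithLp.toLp_smul]
    congr 1
    funext i
    simp only [Vf, map_smul, Pi.smul_apply]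
    rw [smul_comm]
  norm_map' := norm_Vf hS hw hL

theorem orthonormal_w (hS : IsCuntzPair S) (hw : IsEnum w l L) (hM : l + L ≤ M) {η0 : H}
    (hη : ‖η0‖ = 1) : Orthonormal ℂ (fun i : Fin m => wd S (w i) (wd S (mk M) η0)) := by
  rw [orthonormal_iff_ite]
  intro i j
  have hi := ((hw.mem (w i)).1 ⟨i, rfl⟩).2
  have hj := ((hw.mem (w j)).1 ⟨j, rfl⟩).2
  rw [inner_mk hS hη (by omega) (by omega)]
  by_cases h : i = j
  · subst h
    simp
  · rw [if_neg h, if_neg (fun h2 => h (hw.inj h2))]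

theorem norm_tf (ho : Orthonormal ℂ (fun i : Fin m => wd S (w i) η)) (c : H →L[ℂ] H)
    (x : EuclideanSpace ℂ (Fin m)) :
    ‖Matrix.toEuclideanLin (tf S w η c) x‖ ≤ ‖c‖ * ‖x‖ := by
  have h1 : ∀ μ, (Matrix.toEuclideanLin (tf S w η c) x) μ =
      ⟪wd S (w μ) η, c (∑ ν, x ν • wd S (w ν) η)⟫_ℂ := by
    intro μ
    rw [Matrix.toEuclideanLin_apply]
    simp only [Matrix.mulVec, dotProduct, tf]
    rw [map_sum, inner_sum]
    refine Finset.sum_congr rfl fun ν _ => ?_
    rw [map_smul, inner_smul_right, mul_comm]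
  have h2 : ‖∑ ν, x ν • wd S (w ν) η‖ ^ 2 = ‖x‖ ^ 2 := by
    rw [EuclideanSpace.norm_sq_eq, ← inner_self_eq_norm_sq (𝕜 := ℂ),
      ho.inner_sum (fun i => x i) (fun i => x i) Finset.univ, map_sum]
    refine Finset.sum_congr rfl fun i _ => ?_
    rw [RCLike.conj_mul]
    norm_cast
  have h2' : ‖∑ ν, x ν • wd S (w ν) η‖ = ‖x‖ := (sq_eq_sq₀ (norm_nonneg _) (norm_nonneg _)).1 h2
  have h3 : ‖Matrix.toEuclideanLin (tf S w η c) x‖ ^ 2 ≤
      ‖c (∑ ν, x ν • wd S (w ν) η)‖ ^ 2 := by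
    rw [EuclideanSpace.norm_sq_eq]
    simp only [h1]
    exact ho.sum_inner_products_le (c (∑ ν, x ν • wd S (w ν) η)) (s := Finset.univ)
  have h4 : ‖Matrix.toEuclideanLin (tf S w η c) x‖ ≤ ‖c (∑ ν, x ν • wd S (w ν) η)‖ :=
    (sq_le_sq₀ (norm_nonneg _) (norm_nonneg _)).1 h3
  refine h4.trans ((c.le_opNorm _).trans ?_)
  rw [h2']

/-- the tensor bound -/
theorem tensor_bound (t : Matrix (Fin m) (Fin m) ℂ) {C : ℝ} (hC : 0 ≤ C)
    (ht : ∀ x : EuclideanSpace ℂ (Fin m), ‖Matrix.toEuclideanLin t x‖ ≤ C * ‖x‖)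
    (ξ : Fin m → H) :
    ‖(WithLp.toLp 2 (fun μ => ∑ ν, t μ ν • ξ ν) : PiLp 2 (fun _ : Fin m => H))‖ ≤
      C * ‖(WithLp.toLp 2 ξ : PiLp 2 (fun _ : Fin m => H))‖ := by
  classical
  let E : Submodule ℂ H := Submodule.span ℂ (Set.range ξ)
  have : FiniteDimensional ℂ E := FiniteDimensional.span_of_finite ℂ (Set.finite_range ξ)
  let b := stdOrthonormalBasis ℂ E
  have hE : ∀ v : E, ‖(v : H)‖ ^ 2 = ∑ k, ‖⟪b k, v⟫_ℂ‖ ^ 2 := by
    intro v
    rw [b.sum_sq_norm_inner_right v]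
    rfl
  let ξ' : Fin m → E := fun i => ⟨ξ i, Submodule.subset_span ⟨i, rfl⟩⟩
  have hsq : ‖(WithLp.toLp 2 (fun μ => ∑ ν, t μ ν • ξ ν) : PiLp 2 (fun _ : Fin m => H))‖ ^ 2 ≤
      (C * ‖(WithLp.toLp 2 ξ : PiLp 2 (fun _ : Fin m => H))‖) ^ 2 := by
    rw [mul_pow, norm_toLp_sq, norm_toLp_sq]
    have h1 : ∀ μ, ‖∑ ν, t μ ν • ξ ν‖ ^ 2 = ∑ k, ‖∑ ν, t μ ν * ⟪b k, ξ' ν⟫_ℂ‖ ^ 2 := by
      intro μ
      have h2 : ∑ ν, t μ ν • ξ ν = ((∑ ν, t μ ν • ξ' ν : E) : H) := by
        simp only [Submodule.coe_sum, Submodule.coe_smul, ξ']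
      rw [h2, hE]
      refine Finset.sum_congr rfl fun k _ => ?_
      rw [inner_sum]
      simp only [inner_smul_right]
    have h3 : ∀ ν, ‖ξ ν‖ ^ 2 = ∑ k, ‖⟪b k, ξ' ν⟫_ℂ‖ ^ 2 := fun ν => hE (ξ' ν)
    simp only [h1, h3]
    rw [Finset.sum_comm, Finset.sum_comm (s := Finset.univ (α := Fin m)), Finset.mul_sum]
    refine Finset.sum_le_sum fun k _ => ?_
    have h4 := ht (WithLp.toLp 2 (fun ν => ⟪b k, ξ' ν⟫_ℂ))
    have h5 : ‖Matrix.toEuclideanLin t (WithLp.toLp 2 (fun ν => ⟪b k, ξ' ν⟫_ℂ))‖ ^ 2 ≤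
        (C * ‖(WithLp.toLp 2 (fun ν => ⟪b k, ξ' ν⟫_ℂ) : EuclideanSpace ℂ (Fin m))‖) ^ 2 :=
      pow_le_pow_left₀ (norm_nonneg _) h4 2
    rw [mul_pow, EuclideanSpace.norm_sq_eq, EuclideanSpace.norm_sq_eq] at h5
    exact h5
  exact (sq_le_sq₀ (norm_nonneg _) (by positivity)).1 hsq

/-- the error as an element of the Hilbert sum -/
noncomputable def E (S : Fin 2 → H →L[ℂ] H) (w : Fin m → List (Fin 2)) (L : ℕ) (η : H)
    (c : H →L[ℂ] H) (h : H) : PiLp 2 (fun _ : Fin m => H) := WithLp.toLp 2 (err S w L η c h)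

theorem E_add (a b : H →L[ℂ] H) (h : H) : E S w L η (a + b) h = E S w L η a h + E S w L η b h := by
  simp only [E]
  rw [← WithLp.toLp_add]
  congr 1
  funext μ
  have h1 : ∀ ν, tf S w η (a + b) μ ν = tf S w η a μ ν + tf S w η b μ ν := by
    intro ν
    simp only [tf]
    rw [ContinuousLinearMap.add_apply, inner_add_right]
  have h2 : Vf S w L ((a + b) h) μ = Vf S w L (a h) μ + Vf S w L (b h) μ := by
    simp only [Vf]
    rw [ContinuousLinearMap.add_apply, map_add, smul_add]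
  simp only [err, Pi.add_apply, h1, h2, add_smul, Finset.sum_add_distrib]
  abel

theorem E_smul (z : ℂ) (a : H →L[ℂ] H) (h : H) : E S w L η (z • a) h = z • E S w L η a h := by
  simp only [E]
  rw [← WithLp.toLp_smul]
  congr 1
  funext μ
  have h1 : ∀ ν, tf S w η (z • a) μ ν = z * tf S w η a μ ν := by
    intro ν
    simp only [tf]
    rw [ContinuousLinearMap.smul_apply, inner_smul_right]
  have h2 : Vf S w L ((z • a) h) μ = z • Vf S w L (a h) μ := by
    simp only [Vf]
    rw [ContinuousLinearMap.smul_apply, map_smul, smul_comm]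
  simp only [err, Pi.smul_apply, h1, h2, smul_sub, Finset.smul_sum, mul_smul]

theorem norm_E_le (hS : IsCuntzPair S) (hw : IsEnum w l L) (hL : 0 < L)
    (ho : Orthonormal ℂ (fun i : Fin m => wd S (w i) η)) (c : H →L[ℂ] H) (h : H) :
    ‖E S w L η c h‖ ≤ 2 * ‖c‖ * ‖h‖ := by
  have h1 : E S w L η c h = WithLp.toLp 2 (fun μ => ∑ ν, tf S w η c μ ν • Vf S w L h ν) -
      WithLp.toLp 2 (Vf S w L (c h)) := by
    simp only [E]
    rw [← WithLp.toLp_sub]
    rfl
  rw [h1]
  refine (norm_sub_le _ _).trans ?_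
  rw [norm_Vf hS hw hL]
  have h2 := tensor_bound (tf S w η c) (norm_nonneg c) (norm_tf ho c) (Vf S w L h)
  rw [norm_Vf hS hw hL] at h2
  have h3 := c.le_opNorm h
  linarith

theorem star_wd_prefix (hS : IsCuntzPair S) (α κ : List (Fin 2)) (x : H) :
    (star (wd S α)) (wd S (α ++ κ) x) = wd S κ x := by
  rw [wd_append]
  exact apply_star_apply hS α (wd S κ x)

theorem star_wd_zero (hS : IsCuntzPair S) {α μ : List (Fin 2)} (h : ¬ α <+: μ)
    (hl : α.length ≤ μ.length) (x : H) : (star (wd S α)) (wd S μ x) = 0 := by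
  have h2 : ¬ μ <+: α := by
    intro h3
    have h4 : μ = α := h3.eq_of_length (le_antisymm h3.length_le hl)
    exact h (by rw [h4])
  have h5 := wd_incomp hS h h2
  exact congrArg (fun T : H →L[ℂ] H => T x) h5

theorem star_wd_zero' (hS : IsCuntzPair S) {α μ : List (Fin 2)} (h : ¬ α <+: μ)
    (hl : α.length ≤ μ.length) (x : H) : (star (wd S μ)) (wd S α x) = 0 := by
  have h2 : ¬ μ <+: α := by
    intro h3
    have h4 : μ = α := h3.eq_of_length (le_antisymm h3.length_le hl)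
    exact h (by rw [h4])
  have h5 := wd_incomp hS h2 h
  exact congrArg (fun T : H →L[ℂ] H => T x) h5

/-- the monomial -/
noncomputable def mono (S : Fin 2 → H →L[ℂ] H) (α β : List (Fin 2)) : H →L[ℂ] H :=
  wd S α * star (wd S β)

theorem mono_apply (α β : List (Fin 2)) (x : H) :
    mono S α β x = wd S α ((star (wd S β)) x) := rfl

theorem tf_mono (α β : List (Fin 2)) (μ ν : Fin m) :
    tf S w η (mono S α β) μ ν =
      ⟪(star (wd S α)) (wd S (w μ) η), (star (wd S β)) (wd S (w ν) η)⟫_ℂ := by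
  simp only [tf]
  rw [mono_apply, inner_star_left]

theorem Vf_mono_prefix (hS : IsCuntzPair S) {α β κ : List (Fin 2)} {μ ν : Fin m}
    (hμ : w μ = α ++ κ) (hν : w ν = β ++ κ) (h : H) :
    Vf S w L (mono S α β h) μ = Vf S w L h ν := by
  simp only [Vf]
  congr 1
  rw [hμ, hν, wd_append, wd_append, star_mul, star_mul, mono_apply]
  change (star (wd S κ)) ((star (wd S α)) (wd S α ((star (wd S β)) h))) =
    (star (wd S κ)) ((star (wd S β)) h)
  rw [apply_star_apply hS]

/-- pointwise description of the error -/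
theorem err_mono (hS : IsCuntzPair S) (hw : IsEnum w l L) (hM : l + L ≤ M) {η0 : H}
    (hη : ‖η0‖ = 1) {α β : List (Fin 2)} (hα : α.length ≤ l) (hβ : β.length ≤ l) (h : H)
    (μ : Fin m) :
    ‖err S w L (wd S (mk M) η0) (mono S α β) h μ‖ ^ 2 ≤
      if (w μ).length < 2 * l ∨ L ≤ (w μ).length then
        ‖Vf S w L (mono S α β h) μ‖ ^ 2 else 0 := by
  have hμlen := (hw.mem (w μ)).1 ⟨μ, rfl⟩
  by_cases hp : α <+: w μ
  · obtain ⟨κ, hκ⟩ := hp
    have hκlen : (w μ).length = α.length + κ.length := by rw [← hκ, List.length_append]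
    by_cases hin : l ≤ (β ++ κ).length ∧ (β ++ κ).length < l + L
    · obtain ⟨ν0, hν0⟩ := (hw.mem (β ++ κ)).2 hin
      have h0 : err S w L (wd S (mk M) η0) (mono S α β) h μ = 0 := by
        simp only [err]
        rw [Finset.sum_eq_single ν0]
        · rw [tf_mono, ← hκ, hν0, star_wd_prefix hS, star_wd_prefix hS,
            inner_mk hS hη (by omega) (by omega), if_pos rfl, one_smul,
            Vf_mono_prefix hS hκ.symm hν0, sub_self]
        · intro ν _ hne
          have hνlen := (hw.mem (w ν)).1 ⟨ν, rfl⟩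
          have h1 : tf S w (wd S (mk M) η0) (mono S α β) μ ν = 0 := by
            rw [tf_mono, ← hκ, star_wd_prefix hS]
            by_cases hq : β <+: w ν
            · obtain ⟨κ', hκ'⟩ := hq
              have hlen' : (w ν).length = β.length + κ'.length := by
                rw [← hκ', List.length_append]
              rw [← hκ', star_wd_prefix hS, inner_mk hS hη (by omega) (by omega), if_neg]
              intro h2
              apply hne
              apply hw.inj
              rw [← hκ', hν0, h2]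
            · rw [star_wd_zero hS hq (by omega), inner_zero_right]
          rw [h1, zero_smul]
        · intro h1
          exact absurd (Finset.mem_univ _) h1
      rw [h0]
      simp only [norm_zero, ne_eq, OfNat.ofNat_ne_zero, not_false_eq_true, zero_pow]
      split_ifs
      · positivity
      · exact le_refl _
    · have hbad : (w μ).length < 2 * l ∨ L ≤ (w μ).length := by
        rw [List.length_append] at hin
        by_contra hcon
        rw [not_or, not_lt, not_le] at hcon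
        apply hin
        omega
      rw [if_pos hbad]
      have h0 : err S w L (wd S (mk M) η0) (mono S α β) h μ = - Vf S w L (mono S α β h) μ := by
        simp only [err]
        rw [Finset.sum_eq_zero, zero_sub]
        intro ν _
        have hνlen := (hw.mem (w ν)).1 ⟨ν, rfl⟩
        have h1 : tf S w (wd S (mk M) η0) (mono S α β) μ ν = 0 := by
          rw [tf_mono, ← hκ, star_wd_prefix hS]
          by_cases hq : β <+: w ν
          · obtain ⟨κ', hκ'⟩ := hq
            have hlen' : (w ν).length = β.length + κ'.length := by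
              rw [← hκ', List.length_append]
            rw [← hκ', star_wd_prefix hS, inner_mk hS hη (by omega) (by omega), if_neg]
            intro h2
            apply hin
            rw [h2, hκ']
            exact hνlen
          · rw [star_wd_zero hS hq (by omega), inner_zero_right]
        rw [h1, zero_smul]
      rw [h0, norm_neg]
  · have h0 : err S w L (wd S (mk M) η0) (mono S α β) h μ = 0 := by
      simp only [err]
      have h1 : ∀ ν, tf S w (wd S (mk M) η0) (mono S α β) μ ν = 0 := by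
        intro ν
        rw [tf_mono, star_wd_zero hS hp (by omega), inner_zero_left]
      have h2 : Vf S w L (mono S α β h) μ = 0 := by
        simp only [Vf]
        rw [mono_apply, star_wd_zero' hS hp (by omega), smul_zero]
      simp only [h1, h2, zero_smul, Finset.sum_const_zero, sub_zero]
    rw [h0]
    simp only [norm_zero, ne_eq, OfNat.ofNat_ne_zero, not_false_eq_true, zero_pow]
    split_ifs
    · positivity
    · exact le_refl _

theorem card_bad (l L : ℕ) :
    ((Finset.range L).filter (fun n => l + n < 2 * l ∨ L ≤ l + n)).card ≤ 2 * l := by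
  have h1 : (Finset.range L).filter (fun n => l + n < 2 * l ∨ L ≤ l + n) ⊆
      Finset.range l ∪ Finset.Ico (L - l) L := by
    intro n hn
    rw [Finset.mem_filter, Finset.mem_range] at hn
    rw [Finset.mem_union, Finset.mem_range, Finset.mem_Ico]
    omega
  refine (Finset.card_le_card h1).trans ((Finset.card_union_le _ _).trans ?_)
  rw [Finset.card_range, Nat.card_Ico]
  omega

theorem norm_E_mono (hS : IsCuntzPair S) (hw : IsEnum w l L) (hL : 0 < L) (hM : l + L ≤ M)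
    {η0 : H} (hη : ‖η0‖ = 1) {α β : List (Fin 2)} (hα : α.length ≤ l) (hβ : β.length ≤ l)
    (h : H) :
    ‖E S w L (wd S (mk M) η0) (mono S α β) h‖ ≤ ‖mono S α β‖ * √(2 * l / L) * ‖h‖ := by
  have h1 : ‖E S w L (wd S (mk M) η0) (mono S α β) h‖ ^ 2 ≤
      (2 * l / L) * ‖mono S α β h‖ ^ 2 := by
    simp only [E]
    rw [norm_toLp_sq]
    refine (Finset.sum_le_sum fun μ _ => err_mono hS hw hM hη hα hβ h μ).trans ?_
    simp only [norm_Vf_sq]
    rw [hw.sum (fun γ => if γ.length < 2 * l ∨ L ≤ γ.length then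
        (L : ℝ)⁻¹ * ‖(star (wd S γ)) (mono S α β h)‖ ^ 2 else 0)]
    have h2 : ∀ n ∈ Finset.range L, (∑ g : Fin (l + n) → Fin 2,
        if (List.ofFn g).length < 2 * l ∨ L ≤ (List.ofFn g).length then
        (L : ℝ)⁻¹ * ‖(star (wd S (List.ofFn g))) (mono S α β h)‖ ^ 2 else 0) =
        if (l + n < 2 * l ∨ L ≤ l + n) then (L : ℝ)⁻¹ * ‖mono S α β h‖ ^ 2 else 0 := by
      intro n _
      simp only [List.length_ofFn]
      split_ifs with hc
      · rw [← Finset.mul_sum, sum_norm hS]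
      · exact Finset.sum_const_zero
    rw [Finset.sum_congr rfl h2, ← Finset.sum_filter, Finset.sum_const, nsmul_eq_mul]
    have h3 : (((Finset.range L).filter (fun n => l + n < 2 * l ∨ L ≤ l + n)).card : ℝ) ≤
        2 * l := by
      exact_mod_cast card_bad l L
    calc (((Finset.range L).filter (fun n => l + n < 2 * l ∨ L ≤ l + n)).card : ℝ) *
          ((L : ℝ)⁻¹ * ‖mono S α β h‖ ^ 2) ≤ (2 * l) * ((L : ℝ)⁻¹ * ‖mono S α β h‖ ^ 2) :=
          mul_le_mul_of_nonneg_right h3 (by positivity)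
      _ = (2 * l / L) * ‖mono S α β h‖ ^ 2 := by ring
  have h2 : ‖E S w L (wd S (mk M) η0) (mono S α β) h‖ ^ 2 ≤
      (√(2 * l / L) * ‖mono S α β h‖) ^ 2 := by
    rw [mul_pow, Real.sq_sqrt (by positivity)]
    exact h1
  have h3 := (sq_le_sq₀ (norm_nonneg _) (by positivity)).1 h2
  refine h3.trans ?_
  have h4 := (mono S α β).le_opNorm h
  calc √(2 * l / L) * ‖mono S α β h‖ ≤ √(2 * l / L) * (‖mono S α β‖ * ‖h‖) :=
        mul_le_mul_of_nonneg_left h4 (by positivity)
    _ = ‖mono S α β‖ * √(2 * l / L) * ‖h‖ := by ring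

/-- operators whose compression errors are controlled -/
def Good (S : Fin 2 → H →L[ℂ] H) (c : H →L[ℂ] H) : Prop :=
  ∃ (K : ℝ) (l0 : ℕ), 0 ≤ K ∧ ∀ l, l0 ≤ l → ∀ L, 0 < L → ∀ M, l + L ≤ M → ∀ (m : ℕ)
    (w : Fin m → List (Fin 2)), IsEnum w l L → ∀ η0 : H, ‖η0‖ = 1 → ∀ h : H,
      ‖E S w L (wd S (mk M) η0) c h‖ ≤ K * √(2 * l / L) * ‖h‖

theorem good_of_span (hS : IsCuntzPair S) {b : H →L[ℂ] H}
    (hb : b ∈ Submodule.span ℂ (Set.range fun q : List (Fin 2) × List (Fin 2) =>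
      wd S q.1 * star (wd S q.2))) : Good S b := by
  induction hb using Submodule.span_induction with
  | mem x hx =>
    obtain ⟨⟨α, β⟩, rfl⟩ := hx
    refine ⟨‖mono S α β‖, max α.length β.length, norm_nonneg _, ?_⟩
    intro l hl L hL M hM m w hw η0 hη h
    exact norm_E_mono hS hw hL hM hη (le_trans (le_max_left _ _) hl)
      (le_trans (le_max_right _ _) hl) h
  | zero =>
    refine ⟨0, 0, le_refl _, ?_⟩
    intro l hl L hL M hM m w hw η0 hη h
    have h1 : E S w L (wd S (mk M) η0) 0 h = 0 := by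
      have h2 := E_smul (S := S) (w := w) (L := L) (η := wd S (mk M) η0) (0 : ℂ)
        (0 : H →L[ℂ] H) h
      rwa [zero_smul, zero_smul] at h2
    rw [h1]
    simp
  | add x y _ _ hx hy =>
    obtain ⟨K, l0, hK, hx⟩ := hx
    obtain ⟨K', l0', hK', hy⟩ := hy
    refine ⟨K + K', max l0 l0', add_nonneg hK hK', ?_⟩
    intro l hl L hL M hM m w hw η0 hη h
    rw [E_add]
    have h1 := hx l (le_trans (le_max_left _ _) hl) L hL M hM m w hw η0 hη h
    have h2 := hy l (le_trans (le_max_right _ _) hl) L hL M hM m w hw η0 hη h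
    refine (norm_add_le _ _).trans ?_
    calc _ ≤ K * √(2 * l / L) * ‖h‖ + K' * √(2 * l / L) * ‖h‖ := add_le_add h1 h2
      _ = (K + K') * √(2 * l / L) * ‖h‖ := by ring
  | smul z x _ hx =>
    obtain ⟨K, l0, hK, hx⟩ := hx
    refine ⟨‖z‖ * K, l0, by positivity, ?_⟩
    intro l hl L hL M hM m w hw η0 hη h
    rw [E_smul, norm_smul]
    have h1 := hx l hl L hL M hM m w hw η0 hη h
    calc ‖z‖ * ‖E S w L (wd S (mk M) η0) x h‖ ≤ ‖z‖ * (K * √(2 * l / L) * ‖h‖) :=
          mul_le_mul_of_nonneg_left h1 (norm_nonneg _)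
      _ = ‖z‖ * K * √(2 * l / L) * ‖h‖ := by ring

theorem exists_L (l : ℕ) (K ε : ℝ) (hK : 0 ≤ K) (hε : 0 < ε) :
    ∃ L : ℕ, 0 < L ∧ K * √(2 * l / L) ≤ ε := by
  obtain ⟨L, hL⟩ := exists_nat_gt (K ^ 2 * (2 * l) / ε ^ 2)
  have h0 : (0 : ℝ) ≤ K ^ 2 * (2 * l) / ε ^ 2 := by positivity
  have hL0 : (0 : ℝ) < L := lt_of_le_of_lt h0 hL
  refine ⟨L, by exact_mod_cast hL0, ?_⟩
  have h1 : (K * √(2 * l / L)) ^ 2 ≤ ε ^ 2 := by
    rw [mul_pow, Real.sq_sqrt (by positivity), ← mul_div_assoc, div_le_iff₀ hL0]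
    rw [div_lt_iff₀ (by positivity)] at hL
    linarith
  exact (sq_le_sq₀ (by positivity) hε.le).1 h1

end Ops

end Compress

open Compress in
theorem compress {H : Type*} [NormedAddCommGroup H] [InnerProductSpace ℂ H] [CompleteSpace H]
    [Nontrivial H] {S : Fin 2 → H →L[ℂ] H} (hS : IsCuntzPair S) {J : Type*} [Fintype J]
    (b : J → H →L[ℂ] H)
    (hb : ∀ j, b j ∈ (StarAlgebra.adjoin ℂ (Set.range S)).topologicalClosure) {ε : ℝ}
    (hε : 0 < ε) :
    ∃ (m : ℕ) (t : J → Matrix (Fin m) (Fin m) ℂ) (V : H →ₗᵢ[ℂ] PiLp 2 (fun _ : Fin m => H)),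
      (∀ j (x : EuclideanSpace ℂ (Fin m)), ‖Matrix.toEuclideanLin (t j) x‖ ≤ ‖b j‖ * ‖x‖) ∧
      ∀ j h, ‖WithLp.toLp 2 (fun μ => ∑ ν, t j μ ν • V h ν) - V (b j h)‖ ≤ ε * ‖h‖ := by
  classical
  have h1 : ∀ j, ∃ c ∈ StarAlgebra.adjoin ℂ (Set.range S), ‖b j - c‖ < ε / 4 := by
    intro j
    have h2 : b j ∈ closure ((StarAlgebra.adjoin ℂ (Set.range S) : StarSubalgebra ℂ (H →L[ℂ] H)) :
        Set (H →L[ℂ] H)) := hb j
    obtain ⟨c, hc, hd⟩ := Metric.mem_closure_iff.1 h2 (ε / 4) (by linarith)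
    exact ⟨c, hc, by rwa [dist_eq_norm] at hd⟩
  choose c hc hbc using h1
  have h2 : ∀ j, Good S (c j) := fun j => good_of_span hS (adjoin_le_span hS (hc j))
  choose K l0 hK hgood using h2
  obtain ⟨L, hL, hKL⟩ := exists_L (∑ j, l0 j) (∑ j, K j) (ε / 2)
    (Finset.sum_nonneg fun j _ => hK j) (by linarith)
  obtain ⟨m, w, hw⟩ := exists_enum (∑ j, l0 j) L
  obtain ⟨η0, hη⟩ : ∃ x : H, ‖x‖ = 1 := by
    obtain ⟨x, hx⟩ := exists_ne (0 : H)
    exact ⟨(((‖x‖⁻¹ : ℝ)) : ℂ) • x, by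
      rw [norm_smul, Complex.norm_real, norm_inv, norm_norm]
      exact inv_mul_cancel₀ (norm_ne_zero_iff.2 hx)⟩
  have ho := orthonormal_w hS hw (le_refl _) hη
  refine ⟨m, fun j => tf S w (wd S (mk ((∑ j, l0 j) + L)) η0) (b j), Vi hS hw hL,
    fun j x => norm_tf ho (b j) x, ?_⟩
  intro j h
  have h3 : (WithLp.toLp 2 (fun μ => ∑ ν, tf S w (wd S (mk ((∑ j, l0 j) + L)) η0) (b j) μ ν •
      (Vi hS hw hL h) ν) : PiLp 2 (fun _ : Fin m => H)) - Vi hS hw hL (b j h) =
      E S w L (wd S (mk ((∑ j, l0 j) + L)) η0) (b j) h := rfl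
  rw [h3]
  have h4 : b j = (b j - c j) + c j := by abel
  rw [h4, E_add]
  refine (norm_add_le _ _).trans ?_
  have h5 := norm_E_le hS hw hL ho (b j - c j) h
  have h6 := hgood j (∑ j, l0 j) (Finset.single_le_sum (f := l0) (fun i _ => Nat.zero_le _)
    (Finset.mem_univ j)) L hL _ (le_refl _) m w hw η0 hη h
  have h7 : 2 * ‖b j - c j‖ * ‖h‖ ≤ ε / 2 * ‖h‖ := by
    apply mul_le_mul_of_nonneg_right _ (norm_nonneg h)
    have := hbc j
    linarith
  have h8 : K j * √(2 * ((∑ j, l0 j : ℕ) : ℝ) / L) * ‖h‖ ≤ ε / 2 * ‖h‖ := by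
    apply mul_le_mul_of_nonneg_right _ (norm_nonneg h)
    refine le_trans ?_ hKL
    apply mul_le_mul_of_nonneg_right _ (Real.sqrt_nonneg _)
    exact Finset.single_le_sum (f := K) (fun i _ => hK i) (Finset.mem_univ j)
  linarith

end Vale.Agent.P083
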