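import Mathlib
import Vale.Agent.Lib.P083.Defs2

/-!
# P083: exact unitary representations of the Heisenberg group (PROOF 2a)
-/

namespace Vale.Agent.P083

open scoped BigOperators InnerProductSpace

namespace ExactAux

section
variable {K : Type*} [NormedAddCommGroup K] [InnerProductSpace ℂ K]

/-- average over the image of a finite group -/
noncomputable def avg {M : Type} [Group M] [Fintype M] (φ : M →* Heis) (L : Heis → K →L[ℂ] K) :
    K →L[ℂ] K := ((Fintype.card M : ℂ))⁻¹ • ∑ m : M, L (φ m)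

variable {M : Type} [Group M] [Fintype M] (φ : M →* Heis)

theorem L_avg (L : Heis → K →L[ℂ] K) (hmul : ∀ g h, L (g * h) = L g * L h) (m : M) :
    L (φ m) * avg φ L = avg φ L := by
  unfold avg
  rw [mul_smul_comm, Finset.mul_sum]
  congr 1
  have h : ∀ n : M, L (φ m) * L (φ n) = L (φ (m * n)) := by
    intro n
    rw [map_mul, hmul]
  rw [Finset.sum_congr rfl (fun n _ => h n)]
  exact Fintype.sum_equiv (Equiv.mulLeft m) _ _ (fun n => rfl)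

theorem avg_L (L : Heis → K →L[ℂ] K) (hmul : ∀ g h, L (g * h) = L g * L h) (m : M) :
    avg φ L * L (φ m) = avg φ L := by
  unfold avg
  rw [smul_mul_assoc, Finset.sum_mul]
  congr 1
  have h : ∀ n : M, L (φ n) * L (φ m) = L (φ (n * m)) := by
    intro n
    rw [map_mul, hmul]
  rw [Finset.sum_congr rfl (fun n _ => h n)]
  exact Fintype.sum_equiv (Equiv.mulRight m) _ _ (fun n => rfl)

theorem card_ne : (Fintype.card M : ℂ) ≠ 0 := by
  have : 0 < Fintype.card M := Fintype.card_pos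
  exact_mod_cast this.ne'

theorem avg_avg (L : Heis → K →L[ℂ] K) (hmul : ∀ g h, L (g * h) = L g * L h) :
    avg φ L * avg φ L = avg φ L := by
  have e : avg φ L = ((Fintype.card M : ℂ))⁻¹ • ∑ m : M, L (φ m) := rfl
  conv_lhs => lhs; rw [e]
  rw [smul_mul_assoc, Finset.sum_mul, Finset.sum_congr rfl (fun m _ => L_avg φ L hmul m),
    Finset.sum_const, Finset.card_univ, ← Nat.cast_smul_eq_nsmul ℂ, smul_smul,
    inv_mul_cancel₀ (card_ne (M := M)), one_smul]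

theorem mul_apply' (A B : K →L[ℂ] K) (x : K) : (A * B) x = A (B x) := rfl

/-- the three cyclic subgroups -/
def hA : Multiplicative F →* Heis where
  toFun s := ⟨s.toAdd, 0, 0⟩
  map_one' := by ext <;> simp
  map_mul' s t := by ext <;> simp

def hB : Multiplicative F →* Heis where
  toFun s := ⟨0, s.toAdd, 0⟩
  map_one' := by ext <;> simp
  map_mul' s t := by ext <;> simp

def hC : Multiplicative F →* Heis where
  toFun s := ⟨0, 0, s.toAdd⟩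
  map_one' := by ext <;> simp
  map_mul' s t := by ext <;> simp

theorem card_mul : Fintype.card (Multiplicative F) = 37 := by
  rw [Fintype.card_multiplicative, ZMod.card]

theorem avgA (L : Heis → K →L[ℂ] K) : avg hA L = (37 : ℂ)⁻¹ • ∑ s : F, L ⟨s, 0, 0⟩ := by
  unfold avg
  rw [card_mul]
  congr 1

theorem avgB (L : Heis → K →L[ℂ] K) : avg hB L = (37 : ℂ)⁻¹ • ∑ s : F, L ⟨0, s, 0⟩ := by
  unfold avg
  rw [card_mul]
  congr 1

theorem avgC (L : Heis → K →L[ℂ] K) : avg hC L = (37 : ℂ)⁻¹ • ∑ s : F, L ⟨0, 0, s⟩ := by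
  unfold avg
  rw [card_mul]
  congr 1

/-- the average over the whole group -/
noncomputable def PG (L : Heis → K →L[ℂ] K) : K →L[ℂ] K := avg hC L * avg hB L * avg hA L

theorem PG_eq (L : Heis → K →L[ℂ] K) (hmul : ∀ g h, L (g * h) = L g * L h) : PG L =
    ((37 : ℂ) ^ 3)⁻¹ • ∑ s : F, ∑ b : F, ∑ c : F, L ⟨s, b, c⟩ := by
  unfold PG
  rw [avgA, avgB, avgC]
  rw [smul_mul_smul_comm, smul_mul_smul_comm]
  have h3 : (37 : ℂ)⁻¹ * (37 : ℂ)⁻¹ * (37 : ℂ)⁻¹ = ((37 : ℂ) ^ 3)⁻¹ := by norm_num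
  rw [h3]
  congr 1
  simp only [Finset.sum_mul, Finset.mul_sum]
  have h4 : ∀ a b c : F, L ⟨0, 0, c⟩ * L ⟨0, b, 0⟩ * L ⟨a, 0, 0⟩ = L ⟨a, b, c⟩ := by
    intro a b c
    rw [← hmul, ← hmul]
    congr 1
    ext <;> simp
  simp only [h4]

theorem QA_eq (L : Heis → K →L[ℂ] K) : QA L = 1 - avg hA L := by
  rw [avgA]; rfl

theorem QB_eq (L : Heis → K →L[ℂ] K) : QB L = 1 - avg hB L := by
  rw [avgB]; rfl

/-- summation over the middle coordinate -/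
theorem sum_line (f : F → F → (K →L[ℂ] K)) :
    ∑ b : F, ∑ s : F, f b (s * b) =
      ∑ b : F, ∑ c : F, f b c - ∑ c : F, f 0 c + (37 : ℂ) • f 0 0 := by
  have h1 : ∀ b : F, b ≠ 0 → ∑ s : F, f b (s * b) = ∑ c : F, f b c := by
    intro b hb
    exact Fintype.sum_equiv (Equiv.mulRight₀ b hb) _ _ (fun s => rfl)
  have h2 : ∑ s : F, f 0 (s * 0) = (37 : ℂ) • f 0 0 := by
    simp only [mul_zero, Finset.sum_const, Finset.card_univ, ZMod.card]
    rw [← Nat.cast_smul_eq_nsmul ℂ]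
    norm_num
  rw [← Finset.add_sum_erase Finset.univ (fun b => ∑ s : F, f b (s * b)) (Finset.mem_univ 0),
    ← Finset.add_sum_erase Finset.univ (fun b => ∑ c : F, f b c) (Finset.mem_univ 0)]
  rw [h2, Finset.sum_congr rfl (fun b hb => h1 b (Finset.ne_of_mem_erase hb))]
  abel

theorem key (L : Heis → K →L[ℂ] K) (hmul : ∀ g h, L (g * h) = L g * L h) :
    avg hA L * avg hB L * avg hA L =
      PG L + (37 : ℂ)⁻¹ • (avg hA L - avg hC L * avg hA L) := by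
  have e1 : avg hA L * avg hB L * avg hA L =
      ((37 : ℂ) ^ 3)⁻¹ • ∑ s' : F, ∑ b : F, ∑ s : F, L ⟨s', b, s * b⟩ := by
    rw [avgA, avgB]
    rw [smul_mul_smul_comm, smul_mul_smul_comm]
    have h3 : (37 : ℂ)⁻¹ * (37 : ℂ)⁻¹ * (37 : ℂ)⁻¹ = ((37 : ℂ) ^ 3)⁻¹ := by norm_num
    rw [h3]
    congr 1
    simp only [Finset.sum_mul, Finset.mul_sum]
    have h4 : ∀ a b s : F, L ⟨s, 0, 0⟩ * L ⟨0, b, 0⟩ * L ⟨a, 0, 0⟩ = L ⟨s + a, b, s * b⟩ := by
      intro a b s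
      rw [← hmul, ← hmul]
      congr 1
      ext <;> simp
    simp only [h4]
    have h5 : ∑ a : F, ∑ b : F, ∑ s : F, L ⟨s + a, b, s * b⟩ =
        ∑ b : F, ∑ s : F, ∑ a : F, L ⟨s + a, b, s * b⟩ := by
      rw [Finset.sum_comm]
      refine Finset.sum_congr rfl (fun b _ => ?_)
      rw [Finset.sum_comm]
    have h6 : ∑ s' : F, ∑ b : F, ∑ s : F, L ⟨s', b, s * b⟩ =
        ∑ b : F, ∑ s : F, ∑ s' : F, L ⟨s', b, s * b⟩ := by
      rw [Finset.sum_comm]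
      refine Finset.sum_congr rfl (fun b _ => ?_)
      rw [Finset.sum_comm]
    rw [h6]
    have h7 : ∀ b s : F, ∑ a : F, L ⟨s + a, b, s * b⟩ = ∑ s' : F, L ⟨s', b, s * b⟩ := by
      intro b s
      exact Fintype.sum_equiv (Equiv.addLeft s) _ _ (fun a => rfl)
    rw [h5]
    exact Finset.sum_congr rfl (fun b _ => Finset.sum_congr rfl (fun s _ => h7 b s))
  have e2 : avg hC L * avg hA L = ((37 : ℂ) ^ 2)⁻¹ • ∑ s : F, ∑ c : F, L ⟨s, 0, c⟩ := by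
    rw [avgA, avgC]
    rw [smul_mul_smul_comm]
    have h3 : (37 : ℂ)⁻¹ * (37 : ℂ)⁻¹ = ((37 : ℂ) ^ 2)⁻¹ := by norm_num
    rw [h3]
    congr 1
    simp only [Finset.sum_mul, Finset.mul_sum]
    have h4 : ∀ s c : F, L ⟨0, 0, c⟩ * L ⟨s, 0, 0⟩ = L ⟨s, 0, c⟩ := by
      intro s c
      rw [← hmul]
      congr 1
      ext <;> simp
    simp only [h4]
    try rw [Finset.sum_comm]
  rw [e1, e2, PG_eq L hmul, avgA]
  have e3 : ∀ s' : F, ∑ b : F, ∑ s : F, L ⟨s', b, s * b⟩ =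
      ∑ b : F, ∑ c : F, L ⟨s', b, c⟩ - ∑ c : F, L ⟨s', 0, c⟩ + (37 : ℂ) • L ⟨s', 0, 0⟩ :=
    fun s' => sum_line (fun b c => L ⟨s', b, c⟩)
  rw [Finset.sum_congr rfl (fun s' _ => e3 s'), Finset.sum_add_distrib, Finset.sum_sub_distrib,
    ← Finset.smul_sum, smul_add, smul_sub, smul_sub, smul_smul, smul_smul, smul_smul]
  have c1 : ((37 : ℂ) ^ 3)⁻¹ * 37 = (37 : ℂ)⁻¹ * (37 : ℂ)⁻¹ := by norm_num
  have c2 : (37 : ℂ)⁻¹ * ((37 : ℂ) ^ 2)⁻¹ = ((37 : ℂ) ^ 3)⁻¹ := by norm_num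
  rw [c1, c2]
  abel

theorem commCB (L : Heis → K →L[ℂ] K) (hmul : ∀ g h, L (g * h) = L g * L h) :
    avg hB L * avg hC L = avg hC L * avg hB L := by
  rw [avgB, avgC, smul_mul_smul_comm, smul_mul_smul_comm]
  congr 1
  simp only [Finset.sum_mul, Finset.mul_sum]
  have h4 : ∀ b c : F, L ⟨0, 0, c⟩ * L ⟨0, b, 0⟩ = L ⟨0, b, c⟩ := by
    intro b c
    rw [← hmul]
    congr 1
    ext <;> simp
  have h5 : ∀ b c : F, L ⟨0, b, 0⟩ * L ⟨0, 0, c⟩ = L ⟨0, b, c⟩ := by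
    intro b c
    rw [← hmul]
    congr 1
    ext <;> simp
  simp only [h4, h5]
  exact Finset.sum_comm

theorem commCA (L : Heis → K →L[ℂ] K) (hmul : ∀ g h, L (g * h) = L g * L h) :
    avg hA L * avg hC L = avg hC L * avg hA L := by
  rw [avgA, avgC, smul_mul_smul_comm, smul_mul_smul_comm]
  congr 1
  simp only [Finset.sum_mul, Finset.mul_sum]
  have h4 : ∀ b c : F, L ⟨0, 0, c⟩ * L ⟨b, 0, 0⟩ = L ⟨b, 0, c⟩ := by
    intro b c
    rw [← hmul]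
    congr 1
    ext <;> simp
  have h5 : ∀ b c : F, L ⟨b, 0, 0⟩ * L ⟨0, 0, c⟩ = L ⟨b, 0, c⟩ := by
    intro b c
    rw [← hmul]
    congr 1
    ext <;> simp
  simp only [h4, h5]
  exact Finset.sum_comm

theorem PG_A (L : Heis → K →L[ℂ] K) (hmul : ∀ g h, L (g * h) = L g * L h) :
    PG L * avg hA L = PG L := by
  unfold PG
  rw [mul_assoc, avg_avg hA L hmul]

theorem C_PG (L : Heis → K →L[ℂ] K) (hmul : ∀ g h, L (g * h) = L g * L h) :
    avg hC L * PG L = PG L := by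
  unfold PG
  rw [← mul_assoc, ← mul_assoc, avg_avg hC L hmul]

theorem B_PG (L : Heis → K →L[ℂ] K) (hmul : ∀ g h, L (g * h) = L g * L h) :
    avg hB L * PG L = PG L := by
  unfold PG
  rw [← mul_assoc, ← mul_assoc, commCB L hmul, mul_assoc (avg hC L), avg_avg hB L hmul]

theorem A_PG (L : Heis → K →L[ℂ] K) (hmul : ∀ g h, L (g * h) = L g * L h) :
    avg hA L * PG L = PG L := by
  have h1 : avg hA L * PG L = avg hC L * (avg hA L * avg hB L * avg hA L) := by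
    unfold PG
    rw [← mul_assoc, ← mul_assoc, commCA L hmul, mul_assoc, mul_assoc, mul_assoc]
  rw [h1, key L hmul, mul_add, C_PG L hmul, mul_smul_comm, mul_sub, ← mul_assoc,
    avg_avg hC L hmul, sub_self, smul_zero, add_zero]

theorem PG_PG (L : Heis → K →L[ℂ] K) (hmul : ∀ g h, L (g * h) = L g * L h) :
    PG L * PG L = PG L := by
  have h1 : PG L * PG L = avg hC L * (avg hB L * (avg hA L * PG L)) := by
    conv_lhs => lhs; unfold PG
    rw [mul_assoc, mul_assoc]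
  rw [h1, A_PG L hmul, B_PG L hmul, C_PG L hmul]

variable [CompleteSpace K]

theorem avg_star (L : Heis → K →L[ℂ] K) (hstar : ∀ g, star (L g) = L g⁻¹) :
    star (avg φ L) = avg φ L := by
  unfold avg
  rw [star_smul, star_sum]
  have h : ∀ m : M, star (L (φ m)) = L (φ m⁻¹) := by
    intro m
    rw [hstar, map_inv]
  rw [Finset.sum_congr rfl (fun m _ => h m)]
  congr 1
  · simp
  · exact Fintype.sum_equiv (Equiv.inv M) _ _ (fun m => rfl)

theorem inner_avg (L : Heis → K →L[ℂ] K) (hstar : ∀ g, star (L g) = L g⁻¹) (x y : K) :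
    ⟪avg φ L x, y⟫_ℂ = ⟪x, avg φ L y⟫_ℂ := by
  have h := avg_star φ L hstar
  rw [ContinuousLinearMap.star_eq_adjoint] at h
  conv_lhs => rw [← h]
  rw [ContinuousLinearMap.adjoint_inner_left]

omit [CompleteSpace K] in
theorem avg_avg_apply (L : Heis → K →L[ℂ] K) (hmul : ∀ g h, L (g * h) = L g * L h) (x : K) :
    avg φ L (avg φ L x) = avg φ L x := by
  rw [← mul_apply', avg_avg φ L hmul]

/-- `⟨x, P x⟩ = ‖P x‖²` -/
theorem inner_self (L : Heis → K →L[ℂ] K) (hmul : ∀ g h, L (g * h) = L g * L h)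
    (hstar : ∀ g, star (L g) = L g⁻¹) (x : K) :
    RCLike.re ⟪x, avg φ L x⟫_ℂ = ‖avg φ L x‖ ^ 2 := by
  rw [← avg_avg_apply φ L hmul x, ← inner_avg φ L hstar, avg_avg_apply φ L hmul x,
    inner_self_eq_norm_sq]

theorem proj_gen (L : Heis → K →L[ℂ] K) (hmul : ∀ g h, L (g * h) = L g * L h)
    (hstar : ∀ g, star (L g) = L g⁻¹) (v : K) :
    ‖v - avg φ L v‖ ^ 2 = ‖v‖ ^ 2 - ‖avg φ L v‖ ^ 2 := by
  rw [@norm_sub_sq ℂ, inner_self φ L hmul hstar]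
  ring

theorem proj_gen' (L : Heis → K →L[ℂ] K) (hmul : ∀ g h, L (g * h) = L g * L h)
    (hstar : ∀ g, star (L g) = L g⁻¹) (v : K) :
    RCLike.re ⟪v, v - avg φ L v⟫_ℂ = ‖v‖ ^ 2 - ‖avg φ L v‖ ^ 2 := by
  rw [inner_sub_right, map_sub, inner_self φ L hmul hstar, inner_self_eq_norm_sq]

/-- the spectral gap for vectors without invariant part -/
theorem small (L : Heis → K →L[ℂ] K) (hmul : ∀ g h, L (g * h) = L g * L h)
    (hstar : ∀ g, star (L g) = L g⁻¹) (v : K) (hv : PG L v = 0) :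
    ‖avg hB L (avg hA L v)‖ ≤ (1 / 6) * ‖avg hA L v‖ := by
  set a := avg hA L v with ha
  have haa : avg hA L a = a := avg_avg_apply hA L hmul v
  have hG : PG L a = 0 := by
    rw [ha, ← mul_apply', PG_A L hmul]
    exact hv
  have h1 : RCLike.re ⟪a, avg hB L a⟫_ℂ = ‖avg hB L a‖ ^ 2 := inner_self hB L hmul hstar a
  have h2 : avg hA L (avg hB L (avg hA L a)) =
      PG L a + (37 : ℂ)⁻¹ • (avg hA L a - avg hC L (avg hA L a)) := by
    rw [← mul_apply', ← mul_apply', key L hmul, ← mul_apply' (avg hC L)]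
    rfl
  rw [haa, hG, zero_add] at h2
  have h3 : ⟪a, avg hB L a⟫_ℂ = ⟪a, avg hA L (avg hB L a)⟫_ℂ := by
    rw [← inner_avg hA L hstar, haa]
  rw [h3, h2, inner_smul_right, inner_sub_right] at h1
  have h4 : RCLike.re ⟪a, avg hC L a⟫_ℂ = ‖avg hC L a‖ ^ 2 := inner_self hC L hmul hstar a
  have h5 : RCLike.re ((37 : ℂ)⁻¹ * (⟪a, a⟫_ℂ - ⟪a, avg hC L a⟫_ℂ)) =
      (37 : ℝ)⁻¹ * (‖a‖ ^ 2 - ‖avg hC L a‖ ^ 2) := by
    have h6 : ((37 : ℂ)⁻¹) = (((37 : ℝ)⁻¹ : ℝ) : ℂ) := by push_cast; rfl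
    rw [h6]
    have h7 : RCLike.re ((((37 : ℝ)⁻¹ : ℝ) : ℂ) * (⟪a, a⟫_ℂ - ⟪a, avg hC L a⟫_ℂ)) =
        (37 : ℝ)⁻¹ * RCLike.re (⟪a, a⟫_ℂ - ⟪a, avg hC L a⟫_ℂ) := by
      simp
    rw [h7, map_sub, h4, inner_self_eq_norm_sq]
  rw [h5] at h1
  have h8 : ‖avg hB L a‖ ^ 2 ≤ ((1 / 6) * ‖a‖) ^ 2 := by
    rw [← h1]
    nlinarith [sq_nonneg ‖a‖, sq_nonneg ‖avg hC L a‖]
  exact abs_le_of_sq_le_sq' h8 (by positivity) |>.2

theorem inner_small (L : Heis → K →L[ℂ] K) (hmul : ∀ g h, L (g * h) = L g * L h)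
    (hstar : ∀ g, star (L g) = L g⁻¹) (v : K) (hv : PG L v = 0) :
    2 * RCLike.re ⟪avg hA L v, avg hB L v⟫_ℂ ≤
      (1 / 6) * (‖avg hA L v‖ ^ 2 + ‖avg hB L v‖ ^ 2) := by
  have h1 : ⟪avg hA L v, avg hB L v⟫_ℂ = ⟪avg hB L (avg hA L v), avg hB L v⟫_ℂ := by
    rw [inner_avg hB L hstar, avg_avg_apply hB L hmul]
  have h2 : RCLike.re ⟪avg hA L v, avg hB L v⟫_ℂ ≤
      ‖avg hB L (avg hA L v)‖ * ‖avg hB L v‖ := by
    rw [h1]
    exact re_inner_le_norm _ _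
  have h3 := small L hmul hstar v hv
  have h4 := norm_nonneg (avg hB L v)
  have h5 := norm_nonneg (avg hA L v)
  nlinarith [sq_nonneg (‖avg hA L v‖ - ‖avg hB L v‖), mul_le_mul_of_nonneg_right h3 h4]

/-- the estimate for vectors without invariant part -/
theorem pair0 (L : Heis → K →L[ℂ] K) (hmul : ∀ g h, L (g * h) = L g * L h)
    (hstar : ∀ g, star (L g) = L g⁻¹) (v : K) (hv : PG L v = 0) :
    -(1 / 6) * (RCLike.re ⟪v, v - avg hA L v⟫_ℂ + RCLike.re ⟪v, v - avg hB L v⟫_ℂ)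
      ≤ 2 * RCLike.re ⟪v - avg hA L v, v - avg hB L v⟫_ℂ := by
  have hab := inner_small L hmul hstar v hv
  rw [proj_gen' hA L hmul hstar, proj_gen' hB L hmul hstar]
  have iA := inner_self hA L hmul hstar v
  have iB := inner_self hB L hmul hstar v
  set a := avg hA L v with ha
  set b := avg hB L v with hb
  have iA' : RCLike.re ⟪a, v⟫_ℂ = ‖a‖ ^ 2 := by rw [← iA, inner_re_symm]
  have iB' : RCLike.re ⟪b, v⟫_ℂ = ‖b‖ ^ 2 := by rw [← iB, inner_re_symm]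
  have e1 : RCLike.re ⟪v - a, v - b⟫_ℂ =
      ‖v‖ ^ 2 - ‖a‖ ^ 2 - ‖b‖ ^ 2 + RCLike.re ⟪a, b⟫_ℂ := by
    rw [inner_sub_left, inner_sub_right, inner_sub_right, map_sub, map_sub, map_sub, iA', iB,
      inner_self_eq_norm_sq]
    ring
  -- `‖a + b‖² = σ + 2 Re ⟨a, b⟩`
  have e2 : ‖a + b‖ ^ 2 = ‖a‖ ^ 2 + ‖b‖ ^ 2 + 2 * RCLike.re ⟪a, b⟫_ℂ := by
    rw [@norm_add_sq ℂ]
    ring
  have e3 : ‖a‖ ^ 2 + ‖b‖ ^ 2 ≤ ‖v‖ * ‖a + b‖ := by
    have h := re_inner_le_norm (𝕜 := ℂ) v (a + b)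
    rw [inner_add_right, map_add, iA, iB] at h
    exact h
  have e4 : ‖a‖ ^ 2 + ‖b‖ ^ 2 ≤ (7 / 6) * ‖v‖ ^ 2 := by
    by_contra hcon
    push Not at hcon
    have h0 : 0 ≤ ‖v‖ ^ 2 := sq_nonneg _
    set σ := ‖a‖ ^ 2 + ‖b‖ ^ 2 with hσ
    have h1 : σ ^ 2 ≤ ‖v‖ ^ 2 * ‖a + b‖ ^ 2 := by
      rw [← mul_pow]
      refine pow_le_pow_left₀ ?_ e3 2
      rw [hσ]; positivity
    have h2 : ‖a + b‖ ^ 2 ≤ (7 / 6) * σ := by
      rw [e2]; linarith
    have h3 : σ ^ 2 ≤ ‖v‖ ^ 2 * ((7 / 6) * σ) := h1.trans (mul_le_mul_of_nonneg_left h2 h0)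
    nlinarith
  have e5 : 0 ≤ ‖(a + b) - ((7 / 6 : ℝ) : ℂ) • v‖ ^ 2 := sq_nonneg _
  have e6 : ‖(a + b) - ((7 / 6 : ℝ) : ℂ) • v‖ ^ 2 =
      ‖a + b‖ ^ 2 - 2 * ((7 / 6) * (‖a‖ ^ 2 + ‖b‖ ^ 2)) + (7 / 6) ^ 2 * ‖v‖ ^ 2 := by
    rw [@norm_sub_sq ℂ, norm_smul, inner_smul_right, inner_add_left, mul_pow]
    have h7 : RCLike.re (((7 / 6 : ℝ) : ℂ) * (⟪a, v⟫_ℂ + ⟪b, v⟫_ℂ)) =
        (7 / 6 : ℝ) * RCLike.re (⟪a, v⟫_ℂ + ⟪b, v⟫_ℂ) := by
      simp only [RCLike.re_to_complex, Complex.re_ofReal_mul]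
    rw [h7, map_add, iA', iB']
    have h8 : ‖((7 / 6 : ℝ) : ℂ)‖ = 7 / 6 := by
      rw [Complex.norm_real, Real.norm_eq_abs, abs_of_pos (by norm_num)]
    rw [h8]
  rw [e1]
  rw [e6, e2] at e5
  linarith

end

end ExactAux

open ExactAux

section
variable {K : Type*} [NormedAddCommGroup K] [InnerProductSpace ℂ K] [CompleteSpace K]

theorem exact_pair (L : Heis → K →L[ℂ] K) (h1 : L 1 = 1) (hmul : ∀ g h, L (g * h) = L g * L h)
    (hstar : ∀ g, star (L g) = L g⁻¹) (v : K) :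
    -(1 / 6) * (RCLike.re ⟪v, QA L v⟫_ℂ + RCLike.re ⟪v, QB L v⟫_ℂ)
      ≤ 2 * RCLike.re ⟪QA L v, QB L v⟫_ℂ := by
  have _ := h1
  set w := v - PG L v with hw
  have hw0 : PG L w = 0 := by
    rw [hw, map_sub, ← mul_apply', PG_PG L hmul, sub_self]
  have hA1 : ∀ x, avg hA L (PG L x) = PG L x := by
    intro x
    rw [← mul_apply', A_PG L hmul]
  have hB1 : ∀ x, avg hB L (PG L x) = PG L x := by
    intro x
    rw [← mul_apply', B_PG L hmul]
  have qA : QA L v = w - avg hA L w := by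
    rw [QA_eq, hw, map_sub, hA1]
    show v - avg hA L v = _
    abel
  have qB : QB L v = w - avg hB L w := by
    rw [QB_eq, hw, map_sub, hB1]
    show v - avg hB L v = _
    abel
  have h := pair0 L hmul hstar w hw0
  have eA : RCLike.re ⟪v, w - avg hA L w⟫_ℂ = RCLike.re ⟪w, w - avg hA L w⟫_ℂ := by
    have h2 : v = w + PG L v := by rw [hw]; abel
    have h3 : ⟪PG L v, w - avg hA L w⟫_ℂ = 0 := by
      rw [inner_sub_right, ← inner_avg hA L hstar, hA1, sub_self]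
    conv_lhs => rw [h2]
    rw [inner_add_left, h3, add_zero]
  have eB : RCLike.re ⟪v, w - avg hB L w⟫_ℂ = RCLike.re ⟪w, w - avg hB L w⟫_ℂ := by
    have h2 : v = w + PG L v := by rw [hw]; abel
    have h3 : ⟪PG L v, w - avg hB L w⟫_ℂ = 0 := by
      rw [inner_sub_right, ← inner_avg hB L hstar, hB1, sub_self]
    conv_lhs => rw [h2]
    rw [inner_add_left, h3, add_zero]
  rw [qA, qB, eA, eB]
  exact h

theorem exact_projA (L : Heis → K →L[ℂ] K) (h1 : L 1 = 1) (hmul : ∀ g h, L (g * h) = L g * L h)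
    (hstar : ∀ g, star (L g) = L g⁻¹) (v : K) : ‖QA L v‖ ^ 2 = RCLike.re ⟪v, QA L v⟫_ℂ := by
  have _ := h1
  rw [QA_eq]
  show ‖v - avg hA L v‖ ^ 2 = RCLike.re ⟪v, v - avg hA L v⟫_ℂ
  rw [proj_gen hA L hmul hstar, proj_gen' hA L hmul hstar]

theorem exact_projB (L : Heis → K →L[ℂ] K) (h1 : L 1 = 1) (hmul : ∀ g h, L (g * h) = L g * L h)
    (hstar : ∀ g, star (L g) = L g⁻¹) (v : K) : ‖QB L v‖ ^ 2 = RCLike.re ⟪v, QB L v⟫_ℂ := by
  have _ := h1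
  rw [QB_eq]
  show ‖v - avg hB L v‖ ^ 2 = RCLike.re ⟪v, v - avg hB L v⟫_ℂ
  rw [proj_gen hB L hmul hstar, proj_gen' hB L hmul hstar]

end

end Vale.Agent.P083
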