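import Vale.Agent.Lib.P083.Defs2
import Vale.Agent.Lib.P083.Exact

/-!
# P083, module Dilate: approximate representations are close to exact ones (PROOF 2b)

`V v = |G|^{-1/2} (u(g⁻¹) v)_g` in `l2(G; K)`, `L` the left translation, an exact unitary
representation.  `‖L h (V v) - V (u h v)‖ ≤ δ ‖v‖` and `|<V a, V b> - <a, b>| ≤ 4 δ ‖a‖ ‖b‖`.
-/

namespace Vale.Agent.P083

open scoped BigOperators InnerProductSpace Topology BoundedContinuousFunction ENNReal ComplexOrder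
open Filter

namespace Dilate

variable {K : Type*} [NormedAddCommGroup K] [InnerProductSpace ℂ K]

/-- left translation -/
noncomputable def Lt (K : Type*) [NormedAddCommGroup K] [InnerProductSpace ℂ K] (h : Heis) :
    PiLp 2 (fun _ : Heis => K) →L[ℂ] PiLp 2 (fun _ : Heis => K) :=
  Theta (1 : K →L[ℂ] K) (Equiv.mulLeft h)

theorem Lt_apply (h : Heis) (ζ : PiLp 2 (fun _ : Heis => K)) (g : Heis) :
    Lt K h ζ g = ζ (h⁻¹ * g) := rfl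

theorem Lt_one : Lt K 1 = 1 := by
  ext ζ g
  rw [Lt_apply]
  simp

theorem Lt_mul (g h : Heis) : Lt K (g * h) = Lt K g * Lt K h := by
  ext ζ x
  change ζ ((g * h)⁻¹ * x) = ζ (h⁻¹ * (g⁻¹ * x))
  rw [mul_inv_rev, mul_assoc]

/-- the constant `|G|^{-1/2}` -/
noncomputable def cG : ℝ := (√(Fintype.card Heis : ℝ))⁻¹

theorem cG_sq : (Fintype.card Heis : ℝ) * cG ^ 2 = 1 := by
  have h : (0 : ℝ) < Fintype.card Heis := by exact_mod_cast Fintype.card_pos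
  rw [cG, inv_pow, Real.sq_sqrt h.le, mul_inv_cancel₀ h.ne']

theorem cG_pos : 0 < cG := by
  have h : (0 : ℝ) < Fintype.card Heis := by exact_mod_cast Fintype.card_pos
  rw [cG]
  positivity

/-- the dilation map -/
noncomputable def dV (u : Heis → K →L[ℂ] K) : K →ₗ[ℂ] PiLp 2 (fun _ : Heis => K) where
  toFun v := WithLp.toLp 2 (fun g => (cG : ℂ) • u g⁻¹ v)
  map_add' v w := by
    ext g
    simp
  map_smul' c v := by
    ext g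
    change (cG : ℂ) • u g⁻¹ (c • v) = c • ((cG : ℂ) • u g⁻¹ v)
    rw [map_smul, smul_comm]

theorem dV_apply (u : Heis → K →L[ℂ] K) (v : K) (g : Heis) : dV u v g = (cG : ℂ) • u g⁻¹ v := rfl

theorem norm_cG_smul (x : K) : ‖(cG : ℂ) • x‖ ^ 2 = cG ^ 2 * ‖x‖ ^ 2 := by
  rw [norm_smul, mul_pow, Complex.norm_real, Real.norm_of_nonneg cG_pos.le]

/-- a vector with small entries has small norm -/
theorem norm_le_of (f : Heis → K) (C : ℝ) (hC : 0 ≤ C) (h : ∀ g, ‖f g‖ ≤ C)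
    (ζ : PiLp 2 (fun _ : Heis => K)) (hζ : ∀ g, ζ g = (cG : ℂ) • f g) : ‖ζ‖ ≤ C := by
  have h1 : ‖ζ‖ ^ 2 ≤ C ^ 2 := by
    rw [PiLp.norm_sq_eq_of_L2]
    calc ∑ g, ‖ζ g‖ ^ 2 ≤ ∑ _g : Heis, cG ^ 2 * C ^ 2 := by
          refine Finset.sum_le_sum fun g _ => ?_
          rw [hζ, norm_cG_smul]
          exact mul_le_mul_of_nonneg_left (pow_le_pow_left₀ (norm_nonneg _) (h g) 2)
            (sq_nonneg _)
      _ = C ^ 2 := by
          rw [Finset.sum_const, Finset.card_univ, nsmul_eq_mul, ← mul_assoc, cG_sq, one_mul]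
  exact (abs_le_of_sq_le_sq' h1 hC).2

section Comp
variable [CompleteSpace K]

theorem Lt_star (g : Heis) : star (Lt K g) = Lt K g⁻¹ := by
  rw [ContinuousLinearMap.star_eq_adjoint]
  symm
  rw [ContinuousLinearMap.eq_adjoint_iff]
  intro x y
  rw [PiLp.inner_apply, PiLp.inner_apply]
  rw [← Equiv.sum_comp (Equiv.mulLeft g⁻¹) (fun i => ⟪(Lt K g⁻¹ x) i, y i⟫_ℂ)]
  refine Finset.sum_congr rfl fun i _ => ?_
  simp only [Lt_apply, Equiv.coe_mulLeft]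
  rw [inv_inv, mul_inv_cancel_left]

variable {δ : ℝ} {u : Heis → K →L[ℂ] K}

theorem star_mul_sub_le (hu : IsApx δ u) (g : Heis) :
    ‖star (u g) * u g - 1‖ ≤ 2 * δ + δ * ‖u g‖ := by
  have h1 : star (u g) * u g - 1 = (star (u g) - u g⁻¹) * u g + (u g⁻¹ * u g - u (g⁻¹ * g)) +
      (u 1 - 1) := by
    rw [inv_mul_cancel, sub_mul]
    abel
  rw [h1]
  have h2 := norm_add_le ((star (u g) - u g⁻¹) * u g + (u g⁻¹ * u g - u (g⁻¹ * g))) (u 1 - 1)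
  have h3 := norm_add_le ((star (u g) - u g⁻¹) * u g) (u g⁻¹ * u g - u (g⁻¹ * g))
  have h4 := norm_mul_le (star (u g) - u g⁻¹) (u g)
  have h5 := mul_le_mul_of_nonneg_right (hu.star g) (norm_nonneg (u g))
  have h6 := hu.mul g⁻¹ g
  have h7 := hu.one
  linarith

end Comp

end Dilate

section Exact
variable {K : Type*} [NormedAddCommGroup K] [InnerProductSpace ℂ K]

variable [CompleteSpace K]

theorem apx_norm_le {δ : ℝ} (h0 : 0 ≤ δ) (h1 : δ ≤ 1 / 4) {u : Heis → K →L[ℂ] K}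
    (hu : IsApx δ u) (g : Heis) : ‖u g‖ ≤ 2 := by
  have h2 := Dilate.star_mul_sub_le hu g
  have h3 : ‖star (u g) * u g‖ = ‖u g‖ * ‖u g‖ := CStarRing.norm_star_mul_self
  have h4 : ‖star (u g) * u g‖ ≤ ‖star (u g) * u g - 1‖ + 1 := by
    have h5 : star (u g) * u g = (star (u g) * u g - 1) + 1 := by abel
    conv_lhs => rw [h5]
    refine (norm_add_le _ _).trans ?_
    have h6 : ‖(1 : K →L[ℂ] K)‖ ≤ 1 := ContinuousLinearMap.norm_id_le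
    linarith
  by_contra hcon
  rw [not_le] at hcon
  have h7 : δ * ‖u g‖ ≤ 1 / 4 * ‖u g‖ := mul_le_mul_of_nonneg_right h1 (norm_nonneg _)
  nlinarith

end Exact

namespace Dilate

variable {K : Type*} [NormedAddCommGroup K] [InnerProductSpace ℂ K] [CompleteSpace K]
variable {δ : ℝ} {u : Heis → K →L[ℂ] K}

theorem star_mul_sub_le' (h0 : 0 ≤ δ) (h1 : δ ≤ 1 / 4) (hu : IsApx δ u) (g : Heis) :
    ‖star (u g) * u g - 1‖ ≤ 4 * δ := by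
  have h2 := star_mul_sub_le hu g
  have h3 := mul_le_mul_of_nonneg_left (apx_norm_le h0 h1 hu g) h0
  linarith

theorem inner_err (h0 : 0 ≤ δ) (h1 : δ ≤ 1 / 4) (hu : IsApx δ u) (g : Heis) (a b : K) :
    ‖⟪u g a, u g b⟫_ℂ - ⟪a, b⟫_ℂ‖ ≤ 4 * δ * ‖a‖ * ‖b‖ := by
  have h2 : ⟪u g a, u g b⟫_ℂ - ⟪a, b⟫_ℂ = ⟪a, (star (u g) * u g - 1) b⟫_ℂ := by
    rw [sub_apply, inner_sub_right, one_apply_eq_self]
    congr 1
    rw [mul_apply_eq_comp, ContinuousLinearMap.star_eq_adjoint,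
      ContinuousLinearMap.adjoint_inner_right]
  rw [h2]
  have h3 := norm_inner_le_norm (𝕜 := ℂ) a ((star (u g) * u g - 1) b)
  have h4 := (star (u g) * u g - 1).le_opNorm b
  have h5 := mul_le_mul_of_nonneg_right (star_mul_sub_le' h0 h1 hu g) (norm_nonneg b)
  have h6 := mul_le_mul_of_nonneg_left (h4.trans h5) (norm_nonneg a)
  calc ‖⟪a, (star (u g) * u g - 1) b⟫_ℂ‖ ≤ ‖a‖ * (4 * δ * ‖b‖) := h3.trans h6
    _ = 4 * δ * ‖a‖ * ‖b‖ := by ring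

theorem dV_inner_err (h0 : 0 ≤ δ) (h1 : δ ≤ 1 / 4) (hu : IsApx δ u) (a b : K) :
    ‖⟪dV u a, dV u b⟫_ℂ - ⟪a, b⟫_ℂ‖ ≤ 4 * δ * ‖a‖ * ‖b‖ := by
  have hc : (Fintype.card Heis : ℂ) * ((cG : ℂ) ^ 2) = 1 := by
    have := cG_sq
    exact_mod_cast this
  have h2 : ⟪dV u a, dV u b⟫_ℂ - ⟪a, b⟫_ℂ =
      (cG : ℂ) ^ 2 * ∑ g : Heis, (⟪u g⁻¹ a, u g⁻¹ b⟫_ℂ - ⟪a, b⟫_ℂ) := by
    rw [Finset.sum_sub_distrib, Finset.sum_const, Finset.card_univ, mul_sub, nsmul_eq_mul,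
      ← mul_assoc, mul_comm ((cG : ℂ) ^ 2) (Fintype.card Heis : ℂ), hc, one_mul]
    congr 1
    rw [PiLp.inner_apply, Finset.mul_sum]
    refine Finset.sum_congr rfl fun g _ => ?_
    rw [dV_apply, dV_apply, inner_smul_left, inner_smul_right, Complex.conj_ofReal]
    ring
  rw [h2, norm_mul]
  have h3 : ‖∑ g : Heis, (⟪u g⁻¹ a, u g⁻¹ b⟫_ℂ - ⟪a, b⟫_ℂ)‖ ≤
      (Fintype.card Heis : ℝ) * (4 * δ * ‖a‖ * ‖b‖) := by
    refine (norm_sum_le _ _).trans ?_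
    refine (Finset.sum_le_sum fun g _ => inner_err h0 h1 hu g⁻¹ a b).trans ?_
    rw [Finset.sum_const, Finset.card_univ, nsmul_eq_mul]
  have h4 : ‖(cG : ℂ) ^ 2‖ = cG ^ 2 := by
    rw [norm_pow, Complex.norm_real, Real.norm_of_nonneg cG_pos.le]
  rw [h4]
  calc cG ^ 2 * _ ≤ cG ^ 2 * ((Fintype.card Heis : ℝ) * (4 * δ * ‖a‖ * ‖b‖)) :=
        mul_le_mul_of_nonneg_left h3 (sq_nonneg _)
    _ = ((Fintype.card Heis : ℝ) * cG ^ 2) * (4 * δ * ‖a‖ * ‖b‖) := by ring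
    _ = 4 * δ * ‖a‖ * ‖b‖ := by rw [cG_sq, one_mul]

theorem dV_norm_le (h0 : 0 ≤ δ) (h1 : δ ≤ 1 / 4) (hu : IsApx δ u) (a : K) :
    ‖dV u a‖ ≤ 2 * ‖a‖ := by
  refine norm_le_of (fun g => u g⁻¹ a) (2 * ‖a‖) (by positivity) (fun g => ?_) _ fun g => rfl
  exact ((u g⁻¹).le_opNorm a).trans
    (mul_le_mul_of_nonneg_right (apx_norm_le h0 h1 hu g⁻¹) (norm_nonneg a))

theorem dV_equiv (h0 : 0 ≤ δ) (hu : IsApx δ u) (h : Heis) (v : K) :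
    ‖Lt K h (dV u v) - dV u (u h v)‖ ≤ δ * ‖v‖ := by
  refine norm_le_of (fun g => u (g⁻¹ * h) v - u g⁻¹ (u h v)) (δ * ‖v‖) (by positivity)
    (fun g => ?_) _ fun g => ?_
  · have h2 : u (g⁻¹ * h) v - u g⁻¹ (u h v) = -((u g⁻¹ * u h - u (g⁻¹ * h)) v) := by
      rw [sub_apply, mul_apply_eq_comp]
      abel
    rw [h2, norm_neg]
    exact (ContinuousLinearMap.le_opNorm _ v).trans
      (mul_le_mul_of_nonneg_right (hu.mul g⁻¹ h) (norm_nonneg v))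
  · change dV u v (h⁻¹ * g) - dV u (u h v) g = _
    rw [dV_apply, dV_apply, smul_sub, mul_inv_rev, inv_inv]

/-- the averages -/
noncomputable def QX {K' : Type*} [NormedAddCommGroup K'] [InnerProductSpace ℂ K'] (x : F → Heis)
    (L : Heis → K' →L[ℂ] K') : K' →L[ℂ] K' := 1 - (37 : ℂ)⁻¹ • ∑ s : F, L (x s)

theorem QX_apply {K' : Type*} [NormedAddCommGroup K'] [InnerProductSpace ℂ K'] (x : F → Heis)
    (L : Heis → K' →L[ℂ] K') (v : K') :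
    QX x L v = v - (37 : ℂ)⁻¹ • ∑ s : F, L (x s) v := by
  rw [QX, sub_apply, one_apply_eq_self, smul_apply, sum_apply]

theorem QA_eq {K' : Type*} [NormedAddCommGroup K'] [InnerProductSpace ℂ K']
    (L : Heis → K' →L[ℂ] K') : QA L = QX (fun s => ⟨s, 0, 0⟩) L := rfl

theorem QB_eq {K' : Type*} [NormedAddCommGroup K'] [InnerProductSpace ℂ K']
    (L : Heis → K' →L[ℂ] K') : QB L = QX (fun s => ⟨0, s, 0⟩) L := rfl

theorem QX_err (h0 : 0 ≤ δ) (hu : IsApx δ u) (x : F → Heis) (v : K) :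
    ‖QX x (Lt K) (dV u v) - dV u (QX x u v)‖ ≤ δ * ‖v‖ := by
  have h2 : QX x (Lt K) (dV u v) - dV u (QX x u v) =
      -((37 : ℂ)⁻¹ • ∑ s : F, (Lt K (x s) (dV u v) - dV u (u (x s) v))) := by
    rw [QX_apply, QX_apply, map_sub, map_smul, map_sum, Finset.sum_sub_distrib, smul_sub]
    abel
  rw [h2, norm_neg, norm_smul]
  have h3 : ‖∑ s : F, (Lt K (x s) (dV u v) - dV u (u (x s) v))‖ ≤ 37 * (δ * ‖v‖) := by
    refine (norm_sum_le _ _).trans ?_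
    refine (Finset.sum_le_sum fun s _ => dV_equiv h0 hu (x s) v).trans ?_
    rw [Finset.sum_const, Finset.card_univ, ZMod.card, nsmul_eq_mul]
    norm_num
  have h4 : ‖(37 : ℂ)⁻¹‖ = 37⁻¹ := by
    rw [norm_inv]
    norm_num
  rw [h4]
  linarith

theorem QX_norm (h0 : 0 ≤ δ) (h1 : δ ≤ 1 / 4) (hu : IsApx δ u) (x : F → Heis) (v : K) :
    ‖QX x u v‖ ≤ 3 * ‖v‖ := by
  rw [QX_apply]
  refine (norm_sub_le _ _).trans ?_
  have h3 : ‖∑ s : F, u (x s) v‖ ≤ 37 * (2 * ‖v‖) := by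
    refine (norm_sum_le _ _).trans ?_
    refine (Finset.sum_le_sum fun s _ => ((u (x s)).le_opNorm v).trans
      (mul_le_mul_of_nonneg_right (apx_norm_le h0 h1 hu (x s)) (norm_nonneg v))).trans ?_
    rw [Finset.sum_const, Finset.card_univ, ZMod.card, nsmul_eq_mul]
    norm_num
  have h4 : ‖(37 : ℂ)⁻¹‖ = 37⁻¹ := by
    rw [norm_inv]
    norm_num
  rw [norm_smul, h4]
  linarith

theorem QA_err (h0 : 0 ≤ δ) (hu : IsApx δ u) (v : K) :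
    ‖QA (Lt K) (dV u v) - dV u (QA u v)‖ ≤ δ * ‖v‖ := by
  rw [QA_eq, QA_eq]
  exact QX_err h0 hu (fun s => ⟨s, 0, 0⟩) v

theorem QB_err (h0 : 0 ≤ δ) (hu : IsApx δ u) (v : K) :
    ‖QB (Lt K) (dV u v) - dV u (QB u v)‖ ≤ δ * ‖v‖ := by
  rw [QB_eq, QB_eq]
  exact QX_err h0 hu (fun s => ⟨0, s, 0⟩) v

/-- general error estimate -/
theorem pair_err (h0 : 0 ≤ δ) (h1 : δ ≤ 1 / 4) (hu : IsApx δ u) (n : ℝ) (hn : 0 ≤ n) (a b : K)
    (a' b' : PiLp 2 (fun _ : Heis => K)) (ha : ‖a‖ ≤ 3 * n) (hb : ‖b‖ ≤ 3 * n)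
    (ha' : ‖a' - dV u a‖ ≤ δ * n) (hb' : ‖b' - dV u b‖ ≤ δ * n) :
    |RCLike.re ⟪a', b'⟫_ℂ - RCLike.re ⟪a, b⟫_ℂ| ≤ 50 * δ * n ^ 2 := by
  have h2 : ⟪a', b'⟫_ℂ - ⟪a, b⟫_ℂ = ⟪a' - dV u a, b'⟫_ℂ + ⟪dV u a, b' - dV u b⟫_ℂ +
      (⟪dV u a, dV u b⟫_ℂ - ⟪a, b⟫_ℂ) := by
    rw [inner_sub_left, inner_sub_right]
    ring
  have h3 : |RCLike.re ⟪a', b'⟫_ℂ - RCLike.re ⟪a, b⟫_ℂ| ≤ ‖⟪a', b'⟫_ℂ - ⟪a, b⟫_ℂ‖ := by
    rw [← map_sub]
    exact RCLike.abs_re_le_norm _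
  refine h3.trans ?_
  rw [h2]
  have h4 := norm_add₃_le (a := ⟪a' - dV u a, b'⟫_ℂ) (b := ⟪dV u a, b' - dV u b⟫_ℂ)
    (c := ⟪dV u a, dV u b⟫_ℂ - ⟪a, b⟫_ℂ)
  have h5 := norm_inner_le_norm (𝕜 := ℂ) (a' - dV u a) b'
  have h6 := norm_inner_le_norm (𝕜 := ℂ) (dV u a) (b' - dV u b)
  have h7 := dV_inner_err h0 h1 hu a b
  have h8 := dV_norm_le h0 h1 hu a
  have h9 := dV_norm_le h0 h1 hu b
  have h10 : ‖b'‖ ≤ 7 * n := by
    have h11 : b' = (b' - dV u b) + dV u b := by abel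
    rw [h11]
    refine (norm_add_le _ _).trans ?_
    nlinarith
  have h12 : ‖dV u a‖ ≤ 6 * n := by linarith
  have e1 : ‖a' - dV u a‖ * ‖b'‖ ≤ (δ * n) * (7 * n) :=
    mul_le_mul ha' h10 (norm_nonneg _) (by positivity)
  have e2 : ‖dV u a‖ * ‖b' - dV u b‖ ≤ (6 * n) * (δ * n) :=
    mul_le_mul h12 hb' (norm_nonneg _) (by positivity)
  have e3 : 4 * δ * ‖a‖ * ‖b‖ ≤ 4 * δ * (3 * n) * (3 * n) := by
    have : ‖a‖ * ‖b‖ ≤ (3 * n) * (3 * n) := mul_le_mul ha hb (norm_nonneg _) (by positivity)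
    nlinarith
  nlinarith [mul_nonneg h0 (sq_nonneg n)]

end Dilate

section Exact
variable {K : Type*} [NormedAddCommGroup K] [InnerProductSpace ℂ K]

variable [CompleteSpace K]

theorem apx_pair {δ : ℝ} (h0 : 0 ≤ δ) (h1 : δ ≤ 1 / 4) {u : Heis → K →L[ℂ] K}
    (hu : IsApx δ u) (v : K) :
    -(1 / 6) * (RCLike.re ⟪v, QA u v⟫_ℂ + RCLike.re ⟪v, QB u v⟫_ℂ) - 200 * δ * ‖v‖ ^ 2
      ≤ 2 * RCLike.re ⟪QA u v, QB u v⟫_ℂ := by
  have hx := exact_pair (Dilate.Lt K) Dilate.Lt_one Dilate.Lt_mul Dilate.Lt_star (Dilate.dV u v)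
  have hA := Dilate.QA_err h0 hu v
  have hB := Dilate.QB_err h0 hu v
  have nA := Dilate.QX_norm h0 h1 hu (fun s => ⟨s, 0, 0⟩) v
  have nB := Dilate.QX_norm h0 h1 hu (fun s => ⟨0, s, 0⟩) v
  have hv : ‖Dilate.dV u v - Dilate.dV u v‖ ≤ δ * ‖v‖ := by
    rw [sub_self, norm_zero]
    positivity
  have nv : ‖v‖ ≤ 3 * ‖v‖ := by linarith [norm_nonneg v]
  have e1 := Dilate.pair_err h0 h1 hu ‖v‖ (norm_nonneg v) v (QA u v) (Dilate.dV u v)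
    (QA (Dilate.Lt K) (Dilate.dV u v)) nv nA hv hA
  have e2 := Dilate.pair_err h0 h1 hu ‖v‖ (norm_nonneg v) v (QB u v) (Dilate.dV u v)
    (QB (Dilate.Lt K) (Dilate.dV u v)) nv nB hv hB
  have e3 := Dilate.pair_err h0 h1 hu ‖v‖ (norm_nonneg v) (QA u v) (QB u v)
    (QA (Dilate.Lt K) (Dilate.dV u v)) (QB (Dilate.Lt K) (Dilate.dV u v)) nA nB hA hB
  rw [abs_le] at e1 e2 e3
  have hp : 0 ≤ δ * ‖v‖ ^ 2 := by positivity
  linarith [e1.1, e1.2, e2.1, e2.2, e3.1, e3.2]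

theorem apx_projA {δ : ℝ} (h0 : 0 ≤ δ) (h1 : δ ≤ 1 / 4) {u : Heis → K →L[ℂ] K}
    (hu : IsApx δ u) (v : K) :
    |‖QA u v‖ ^ 2 - RCLike.re ⟪v, QA u v⟫_ℂ| ≤ 200 * δ * ‖v‖ ^ 2 := by
  have hx := exact_projA (Dilate.Lt K) Dilate.Lt_one Dilate.Lt_mul Dilate.Lt_star (Dilate.dV u v)
  have hA := Dilate.QA_err h0 hu v
  have nA := Dilate.QX_norm h0 h1 hu (fun s => ⟨s, 0, 0⟩) v
  have hv : ‖Dilate.dV u v - Dilate.dV u v‖ ≤ δ * ‖v‖ := by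
    rw [sub_self, norm_zero]
    positivity
  have nv : ‖v‖ ≤ 3 * ‖v‖ := by linarith [norm_nonneg v]
  have e1 := Dilate.pair_err h0 h1 hu ‖v‖ (norm_nonneg v) v (QA u v) (Dilate.dV u v)
    (QA (Dilate.Lt K) (Dilate.dV u v)) nv nA hv hA
  have e3 := Dilate.pair_err h0 h1 hu ‖v‖ (norm_nonneg v) (QA u v) (QA u v)
    (QA (Dilate.Lt K) (Dilate.dV u v)) (QA (Dilate.Lt K) (Dilate.dV u v)) nA nA hA hA
  rw [abs_le] at e1 e3 ⊢
  rw [inner_self_eq_norm_sq (𝕜 := ℂ), inner_self_eq_norm_sq (𝕜 := ℂ)] at e3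
  have hp : 0 ≤ δ * ‖v‖ ^ 2 := by positivity
  constructor
  · linarith [e1.1, e1.2, e3.1, e3.2]
  · linarith [e1.1, e1.2, e3.1, e3.2]

theorem apx_projB {δ : ℝ} (h0 : 0 ≤ δ) (h1 : δ ≤ 1 / 4) {u : Heis → K →L[ℂ] K}
    (hu : IsApx δ u) (v : K) :
    |‖QB u v‖ ^ 2 - RCLike.re ⟪v, QB u v⟫_ℂ| ≤ 200 * δ * ‖v‖ ^ 2 := by
  have hx := exact_projB (Dilate.Lt K) Dilate.Lt_one Dilate.Lt_mul Dilate.Lt_star (Dilate.dV u v)
  have hA := Dilate.QB_err h0 hu v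
  have nA := Dilate.QX_norm h0 h1 hu (fun s => ⟨0, s, 0⟩) v
  have hv : ‖Dilate.dV u v - Dilate.dV u v‖ ≤ δ * ‖v‖ := by
    rw [sub_self, norm_zero]
    positivity
  have nv : ‖v‖ ≤ 3 * ‖v‖ := by linarith [norm_nonneg v]
  have e1 := Dilate.pair_err h0 h1 hu ‖v‖ (norm_nonneg v) v (QB u v) (Dilate.dV u v)
    (QB (Dilate.Lt K) (Dilate.dV u v)) nv nA hv hA
  have e3 := Dilate.pair_err h0 h1 hu ‖v‖ (norm_nonneg v) (QB u v) (QB u v)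
    (QB (Dilate.Lt K) (Dilate.dV u v)) (QB (Dilate.Lt K) (Dilate.dV u v)) nA nA hA hA
  rw [abs_le] at e1 e3 ⊢
  rw [inner_self_eq_norm_sq (𝕜 := ℂ), inner_self_eq_norm_sq (𝕜 := ℂ)] at e3
  have hp : 0 ≤ δ * ‖v‖ ^ 2 := by positivity
  constructor
  · linarith [e1.1, e1.2, e3.1, e3.2]
  · linarith [e1.1, e1.2, e3.1, e3.2]

end Exact

end Vale.Agent.P083
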