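import Mathlib
import Vale.Agent.Lib.P083.Defs2
import Vale.Agent.Lib.P083.Dilate

/-!
# P083: the spectral gap of an approximate system (PROOF.md, 2c)
-/

namespace Vale.Agent.P083

open scoped BigOperators InnerProductSpace Topology BoundedContinuousFunction ENNReal ComplexOrder
open Filter

section Exact
variable {K : Type*} [NormedAddCommGroup K] [InnerProductSpace ℂ K]

variable [CompleteSpace K]

variable {u : Fin 6 → Heis → K →L[ℂ] K} {G : Fin 4 → F → K →L[ℂ] K} {δ : ℝ}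

namespace Gap

theorem apx (hs : IsSys δ u G) (e : Fin 6) : IsApx δ (u e) := ⟨hs.one e, hs.mul e, hs.star e⟩

theorem QA_eq (hs : IsSys δ u G) (e : Fin 6) : QA (u e) = Q G (src e) := by
  unfold QA Q
  simp only [hs.src]

theorem QB_eq (hs : IsSys δ u G) (e : Fin 6) : QB (u e) = Q G (tgt e) := by
  unfold QB Q
  simp only [hs.tgt]

/-- the cyclic groups -/
theorem cyc (hs : IsSys δ u G) (i : Fin 4) : ∃ (e : Fin 6) (φ : F → Heis),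
    (∀ s, G i s = u e (φ s)) ∧ (∀ s t, φ s * φ t = φ (s + t)) ∧ ∀ s, (φ s)⁻¹ = φ (-s) := by
  have hA : ∀ e : Fin 6, src e = i → ∃ (e : Fin 6) (φ : F → Heis),
      (∀ s, G i s = u e (φ s)) ∧ (∀ s t, φ s * φ t = φ (s + t)) ∧ ∀ s, (φ s)⁻¹ = φ (-s) := by
    intro e he
    refine ⟨e, fun s => ⟨s, 0, 0⟩, fun s => ?_, fun s t => ?_, fun s => ?_⟩
    · rw [hs.src, he]
    · ext <;> simp
    · ext <;> simp
  have hB : ∀ e : Fin 6, tgt e = i → ∃ (e : Fin 6) (φ : F → Heis),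
      (∀ s, G i s = u e (φ s)) ∧ (∀ s t, φ s * φ t = φ (s + t)) ∧ ∀ s, (φ s)⁻¹ = φ (-s) := by
    intro e he
    refine ⟨e, fun s => ⟨0, s, 0⟩, fun s => ?_, fun s t => ?_, fun s => ?_⟩
    · rw [hs.tgt, he]
    · ext <;> simp
    · ext <;> simp
  fin_cases i
  · exact hA 0 rfl
  · exact hA 1 rfl
  · exact hA 2 rfl
  · exact hB 3 rfl

theorem G_mul (hs : IsSys δ u G) (i : Fin 4) (s t : F) :
    ‖G i s * G i t - G i (s + t)‖ ≤ δ := by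
  obtain ⟨e, φ, h1, h2, -⟩ := cyc hs i
  rw [h1, h1, h1, ← h2]
  exact hs.mul e _ _

theorem G_star (hs : IsSys δ u G) (i : Fin 4) (s : F) : ‖star (G i s) - G i (-s)‖ ≤ δ := by
  obtain ⟨e, φ, h1, -, h3⟩ := cyc hs i
  rw [h1, h1, ← h3]
  exact hs.star e _

end Gap

theorem q_bound (hs : IsSys δ u G) (h0 : 0 ≤ δ) (h1 : δ ≤ 1 / 4) (i : Fin 4) (v : K) :
    |‖Q G i v‖ ^ 2 - RCLike.re ⟪v, Q G i v⟫_ℂ| ≤ 200 * δ * ‖v‖ ^ 2 := by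
  have hA : ∀ e : Fin 6, src e = i →
      |‖Q G i v‖ ^ 2 - RCLike.re ⟪v, Q G i v⟫_ℂ| ≤ 200 * δ * ‖v‖ ^ 2 := by
    intro e he
    have h := apx_projA h0 h1 (Gap.apx hs e) v
    rwa [Gap.QA_eq hs e, he] at h
  have hB : ∀ e : Fin 6, tgt e = i →
      |‖Q G i v‖ ^ 2 - RCLike.re ⟪v, Q G i v⟫_ℂ| ≤ 200 * δ * ‖v‖ ^ 2 := by
    intro e he
    have h := apx_projB h0 h1 (Gap.apx hs e) v
    rwa [Gap.QB_eq hs e, he] at h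
  fin_cases i
  · exact hA 0 rfl
  · exact hA 1 rfl
  · exact hA 2 rfl
  · exact hB 3 rfl

namespace Gap

omit [CompleteSpace K] in
theorem expand (a b c d v : K) (T : ℝ)
    (r0 : -(1 / 6) * (RCLike.re ⟪v, a⟫_ℂ + RCLike.re ⟪v, b⟫_ℂ) - 200 * T * ‖v‖ ^ 2
      ≤ 2 * RCLike.re ⟪a, b⟫_ℂ)
    (r1 : -(1 / 6) * (RCLike.re ⟪v, b⟫_ℂ + RCLike.re ⟪v, c⟫_ℂ) - 200 * T * ‖v‖ ^ 2
      ≤ 2 * RCLike.re ⟪b, c⟫_ℂ)
    (r2 : -(1 / 6) * (RCLike.re ⟪v, c⟫_ℂ + RCLike.re ⟪v, a⟫_ℂ) - 200 * T * ‖v‖ ^ 2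
      ≤ 2 * RCLike.re ⟪c, a⟫_ℂ)
    (r3 : -(1 / 6) * (RCLike.re ⟪v, b⟫_ℂ + RCLike.re ⟪v, d⟫_ℂ) - 200 * T * ‖v‖ ^ 2
      ≤ 2 * RCLike.re ⟪b, d⟫_ℂ)
    (r4 : -(1 / 6) * (RCLike.re ⟪v, a⟫_ℂ + RCLike.re ⟪v, d⟫_ℂ) - 200 * T * ‖v‖ ^ 2
      ≤ 2 * RCLike.re ⟪a, d⟫_ℂ)
    (r5 : -(1 / 6) * (RCLike.re ⟪v, c⟫_ℂ + RCLike.re ⟪v, d⟫_ℂ) - 200 * T * ‖v‖ ^ 2
      ≤ 2 * RCLike.re ⟪c, d⟫_ℂ)
    (q0 : -(200 * T * ‖v‖ ^ 2) ≤ ‖a‖ ^ 2 - RCLike.re ⟪v, a⟫_ℂ)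
    (q1 : -(200 * T * ‖v‖ ^ 2) ≤ ‖b‖ ^ 2 - RCLike.re ⟪v, b⟫_ℂ)
    (q2 : -(200 * T * ‖v‖ ^ 2) ≤ ‖c‖ ^ 2 - RCLike.re ⟪v, c⟫_ℂ)
    (q3 : -(200 * T * ‖v‖ ^ 2) ≤ ‖d‖ ^ 2 - RCLike.re ⟪v, d⟫_ℂ) :
    (1 / 2) * RCLike.re ⟪v, a + b + c + d⟫_ℂ - 2000 * T * ‖v‖ ^ 2
      ≤ ‖a + b + c + d‖ ^ 2 := by
  have e : ‖a + b + c + d‖ ^ 2 = ‖a‖ ^ 2 + ‖b‖ ^ 2 + ‖c‖ ^ 2 + ‖d‖ ^ 2
      + 2 * RCLike.re ⟪a, b⟫_ℂ + 2 * RCLike.re ⟪b, c⟫_ℂ + 2 * RCLike.re ⟪c, a⟫_ℂ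
      + 2 * RCLike.re ⟪b, d⟫_ℂ + 2 * RCLike.re ⟪a, d⟫_ℂ + 2 * RCLike.re ⟪c, d⟫_ℂ := by
    rw [norm_add_sq (𝕜 := ℂ), norm_add_sq (𝕜 := ℂ), norm_add_sq (𝕜 := ℂ), inner_add_left,
      inner_add_left, inner_add_left, map_add, map_add, map_add, inner_re_symm a c]
    ring
  rw [e, inner_add_right, inner_add_right, inner_add_right, map_add, map_add, map_add]
  linarith

end Gap

theorem gap (hs : IsSys δ u G) (h0 : 0 ≤ δ) (h1 : δ ≤ 1 / 4) (v : K) :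
    (1 / 2) * RCLike.re ⟪v, D G v⟫_ℂ - 2000 * δ * ‖v‖ ^ 2 ≤ ‖D G v‖ ^ 2 := by
  have hp : ∀ e : Fin 6, -(1 / 6) * (RCLike.re ⟪v, Q G (src e) v⟫_ℂ
      + RCLike.re ⟪v, Q G (tgt e) v⟫_ℂ) - 200 * δ * ‖v‖ ^ 2
      ≤ 2 * RCLike.re ⟪Q G (src e) v, Q G (tgt e) v⟫_ℂ := by
    intro e
    have h := apx_pair h0 h1 (Gap.apx hs e) v
    rwa [Gap.QA_eq hs e, Gap.QB_eq hs e] at h
  have p0 := hp 0
  have p1 := hp 1
  have p2 := hp 2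
  have p3 := hp 3
  have p4 := hp 4
  have p5 := hp 5
  have q0 := (abs_le.mp (q_bound hs h0 h1 0 v)).1
  have q1 := (abs_le.mp (q_bound hs h0 h1 1 v)).1
  have q2 := (abs_le.mp (q_bound hs h0 h1 2 v)).1
  have q3 := (abs_le.mp (q_bound hs h0 h1 3 v)).1
  have hD : D G v = Q G 0 v + Q G 1 v + Q G 2 v + Q G 3 v := by
    unfold D
    rw [Fin.sum_univ_four]
    rfl
  rw [hD]
  rw [show src 0 = 0 from rfl, show tgt 0 = 1 from rfl] at p0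
  rw [show src 1 = 1 from rfl, show tgt 1 = 2 from rfl] at p1
  rw [show src 2 = 2 from rfl, show tgt 2 = 0 from rfl] at p2
  rw [show src 3 = 1 from rfl, show tgt 3 = 3 from rfl] at p3
  rw [show src 4 = 0 from rfl, show tgt 4 = 3 from rfl] at p4
  rw [show src 5 = 2 from rfl, show tgt 5 = 3 from rfl] at p5
  exact Gap.expand _ _ _ _ v _ p0 p1 p2 p3 p4 p5 q0 q1 q2 q3

theorem norm_G_le (hs : IsSys δ u G) (h0 : 0 ≤ δ) (h1 : δ ≤ 1 / 4) (i : Fin 4) (s : F) :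
    ‖G i s‖ ≤ 2 := by
  obtain ⟨e, φ, h2, -, -⟩ := Gap.cyc hs i
  rw [h2]
  exact apx_norm_le h0 h1 (Gap.apx hs e) _

namespace Gap

theorem norm_smul_sum_le {C : ℝ} (f : F → K →L[ℂ] K) (h : ∀ s, ‖f s‖ ≤ C) :
    ‖(37 : ℂ)⁻¹ • ∑ s : F, f s‖ ≤ C := by
  have h1 : ‖∑ s : F, f s‖ ≤ 37 * C := by
    refine (norm_sum_le _ _).trans ((Finset.sum_le_sum fun s _ => h s).trans (le_of_eq ?_))
    rw [Finset.sum_const, Finset.card_univ, ZMod.card, nsmul_eq_mul]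
    norm_num
  rw [norm_smul, norm_inv]
  have h2 : ‖(37 : ℂ)‖ = 37 := RCLike.norm_ofNat 37
  rw [h2]
  linarith

theorem norm_Q_le (hs : IsSys δ u G) (h0 : 0 ≤ δ) (h1 : δ ≤ 1 / 4) (i : Fin 4) :
    ‖Q G i‖ ≤ 3 := by
  unfold Q
  refine (norm_sub_le _ _).trans ?_
  have h2 : ‖(1 : K →L[ℂ] K)‖ ≤ 1 := ContinuousLinearMap.norm_id_le
  have h3 := norm_smul_sum_le (fun c => G i c) (fun c => norm_G_le hs h0 h1 i c)
  linarith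

end Gap

theorem fix_bound (hs : IsSys δ u G) (h0 : 0 ≤ δ) (h1 : δ ≤ 1 / 4) (i : Fin 4) (s : F) (v : K) :
    ‖G i s v - v‖ ≤ 3 * ‖Q G i v‖ + δ * ‖v‖ := by
  obtain ⟨P, hP⟩ : ∃ P : K →L[ℂ] K, P = (37 : ℂ)⁻¹ • ∑ c : F, G i c := ⟨_, rfl⟩
  have hQ : Q G i = 1 - P := by
    unfold Q
    rw [hP]
  have hGP : ‖G i s * P - P‖ ≤ δ := by
    have e1 : G i s * P - P = (37 : ℂ)⁻¹ • ∑ c : F, (G i s * G i c - G i (s + c)) := by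
      rw [hP, Finset.sum_sub_distrib, smul_sub, ← Finset.mul_sum, ← mul_smul_comm]
      have e2 : ∑ c : F, G i (s + c) = ∑ c : F, G i c :=
        Equiv.sum_comp (Equiv.addLeft s) (fun c => G i c)
      rw [e2]
    rw [e1]
    exact Gap.norm_smul_sum_le _ fun c => Gap.G_mul hs i s c
  have e3 : G i s v - v = (G i s * P - P) v + G i s (Q G i v) - Q G i v := by
    have g1 : (G i s * P - P) v = G i s (P v) - P v := rfl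
    have g2 : (1 - P) v = v - P v := rfl
    rw [hQ, g1, g2, map_sub]
    abel
  rw [e3]
  have f1 : ‖(G i s * P - P) v‖ ≤ δ * ‖v‖ :=
    ((G i s * P - P).le_opNorm v).trans (mul_le_mul_of_nonneg_right hGP (norm_nonneg _))
  have f2 : ‖G i s (Q G i v)‖ ≤ 2 * ‖Q G i v‖ :=
    ((G i s).le_opNorm _).trans
      (mul_le_mul_of_nonneg_right (norm_G_le hs h0 h1 i s) (norm_nonneg _))
  calc ‖(G i s * P - P) v + G i s (Q G i v) - Q G i v‖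
      ≤ ‖(G i s * P - P) v + G i s (Q G i v)‖ + ‖Q G i v‖ := norm_sub_le _ _
    _ ≤ ‖(G i s * P - P) v‖ + ‖G i s (Q G i v)‖ + ‖Q G i v‖ := by
        gcongr
        exact norm_add_le _ _
    _ ≤ 3 * ‖Q G i v‖ + δ * ‖v‖ := by linarith

theorem norm_D_le (hs : IsSys δ u G) (h0 : 0 ≤ δ) (h1 : δ ≤ 1 / 4) : ‖D G‖ ≤ 12 := by
  unfold D
  refine (norm_sum_le _ _).trans
    ((Finset.sum_le_sum fun i _ => Gap.norm_Q_le hs h0 h1 i).trans (le_of_eq ?_))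
  simp
  norm_num

theorem star_D (hs : IsSys δ u G) (h0 : 0 ≤ δ) (h1 : δ ≤ 1 / 4) :
    ‖star (D G) - D G‖ ≤ 4 * δ := by
  have _ := h0
  have _ := h1
  have hQ : ∀ i, ‖star (Q G i) - Q G i‖ ≤ δ := by
    intro i
    have e1 : star (Q G i) - Q G i = -((37 : ℂ)⁻¹ • ∑ c : F, (star (G i c) - G i (-c))) := by
      unfold Q
      have e2 : ∑ c : F, G i (-c) = ∑ c : F, G i c :=
        Equiv.sum_comp (Equiv.neg F) (fun c => G i c)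
      have e3 : star ((37 : ℂ)⁻¹) = (37 : ℂ)⁻¹ := by simp
      rw [Finset.sum_sub_distrib, e2, star_sub, star_one, star_smul, star_sum, e3, smul_sub]
      abel
    rw [e1, norm_neg]
    exact Gap.norm_smul_sum_le _ fun c => Gap.G_star hs i c
  have e4 : star (D G) - D G = ∑ i : Fin 4, (star (Q G i) - Q G i) := by
    unfold D
    rw [star_sum, Finset.sum_sub_distrib]
  rw [e4]
  refine (norm_sum_le _ _).trans
    ((Finset.sum_le_sum fun i _ => hQ i).trans (le_of_eq ?_))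
  simp

end Exact

end Vale.Agent.P083
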