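import Vale.Agent.Lib.P083.Defs2
import Vale.Agent.Lib.P083.Gap
import Vale.Agent.Lib.P083.Bottom

/-!
# P083: correcting an almost fixed vector (PROOF.md, 2e)
-/

namespace Vale.Agent.P083

open scoped BigOperators InnerProductSpace

section Exact

variable {K : Type*} [NormedAddCommGroup K] [InnerProductSpace ℂ K] [CompleteSpace K]
variable {u : Fin 6 → Heis → K →L[ℂ] K} {G : Fin 4 → F → K →L[ℂ] K} {δ : ℝ}

namespace CorrectAux

omit [CompleteSpace K] in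
theorem Q_apply (G : Fin 4 → F → K →L[ℂ] K) (i : Fin 4) (v : K) :
    Q G i v = v - (37 : ℂ)⁻¹ • ∑ c : F, G i c v := by
  simp [Q]

omit [CompleteSpace K] in
theorem D_apply (G : Fin 4 → F → K →L[ℂ] K) (v : K) : D G v = ∑ i : Fin 4, Q G i v := by
  simp [D]

theorem starQ_apply (G : Fin 4 → F → K →L[ℂ] K) (i : Fin 4) (v : K) :
    star (Q G i) v = v - (37 : ℂ)⁻¹ • ∑ c : F, star (G i c) v := by
  have h : star (Q G i) = 1 - (37 : ℂ)⁻¹ • ∑ c : F, star (G i c) := by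
    rw [Q, star_sub, star_one, star_smul, star_sum]
    simp
  rw [h]
  simp

theorem starD_apply (G : Fin 4 → F → K →L[ℂ] K) (v : K) :
    star (D G) v = ∑ i : Fin 4, star (Q G i) v := by
  rw [D, star_sum]
  simp

omit [CompleteSpace K] in
theorem D_mem (S : Submodule ℂ K) (hS : ∀ i s, ∀ v ∈ S, G i s v ∈ S) {v : K} (hv : v ∈ S) :
    D G v ∈ S := by
  rw [D_apply]
  refine S.sum_mem fun i _ => ?_
  rw [Q_apply]
  exact S.sub_mem hv (S.smul_mem _ (S.sum_mem fun c _ => hS i c v hv))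

theorem starD_mem (S : Submodule ℂ K) (hS' : ∀ i s, ∀ v ∈ S, star (G i s) v ∈ S) {v : K}
    (hv : v ∈ S) : star (D G) v ∈ S := by
  rw [starD_apply]
  refine S.sum_mem fun i _ => ?_
  rw [starQ_apply]
  exact S.sub_mem hv (S.smul_mem _ (S.sum_mem fun c _ => hS' i c v hv))

omit [CompleteSpace K] in
theorem norm_Q_le (G : Fin 4 → F → K →L[ℂ] K) (i : Fin 4) (v : K) {C : ℝ}
    (h : ∀ s, ‖G i s v - v‖ ≤ C) : ‖Q G i v‖ ≤ C := by
  have h1 : Q G i v = (37 : ℂ)⁻¹ • ∑ c : F, (v - G i c v) := by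
    rw [Q_apply, Finset.sum_sub_distrib, smul_sub]
    congr 1
    rw [Finset.sum_const, Finset.card_univ, ZMod.card, ← Nat.cast_smul_eq_nsmul ℂ, smul_smul]
    norm_num
  rw [h1, norm_smul]
  have h2 : ‖∑ c : F, (v - G i c v)‖ ≤ 37 * C := by
    calc ‖∑ c : F, (v - G i c v)‖ ≤ ∑ c : F, ‖v - G i c v‖ := norm_sum_le _ _
      _ ≤ ∑ _c : F, C := Finset.sum_le_sum fun c _ => by rw [norm_sub_rev]; exact h c
      _ = 37 * C := by
        rw [Finset.sum_const, Finset.card_univ, ZMod.card, nsmul_eq_mul]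
        norm_num
  have h3 : ‖(37 : ℂ)⁻¹‖ = (37 : ℝ)⁻¹ := by simp
  rw [h3]
  calc (37 : ℝ)⁻¹ * ‖∑ c : F, (v - G i c v)‖ ≤ (37 : ℝ)⁻¹ * (37 * C) := by gcongr
    _ = C := by ring

end CorrectAux

open CorrectAux in
theorem correct (hs : IsSys δ u G) (h0 : 0 < δ) (h1 : δ ≤ 1 / 10 ^ 16) (S : Submodule ℂ K)
    (hS : ∀ i s, ∀ v ∈ S, G i s v ∈ S) (hS' : ∀ i s, ∀ v ∈ S, star (G i s) v ∈ S)
    (hex : ∃ v ∈ S, ‖v‖ = 1 ∧ ∀ i s, ‖G i s v - v‖ ≤ 1 / 100) :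
    ∃ v ∈ S, ‖v‖ = 1 ∧ ∀ i s, ‖G i s v - v‖ ≤ 320 * √δ := by
  have h14 : δ ≤ 1 / 4 := h1.trans (by norm_num)
  have hD := norm_D_le hs h0.le h14
  have hsD := star_D hs h0.le h14
  obtain ⟨A, hA⟩ : ∃ A : K →L[ℂ] K, A = (2 : ℂ)⁻¹ • (D G + star (D G)) := ⟨_, rfl⟩
  have hAs : star A = A := by
    rw [hA, star_smul, star_add, star_star, add_comm]
    simp
  have hAv : ∀ v, A v = (2 : ℂ)⁻¹ • (D G v + star (D G) v) := fun v => by
    rw [hA]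
    rfl
  have hAD : ∀ v, ‖A v - D G v‖ ≤ 2 * δ * ‖v‖ := by
    intro v
    have e : A v - D G v = (2 : ℂ)⁻¹ • ((star (D G) - D G) v) := by
      rw [hAv, sub_apply]
      have : D G v = (2 : ℂ)⁻¹ • (D G v + D G v) := by
        rw [← two_smul ℂ (D G v), smul_smul]
        norm_num
      conv_lhs => rw [this]
      rw [← smul_sub]
      congr 1
      have h2 : (2 : ℂ)⁻¹ • (D G v + D G v) = D G v := this.symm
      rw [h2]
      abel
    rw [e, norm_smul]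
    have h3 : ‖(2 : ℂ)⁻¹‖ = (2 : ℝ)⁻¹ := by simp
    have h4 := (star (D G) - D G).le_opNorm v
    have h5 : ‖star (D G) - D G‖ * ‖v‖ ≤ 4 * δ * ‖v‖ := by gcongr
    rw [h3]
    linarith
  have hDv : ∀ v, ‖D G v‖ ≤ 12 * ‖v‖ := fun v =>
    ((D G).le_opNorm v).trans (by gcongr)
  have hAv12 : ∀ v, ‖A v‖ ≤ 12 * ‖v‖ := by
    intro v
    rw [hAv, norm_smul]
    have h3 : ‖(2 : ℂ)⁻¹‖ = (2 : ℝ)⁻¹ := by simp
    have h5 : ‖star (D G) v‖ ≤ 12 * ‖v‖ :=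
      ((star (D G)).le_opNorm v).trans (by rw [norm_star]; gcongr)
    have h6 := norm_add_le (D G v) (star (D G) v)
    have h7 := hDv v
    rw [h3]
    linarith
  have hre : ∀ v, RCLike.re ⟪v, A v⟫_ℂ = RCLike.re ⟪v, D G v⟫_ℂ := by
    intro v
    rw [hAv, inner_smul_right, inner_add_right]
    have h2 : ⟪v, star (D G) v⟫_ℂ = (starRingEnd ℂ) ⟪v, D G v⟫_ℂ := by
      rw [ContinuousLinearMap.star_eq_adjoint, ContinuousLinearMap.adjoint_inner_right,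
        inner_conj_symm]
    rw [h2]
    have h3 : (2 : ℂ)⁻¹ * (⟪v, D G v⟫_ℂ + (starRingEnd ℂ) ⟪v, D G v⟫_ℂ)
        = ((RCLike.re ⟪v, D G v⟫_ℂ : ℝ) : ℂ) := by
      rw [RCLike.add_conj]
      push_cast
      simp
    rw [h3]
    simp
  have hAS : ∀ v ∈ S, A v ∈ S := fun v hv => by
    rw [hAv]
    exact S.smul_mem _ (S.add_mem (D_mem S hS hv) (starD_mem S hS' hv))
  have hgap : ∀ v ∈ S, (1 / 2) * RCLike.re ⟪v, A v⟫_ℂ - (2048 * δ) * ‖v‖ ^ 2 ≤ ‖A v‖ ^ 2 := by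
    intro v _
    have g := gap hs h0.le h14 v
    rw [hre]
    have a1 := hDv v
    have a2 := hAv12 v
    have a3 := hAD v
    have a4 : ‖D G v‖ - ‖A v‖ ≤ 2 * δ * ‖v‖ := by
      have := norm_sub_norm_le (D G v) (A v)
      rw [norm_sub_rev] at this
      linarith
    have a5 : ‖D G v‖ ^ 2 - ‖A v‖ ^ 2 ≤ 48 * δ * ‖v‖ ^ 2 := by
      have b1 : 0 ≤ ‖D G v‖ + ‖A v‖ := by positivity
      have b2 : ‖D G v‖ + ‖A v‖ ≤ 24 * ‖v‖ := by linarith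
      calc ‖D G v‖ ^ 2 - ‖A v‖ ^ 2 = (‖D G v‖ - ‖A v‖) * (‖D G v‖ + ‖A v‖) := by ring
        _ ≤ (2 * δ * ‖v‖) * (‖D G v‖ + ‖A v‖) := by gcongr
        _ ≤ (2 * δ * ‖v‖) * (24 * ‖v‖) := by gcongr
        _ = 48 * δ * ‖v‖ ^ 2 := by ring
    linarith
  have hex' : ∃ v ∈ S, ‖v‖ = 1 ∧ RCLike.re ⟪v, A v⟫_ℂ < 1 / 4 := by
    obtain ⟨v, hv, hn, hfix⟩ := hex
    refine ⟨v, hv, hn, ?_⟩
    rw [hre]
    have b1 : ‖D G v‖ ≤ 4 * (1 / 100) := by
      rw [D_apply]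
      calc ‖∑ i : Fin 4, Q G i v‖ ≤ ∑ i : Fin 4, ‖Q G i v‖ := norm_sum_le _ _
        _ ≤ ∑ _i : Fin 4, (1 / 100 : ℝ) := Finset.sum_le_sum fun i _ => norm_Q_le G i v (hfix i)
        _ = 4 * (1 / 100) := by simp
    have b2 : RCLike.re ⟪v, D G v⟫_ℂ ≤ ‖v‖ * ‖D G v‖ := by
      exact (RCLike.re_le_norm _).trans (norm_inner_le_norm _ _)
    rw [hn, one_mul] at b2
    linarith
  obtain ⟨v, hv, hn, hAv'⟩ := bottom A hAs S hAS (η := 2048 * δ) (by positivity) hgap hex' h0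
  refine ⟨v, hv, hn, fun i s => ?_⟩
  rw [hre] at hAv'
  have hq : ∀ j, |‖Q G j v‖ ^ 2 - RCLike.re ⟪v, Q G j v⟫_ℂ| ≤ 200 * δ := fun j => by
    have := q_bound hs h0.le h14 j v
    rwa [hn, one_pow, mul_one] at this
  have hsum : RCLike.re ⟪v, D G v⟫_ℂ = ∑ j : Fin 4, RCLike.re ⟪v, Q G j v⟫_ℂ := by
    rw [D_apply, inner_sum, map_sum]
  have hlow : ∀ j, -(200 * δ) ≤ RCLike.re ⟪v, Q G j v⟫_ℂ := fun j => by
    have c1 := (abs_le.1 (hq j)).2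
    have c2 := sq_nonneg ‖Q G j v‖
    linarith
  have hone : RCLike.re ⟪v, Q G i v⟫_ℂ ≤ 8793 * δ := by
    have c1 : ∑ j ∈ Finset.univ.erase i, -(200 * δ) ≤
        ∑ j ∈ Finset.univ.erase i, RCLike.re ⟪v, Q G j v⟫_ℂ :=
      Finset.sum_le_sum fun j _ => hlow j
    rw [Finset.sum_const, Finset.card_erase_of_mem (Finset.mem_univ i), Finset.card_univ,
      Fintype.card_fin, nsmul_eq_mul] at c1
    have c2 := Finset.add_sum_erase Finset.univ (fun j => RCLike.re ⟪v, Q G j v⟫_ℂ)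
      (Finset.mem_univ i)
    rw [← hsum] at c2
    push_cast at c1
    linarith
  have hQ2 : ‖Q G i v‖ ^ 2 ≤ (95 * √δ) ^ 2 := by
    rw [mul_pow, Real.sq_sqrt h0.le]
    have c1 := (abs_le.1 (hq i)).2
    linarith
  have hQ1 : ‖Q G i v‖ ≤ 95 * √δ := by
    exact le_of_sq_le_sq hQ2 (by positivity)
  have hfb := fix_bound hs h0.le h14 i s v
  rw [hn, mul_one] at hfb
  have hδs : δ ≤ √δ := by
    have c1 : √δ ≤ 1 := Real.sqrt_le_one.2 (by linarith)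
    calc δ = √δ * √δ := (Real.mul_self_sqrt h0.le).symm
      _ ≤ √δ * 1 := by gcongr
      _ = √δ := mul_one _
  linarith [Real.sqrt_nonneg δ]

end Exact

end Vale.Agent.P083
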