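import Vale.Agent.Lib.P083.Ops
import Vale.Agent.Lib.P083.Words

/-!
# P083: a concrete Cuntz pair, and the C*-algebra which it generates
-/

namespace Vale.Agent.P083

open scoped BigOperators InnerProductSpace Topology BoundedContinuousFunction ENNReal ComplexOrder
open Filter

namespace CuntzConcrete

/-- the Hilbert space -/
abbrev K : Type := lp (fun _ : ℕ => ℂ) 2

/-- `n ↦ 2 n` and `n ↦ 2 n + 1` -/
def emb (i : Fin 2) : ℕ ↪ ℕ where
  toFun n := 2 * n + (i : ℕ)
  inj' := by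
    intro a b h
    simp only at h
    omega

/-- the two isometries -/
noncomputable def V (i : Fin 2) : K →L[ℂ] K := OpsAux.T ℕ (emb i)

theorem V_iso (i : Fin 2) : star (V i) * V i = 1 := by
  rw [ContinuousLinearMap.star_eq_adjoint]
  exact ((V i).norm_map_iff_adjoint_comp_self).1 (OpsAux.norm_T ℕ (emb i))

theorem V_star (i : Fin 2) (n : ℕ) (a : ℂ) :
    star (V i) (OpsAux.sg ℕ (emb i n) a) = OpsAux.sg ℕ n a := by
  have h1 : star (V i) (V i (OpsAux.sg ℕ n a)) = OpsAux.sg ℕ n a :=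
    congrArg (fun L : K →L[ℂ] K => L (OpsAux.sg ℕ n a)) (V_iso i)
  have h2 : V i (OpsAux.sg ℕ n a) = OpsAux.sg ℕ (emb i n) a := OpsAux.T_sg ℕ (emb i) n a
  rw [h2] at h1
  exact h1

theorem V_star_zero (i : Fin 2) (j : ℕ) (hj : j ∉ Set.range (emb i)) (a : ℂ) :
    star (V i) (OpsAux.sg ℕ j a) = 0 := by
  refine ext_inner_left ℂ fun x => ?_
  rw [ContinuousLinearMap.star_eq_adjoint, ContinuousLinearMap.adjoint_inner_right,
    inner_zero_right, ← inner_conj_symm, OpsAux.inner_sg_left]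
  have h1 : (V i x) j = 0 := OpsAux.coord ℕ (emb i) x j hj
  rw [h1, inner_zero_right, map_zero]

theorem V_sum : V 0 * star (V 0) + V 1 * star (V 1) = 1 := by
  refine OpsAux.ext_sg fun j a => ?_
  have hE : ∀ n : ℕ, emb 0 n = 2 * n := fun n => rfl
  have hO : ∀ n : ℕ, emb 1 n = 2 * n + 1 := fun n => rfl
  have hV : ∀ (i : Fin 2) (n : ℕ), V i (OpsAux.sg ℕ n a) = OpsAux.sg ℕ (emb i n) a :=
    fun i n => OpsAux.T_sg ℕ (emb i) n a
  have h1 : (V 0 * star (V 0) + V 1 * star (V 1)) (OpsAux.sg ℕ j a) =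
      V 0 (star (V 0) (OpsAux.sg ℕ j a)) + V 1 (star (V 1) (OpsAux.sg ℕ j a)) := rfl
  rw [h1]
  have h2 : (1 : K →L[ℂ] K) (OpsAux.sg ℕ j a) = OpsAux.sg ℕ j a := rfl
  rw [h2]
  rcases Nat.even_or_odd' j with ⟨n, hn | hn⟩
  · have h3 : j = emb 0 n := by rw [hE, hn]
    have h4 : j ∉ Set.range (emb 1) := by
      rintro ⟨m, hm⟩
      rw [hO] at hm
      omega
    rw [V_star_zero 1 j h4, map_zero, add_zero, h3, V_star, hV]
  · have h3 : j = emb 1 n := by rw [hO, hn]
    have h4 : j ∉ Set.range (emb 0) := by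
      rintro ⟨m, hm⟩
      rw [hE] at hm
      omega
    rw [V_star_zero 0 j h4, map_zero, zero_add, h3, V_star, hV]

theorem V_pair : IsCuntzPair V := ⟨V_iso, V_sum⟩

/-- the C*-algebra generated by the two isometries -/
noncomputable def A : StarSubalgebra ℂ (K →L[ℂ] K) :=
  (StarAlgebra.adjoin ℂ (Set.range V)).topologicalClosure

theorem A_closed : IsClosed (A : Set (K →L[ℂ] K)) :=
  StarSubalgebra.isClosed_topologicalClosure _

theorem V_mem (i : Fin 2) : V i ∈ A :=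
  StarSubalgebra.le_topologicalClosure _ (StarAlgebra.subset_adjoin ℂ _ ⟨i, rfl⟩)

@[reducible] noncomputable def instA : CStarAlgebra A :=
  StarSubalgebra.cstarAlgebra A (h_closed := A_closed)

attribute [local instance] instA

theorem K_one_ne : (1 : K →L[ℂ] K) ≠ 0 := by
  intro h
  have h1 := congrArg (fun L : K →L[ℂ] K => L (OpsAux.sg ℕ 0 1)) h
  have h2 : ‖OpsAux.sg ℕ 0 1‖ = ‖(1 : ℂ)‖ := (OpsAux.sg ℕ 0).norm_map 1
  have h3 : OpsAux.sg ℕ 0 1 = 0 := h1
  rw [h3, norm_zero, norm_one] at h2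
  exact zero_ne_one h2

theorem A_nontrivial : Nontrivial A := by
  refine ⟨⟨1, 0, ?_⟩⟩
  intro h
  exact K_one_ne (congrArg Subtype.val h)

/-- the two isometries, in the C*-algebra -/
noncomputable def s (i : Fin 2) : A := ⟨V i, V_mem i⟩

theorem s_pair : IsCuntzPair s := by
  constructor
  · intro i
    exact Subtype.ext (V_iso i)
  · exact Subtype.ext V_sum

theorem s_gen : (StarAlgebra.adjoin ℂ (Set.range s)).topologicalClosure = ⊤ := by
  rw [eq_top_iff]
  rintro x -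
  change x ∈ closure ((StarAlgebra.adjoin ℂ (Set.range s) : StarSubalgebra ℂ A) : Set A)
  rw [closure_subtype]
  have h1 : (x : K →L[ℂ] K) ∈ closure ((StarAlgebra.adjoin ℂ (Set.range V) :
      StarSubalgebra ℂ (K →L[ℂ] K)) : Set (K →L[ℂ] K)) := x.2
  refine closure_mono ?_ h1
  have h2 : StarAlgebra.adjoin ℂ (Set.range V) ≤
      (StarAlgebra.adjoin ℂ (Set.range s)).map A.subtype := by
    refine StarAlgebra.adjoin_le ?_
    rintro _ ⟨i, rfl⟩
    exact ⟨s i, StarAlgebra.subset_adjoin ℂ _ ⟨i, rfl⟩, rfl⟩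
  intro y hy
  obtain ⟨z, hz, hzy⟩ := h2 hy
  exact ⟨z, hz, hzy⟩

end CuntzConcrete

theorem exists_cuntz : ∃ (O : Type) (_ : CStarAlgebra O) (_ : Nontrivial O) (s : Fin 2 → O),
    IsCuntzPair s ∧ (StarAlgebra.adjoin ℂ (Set.range s)).topologicalClosure = ⊤ :=
  ⟨CuntzConcrete.A, CuntzConcrete.instA, CuntzConcrete.A_nontrivial, CuntzConcrete.s,
    CuntzConcrete.s_pair, CuntzConcrete.s_gen⟩

end Vale.Agent.P083
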