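import Mathlib
import Vale.Agent.Lib.P083.Stmt
import Vale.Agent.Lib.P083.Defs2
import Vale.Agent.Lib.P083.Words
import Vale.Agent.Lib.P083.Compress

/-!
# P083: the norm of a linear combination of the monomials `S_α S_β*` does not depend on the
Cuntz pair (the inequality for two represented pairs)
-/

namespace Vale.Agent.P083

open scoped BigOperators InnerProductSpace Topology BoundedContinuousFunction ENNReal ComplexOrder
open Filter

namespace CuntzNorm

open Compress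

section One

variable {H : Type*} [NormedAddCommGroup H] [InnerProductSpace ℂ H] [CompleteSpace H]
  {S : Fin 2 → H →L[ℂ] H} {m : ℕ} {w : Fin m → List (Fin 2)} {l L M : ℕ} {η : H}

theorem tf_add (a b : H →L[ℂ] H) (μ ν : Fin m) :
    tf S w η (a + b) μ ν = tf S w η a μ ν + tf S w η b μ ν := by
  simp only [tf]
  rw [add_apply, inner_add_right]

theorem tf_smul (z : ℂ) (a : H →L[ℂ] H) (μ ν : Fin m) :
    tf S w η (z • a) μ ν = z * tf S w η a μ ν := by
  simp only [tf]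
  rw [smul_apply, inner_smul_right]

theorem tf_zero (μ ν : Fin m) : tf S w η (0 : H →L[ℂ] H) μ ν = 0 := by
  simp only [tf]
  rw [zero_apply, inner_zero_right]

open Classical in
/-- the entries of the compressed matrix of a monomial -/
theorem tf_mono_eq (hS : IsCuntzPair S) (hw : IsEnum w l L) (hM : l + L ≤ M) {η0 : H}
    (hη : ‖η0‖ = 1) {α β : List (Fin 2)} (hα : α.length ≤ l) (hβ : β.length ≤ l) (μ ν : Fin m) :
    tf S w (wd S (mk M) η0) (mono S α β) μ ν =
      if (∃ κ, w μ = α ++ κ ∧ w ν = β ++ κ) then 1 else 0 := by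
  have hμ := (hw.mem (w μ)).1 ⟨μ, rfl⟩
  have hν := (hw.mem (w ν)).1 ⟨ν, rfl⟩
  rw [tf_mono]
  by_cases hp : α <+: w μ
  · obtain ⟨κ, hκ⟩ := hp
    have hl1 : (w μ).length = α.length + κ.length := by rw [← hκ, List.length_append]
    by_cases hq : β <+: w ν
    · obtain ⟨κ', hκ'⟩ := hq
      have hl2 : (w ν).length = β.length + κ'.length := by rw [← hκ', List.length_append]
      rw [← hκ, ← hκ', star_wd_prefix hS, star_wd_prefix hS,
        inner_mk hS hη (by omega) (by omega)]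
      by_cases h : κ = κ'
      · subst h
        rw [if_pos rfl, if_pos ⟨κ, rfl, rfl⟩]
      · rw [if_neg h, if_neg]
        rintro ⟨κ'', h1, h2⟩
        exact h ((List.append_cancel_left h1).trans (List.append_cancel_left h2).symm)
    · rw [star_wd_zero hS hq (by omega), inner_zero_right, if_neg]
      rintro ⟨κ'', -, h2⟩
      exact hq ⟨κ'', h2.symm⟩
  · rw [star_wd_zero hS hp (by omega), inner_zero_left, if_neg]
    rintro ⟨κ'', h1, -⟩
    exact hp ⟨κ'', h1.symm⟩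

end One

section Two

variable {H K : Type*} [NormedAddCommGroup H] [InnerProductSpace ℂ H] [CompleteSpace H]
  [NormedAddCommGroup K] [InnerProductSpace ℂ K] [CompleteSpace K]

/-- the compressed matrices of the two components agree -/
def Same (S : Fin 2 → H →L[ℂ] H) (T : Fin 2 → K →L[ℂ] K) (z : (H →L[ℂ] H) × (K →L[ℂ] K)) :
    Prop :=
  ∃ l0 : ℕ, ∀ l, l0 ≤ l → ∀ L M, l + L ≤ M → ∀ (m : ℕ) (w : Fin m → List (Fin 2)),
    IsEnum w l L → ∀ η0 : H, ‖η0‖ = 1 → ∀ ζ0 : K, ‖ζ0‖ = 1 → ∀ μ ν,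
      tf S w (wd S (mk M) η0) z.1 μ ν = tf T w (wd T (mk M) ζ0) z.2 μ ν

theorem same_of_span {S : Fin 2 → H →L[ℂ] H} {T : Fin 2 → K →L[ℂ] K} (hS : IsCuntzPair S)
    (hT : IsCuntzPair T) (z : (H →L[ℂ] H) × (K →L[ℂ] K))
    (hz : z ∈ Submodule.span ℂ (Set.range fun q : List (Fin 2) × List (Fin 2) =>
      (wd S q.1 * star (wd S q.2), wd T q.1 * star (wd T q.2)))) : Same S T z := by
  induction hz using Submodule.span_induction with
  | mem x hx =>
    obtain ⟨⟨α, β⟩, rfl⟩ := hx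
    refine ⟨max α.length β.length, ?_⟩
    intro l hl L M hM m w hw η0 hη ζ0 hζ μ ν
    have hα := le_trans (le_max_left _ _) hl
    have hβ := le_trans (le_max_right _ _) hl
    have h1 := tf_mono_eq hS hw hM hη hα hβ μ ν
    have h2 := tf_mono_eq hT hw hM hζ hα hβ μ ν
    exact h1.trans h2.symm
  | zero =>
    refine ⟨0, ?_⟩
    intro l hl L M hM m w hw η0 hη ζ0 hζ μ ν
    exact (tf_zero μ ν).trans (tf_zero μ ν).symm
  | add x y _ _ hx hy =>
    obtain ⟨l0, hx⟩ := hx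
    obtain ⟨l0', hy⟩ := hy
    refine ⟨max l0 l0', ?_⟩
    intro l hl L M hM m w hw η0 hη ζ0 hζ μ ν
    have h1 := hx l (le_trans (le_max_left _ _) hl) L M hM m w hw η0 hη ζ0 hζ μ ν
    have h2 := hy l (le_trans (le_max_right _ _) hl) L M hM m w hw η0 hη ζ0 hζ μ ν
    rw [Prod.fst_add, Prod.snd_add, tf_add, tf_add, h1, h2]
  | smul c x _ hx =>
    obtain ⟨l0, hx⟩ := hx
    refine ⟨l0, ?_⟩
    intro l hl L M hM m w hw η0 hη ζ0 hζ μ ν
    have h1 := hx l hl L M hM m w hw η0 hη ζ0 hζ μ ν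
    rw [Prod.smul_fst, Prod.smul_snd, tf_smul, tf_smul, h1]

theorem exists_unit (H : Type*) [NormedAddCommGroup H] [InnerProductSpace ℂ H] [Nontrivial H] :
    ∃ x : H, ‖x‖ = 1 := by
  obtain ⟨x, hx⟩ := exists_ne (0 : H)
  exact ⟨(((‖x‖⁻¹ : ℝ)) : ℂ) • x, by
    rw [norm_smul, Complex.norm_real, norm_inv, norm_norm]
    exact inv_mul_cancel₀ (norm_ne_zero_iff.2 hx)⟩

end Two

end CuntzNorm

open CuntzNorm Compress in
theorem cuntz_norm_ops {H K : Type} [NormedAddCommGroup H] [InnerProductSpace ℂ H]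
    [CompleteSpace H] [Nontrivial H] [NormedAddCommGroup K] [InnerProductSpace ℂ K]
    [CompleteSpace K] [Nontrivial K] {S : Fin 2 → H →L[ℂ] H} {T : Fin 2 → K →L[ℂ] K}
    (hS : IsCuntzPair S) (hT : IsCuntzPair T) (z : (H →L[ℂ] H) × (K →L[ℂ] K))
    (hz : z ∈ Submodule.span ℂ (Set.range fun q : List (Fin 2) × List (Fin 2) =>
      (wd S q.1 * star (wd S q.2), wd T q.1 * star (wd T q.2)))) : ‖z.2‖ ≤ ‖z.1‖ := by
  have hgood : Good T z.2 := by
    refine good_of_span hT ?_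
    have h1 : z.2 ∈ (Submodule.span ℂ (Set.range fun q : List (Fin 2) × List (Fin 2) =>
      (wd S q.1 * star (wd S q.2), wd T q.1 * star (wd T q.2)))).map
        (LinearMap.snd ℂ (H →L[ℂ] H) (K →L[ℂ] K)) := ⟨z, hz, rfl⟩
    rw [Submodule.map_span, ← Set.range_comp] at h1
    exact h1
  obtain ⟨C, l0, hC, hgood⟩ := hgood
  obtain ⟨l1, hsame⟩ := same_of_span hS hT z hz
  obtain ⟨η0, hη⟩ := exists_unit H
  obtain ⟨ζ0, hζ⟩ := exists_unit K
  refine le_of_forall_pos_le_add fun ε hε => ?_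
  obtain ⟨L, hL, hCL⟩ := exists_L (max l0 l1) C ε hC hε
  obtain ⟨m, w, hw⟩ := exists_enum (max l0 l1) L
  have ho := orthonormal_w hS hw (le_refl _) hη
  refine ContinuousLinearMap.opNorm_le_bound _ (by positivity) fun h => ?_
  have h1 := hgood (max l0 l1) (le_max_left _ _) L hL _ (le_refl _) m w hw ζ0 hζ h
  have h2 := tensor_bound (tf S w (wd S (mk (max l0 l1 + L)) η0) z.1) (norm_nonneg z.1)
    (norm_tf ho z.1) (Vf T w L h)
  rw [norm_Vf hT hw hL] at h2
  have h3 : E T w L (wd T (mk (max l0 l1 + L)) ζ0) z.2 h =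
      WithLp.toLp 2 (fun μ => ∑ ν, tf S w (wd S (mk (max l0 l1 + L)) η0) z.1 μ ν • Vf T w L h ν) -
      WithLp.toLp 2 (Vf T w L (z.2 h)) := by
    simp only [E]
    rw [← WithLp.toLp_sub]
    congr 1
    funext μ
    simp only [err, Pi.sub_apply]
    congr 1
    refine Finset.sum_congr rfl fun ν _ => ?_
    rw [hsame (max l0 l1) (le_max_right _ _) L _ (le_refl _) m w hw η0 hη ζ0 hζ μ ν]
  have h4 : (WithLp.toLp 2 (Vf T w L (z.2 h)) : PiLp 2 (fun _ : Fin m => K)) =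
      WithLp.toLp 2 (fun μ => ∑ ν, tf S w (wd S (mk (max l0 l1 + L)) η0) z.1 μ ν • Vf T w L h ν) -
      E T w L (wd T (mk (max l0 l1 + L)) ζ0) z.2 h := by
    rw [h3, sub_sub_cancel]
  have h5 := norm_Vf hT hw hL (z.2 h)
  rw [h4] at h5
  rw [← h5]
  refine (norm_sub_le _ _).trans ?_
  have h6 : C * √(2 * ((max l0 l1 : ℕ) : ℝ) / L) * ‖h‖ ≤ ε * ‖h‖ :=
    mul_le_mul_of_nonneg_right hCL (norm_nonneg h)
  calc _ ≤ ‖z.1‖ * ‖h‖ + ε * ‖h‖ := add_le_add h2 (h1.trans h6)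
    _ = (‖z.1‖ + ε) * ‖h‖ := by ring

end Vale.Agent.P083
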