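import Vale.Agent.Lib.P083.Defs2

/-!
# P083: tensoring with permutations (PROOF.md, 2d)
-/

namespace Vale.Agent.P083

open scoped BigOperators InnerProductSpace

section Tensor

variable {H : Type*} [NormedAddCommGroup H] [InnerProductSpace ℂ H]
variable {Y : Type*} [Fintype Y]

theorem norm_Theta_le (b : H →L[ℂ] H) (σ : Equiv.Perm Y) : ‖Theta b σ‖ ≤ ‖b‖ :=
  LinearMap.mkContinuous_norm_le _ (norm_nonneg _) _

theorem Theta_mul (b c : H →L[ℂ] H) (σ τ : Equiv.Perm Y) :
    Theta b σ * Theta c τ = Theta (b * c) (σ * τ) := by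
  ext ζ y
  rfl

theorem Theta_sub (b c : H →L[ℂ] H) (σ : Equiv.Perm Y) :
    Theta b σ - Theta c σ = Theta (b - c) σ := by
  ext ζ y
  rfl

theorem Theta_one : Theta (1 : H →L[ℂ] H) (1 : Equiv.Perm Y) = 1 := by
  ext ζ y
  rfl

theorem Theta_star [CompleteSpace H] (b : H →L[ℂ] H) (σ : Equiv.Perm Y) :
    star (Theta b σ) = Theta (star b) σ⁻¹ := by
  rw [ContinuousLinearMap.star_eq_adjoint, ContinuousLinearMap.star_eq_adjoint]
  symm
  rw [ContinuousLinearMap.eq_adjoint_iff]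
  intro ζ ξ
  rw [PiLp.inner_apply, PiLp.inner_apply]
  rw [← Equiv.sum_comp σ (fun y => inner ℂ (ζ y) ((Theta b σ ξ) y))]
  refine Finset.sum_congr rfl fun y _ => ?_
  rw [Theta_apply, Theta_apply, Equiv.symm_apply_apply,
    ContinuousLinearMap.adjoint_inner_left]
  rfl

theorem tensor_sys [CompleteSpace H] {δ : ℝ} {u : Fin 6 → Heis → H →L[ℂ] H}
    {G : Fin 4 → F → H →L[ℂ] H} (hs : IsSys δ u G) (Z : PermSys Y) :
    IsSys δ (fun e g => Theta (u e g) (Z.π e g)) (fun i s => Theta (G i s) (Z.P i s)) := by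
  refine ⟨?_, ?_, ?_, ?_, ?_⟩
  · intro e s
    rw [hs.src, Z.src]
  · intro e s
    rw [hs.tgt, Z.tgt]
  · intro e
    rw [map_one, ← Theta_one, Theta_sub]
    exact (norm_Theta_le _ _).trans (hs.one e)
  · intro e g h
    rw [Theta_mul, map_mul, Theta_sub]
    exact (norm_Theta_le _ _).trans (hs.mul e g h)
  · intro e g
    rw [Theta_star, map_inv, Theta_sub]
    exact (norm_Theta_le _ _).trans (hs.star e g)

end Tensor

end Vale.Agent.P083
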