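import Mathlib
import Vale.Agent.Lib.P083.Defs2

/-!
# P083: the permutations of words
-/

namespace Vale.Agent.P083

open scoped BigOperators

namespace WPerm

theorem tri_ext {τ σ : Tri} (hA : ∀ i j, τ.A i j = σ.A i j) (hB : ∀ i j, τ.B i j = σ.B i j)
    (ht : ∀ i, τ.t i = σ.t i) : τ = σ :=
  Tri.ext (Matrix.ext hA) (Matrix.ext hB) (funext ht)

theorem dat_one (e : Fin 6) : dat e 1 = Tri.one := by
  fin_cases e <;> refine tri_ext (fun i j => ?_) (fun i j => ?_) (fun i => ?_) <;>
    first
    | (fin_cases i <;> fin_cases j <;> simp [dat, Tri.one])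
    | (fin_cases i <;> simp [dat, Tri.one])

theorem mul3 (A B : Mt) (i j : Fin 3) :
    (A * B) i j = A i 0 * B 0 j + A i 1 * B 1 j + A i 2 * B 2 j := by
  rw [Matrix.mul_apply, Fin.sum_univ_three]

theorem mulVec3 (A : Mt) (v : X) (i : Fin 3) :
    A.mulVec v i = A i 0 * v 0 + A i 1 * v 1 + A i 2 * v 2 := by
  simp only [Matrix.mulVec, dotProduct, Fin.sum_univ_three]

theorem dat_BB (e : Fin 6) (g h : Heis) : (dat e g).B * (dat e h).B = 0 := by
  refine Matrix.ext fun i j => ?_
  rw [mul3]
  fin_cases e <;> fin_cases i <;> fin_cases j <;> simp [dat]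

theorem dat_Bt (e : Fin 6) (g h : Heis) : (dat e g).B.mulVec (dat e h).t = 0 := by
  refine funext fun i => ?_
  rw [mulVec3]
  fin_cases e <;> fin_cases i <;> simp [dat]

theorem dat_mul (e : Fin 6) (g h : Heis) : dat e (g * h) = Tri.mul (dat e g) (dat e h) := by
  refine tri_ext (fun i j => ?_) (fun i j => ?_) (fun i => ?_)
  · simp only [Tri.mul, mul3]
    fin_cases e <;> fin_cases i <;> fin_cases j <;> simp [dat] <;> try ring
  · simp only [Tri.mul, Matrix.add_apply, mul3]
    fin_cases e <;> fin_cases i <;> fin_cases j <;> simp [dat] <;> try ring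
  · simp only [Tri.mul, Pi.add_apply, mulVec3]
    fin_cases e <;> fin_cases i <;> simp [dat] <;> try ring

theorem dat_src (e : Fin 6) (s : F) : dat e ⟨s, 0, 0⟩ = gen (src e) s := by
  fin_cases e <;> refine tri_ext (fun i j => ?_) (fun i j => ?_) (fun i => ?_) <;>
    first
    | (fin_cases i <;> fin_cases j <;> simp [dat, src, gen])
    | (fin_cases i <;> simp [dat, src, gen])

theorem dat_tgt (e : Fin 6) (s : F) : dat e ⟨0, s, 0⟩ = gen (tgt e) s := by
  fin_cases e <;> refine tri_ext (fun i j => ?_) (fun i j => ?_) (fun i => ?_) <;>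
    first
    | (fin_cases i <;> fin_cases j <;> simp [dat, tgt, gen])
    | (fin_cases i <;> simp [dat, tgt, gen])

theorem onW_one {k : ℕ} (w : W k) : Tri.one.onW w = w := by
  funext i
  simp [Tri.onW, Tri.one]

theorem onL_one (c : X) (hc : c = 0) (w : List (Option X)) : Tri.onL 1 0 c w = w := by
  induction w generalizing c with
  | nil => rfl
  | cons o w ih =>
    cases o with
    | none => rfl
    | some v =>
      subst hc
      simp only [Tri.onL, Matrix.one_mulVec, Matrix.zero_mulVec, add_zero]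
      rw [ih 0 rfl]

theorem onL_mul (A B A' B' : Mt) (hBB : B * B' = 0) (c c' : X) (hc : B.mulVec c' = 0)
    (w : List (Option X)) :
    Tri.onL (A * A') (A * B' + B * A') (A.mulVec c' + c) w =
      Tri.onL A B c (Tri.onL A' B' c' w) := by
  induction w generalizing c c' with
  | nil => rfl
  | cons o w ih =>
    cases o with
    | none => rfl
    | some v =>
      simp only [Tri.onL]
      congr 1
      · rw [Matrix.mulVec_add, Matrix.mulVec_mulVec, add_assoc]
      · rw [← ih (B.mulVec (A'.mulVec v + c')) (B'.mulVec v)]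
        · congr 1
          rw [Matrix.add_mulVec, Matrix.mulVec_mulVec, Matrix.mulVec_add, Matrix.mulVec_mulVec, hc,
            add_zero]
        · rw [Matrix.mulVec_mulVec, hBB, Matrix.zero_mulVec]

theorem onW_mul {k : ℕ} (τ σ : Tri) (hBB : τ.B * σ.B = 0) (ht : τ.B.mulVec σ.t = 0) (w : W k) :
    (Tri.mul τ σ).onW w = τ.onW (σ.onW w) := by
  funext i
  simp only [Tri.onW, Tri.mul]
  by_cases hi : (i : ℕ) = 0
  · simp only [hi, dite_true]
    rw [Matrix.mulVec_add, Matrix.mulVec_mulVec, add_assoc]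
  · simp only [hi, dite_false]
    by_cases hi1 : (i : ℕ) - 1 = 0
    · simp only [hi1, dite_true]
      simp only [Matrix.mulVec_add, Matrix.mulVec_mulVec, Matrix.add_mulVec, ht]
      abel
    · simp only [hi1, dite_false]
      simp only [Matrix.mulVec_add, Matrix.mulVec_mulVec, Matrix.add_mulVec, hBB,
        Matrix.zero_mulVec]
      abel

/-- a homomorphism to permutations from an action -/
def homOf {Y : Type*} (f : Heis → Y → Y) (h1 : ∀ y, f 1 y = y)
    (hm : ∀ g h y, f (g * h) y = f g (f h y)) : Heis →* Equiv.Perm Y where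
  toFun g :=
    { toFun := f g
      invFun := f g⁻¹
      left_inv := fun y => by rw [← hm, inv_mul_cancel, h1]
      right_inv := fun y => by rw [← hm, mul_inv_cancel, h1] }
  map_one' := Equiv.ext fun y => h1 y
  map_mul' g h := Equiv.ext fun y => hm g h y

/-- an index `e` and a way to see the generator `i` in the pair `e` -/
def idx : Fin 4 → Fin 6 := ![0, 1, 2, 3]

/-- the element of `Heis` representing the generator `i` -/
def el (i : Fin 4) (s : F) : Heis :=
  match i with
  | 0 => ⟨s, 0, 0⟩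
  | 1 => ⟨s, 0, 0⟩
  | 2 => ⟨s, 0, 0⟩
  | 3 => ⟨0, s, 0⟩

theorem dat_idx (i : Fin 4) (s : F) : dat (idx i) (el i s) = gen i s := by
  fin_cases i
  · exact dat_src 0 s
  · exact dat_src 1 s
  · exact dat_src 2 s
  · exact dat_tgt 3 s

end WPerm

open WPerm

theorem exists_permSysW (k : ℕ) : ∃ Z : PermSys (W k), IsStd Z := by
  let π : Fin 6 → Heis →* Equiv.Perm (W k) := fun e =>
    homOf (fun g w => (dat e g).onW w) (fun w => by rw [dat_one, onW_one])
      (fun g h w => by rw [dat_mul, onW_mul _ _ (dat_BB e g h) (dat_Bt e g h)])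
  have hπ : ∀ e g w, π e g w = (dat e g).onW w := fun e g w => rfl
  refine ⟨⟨π, fun i s => π (idx i) (el i s), ?_, ?_⟩, hπ, ?_⟩
  · intro e s
    refine Equiv.ext fun w => ?_
    rw [hπ, hπ, dat_idx, dat_src]
  · intro e s
    refine Equiv.ext fun w => ?_
    rw [hπ, hπ, dat_idx, dat_tgt]
  · intro i s w
    change π (idx i) (el i s) w = _
    rw [hπ, dat_idx]

theorem exists_permSysL : ∃ Z : PermSys (List (Option X)),
    (∀ e g w, Z.π e g w = Tri.onL (dat e g).A (dat e g).B (dat e g).t w) ∧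
    (∀ i s w, Z.P i s w = Tri.onL (gen i s).A (gen i s).B (gen i s).t w) := by
  let π : Fin 6 → Heis →* Equiv.Perm (List (Option X)) := fun e =>
    homOf (fun g w => Tri.onL (dat e g).A (dat e g).B (dat e g).t w)
      (fun w => by rw [dat_one]; exact onL_one _ rfl w)
      (fun g h w => by
        rw [dat_mul]
        exact onL_mul _ _ _ _ (dat_BB e g h) _ _ (dat_Bt e g h) w)
  have hπ : ∀ e g w, π e g w = Tri.onL (dat e g).A (dat e g).B (dat e g).t w := fun e g w => rfl
  refine ⟨⟨π, fun i s => π (idx i) (el i s), ?_, ?_⟩, hπ, ?_⟩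
  · intro e s
    refine Equiv.ext fun w => ?_
    rw [hπ, hπ, dat_idx, dat_src]
  · intro e s
    refine Equiv.ext fun w => ?_
    rw [hπ, hπ, dat_idx, dat_tgt]
  · intro i s w
    change π (idx i) (el i s) w = _
    rw [hπ, dat_idx]

/-- last letter shift commutes with the generators -/
theorem std_last {k : ℕ} {Z : PermSys (W (k + 1))} (hZ : IsStd Z) (i : Fin 4) (s : F)
    (w : W (k + 1)) : Z.P i s (w + lastE1 k) = Z.P i s w + lastE1 k := by
  rw [hZ.P, hZ.P]
  have hA : (gen i s).A.mulVec e1 = e1 := by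
    funext j
    fin_cases i <;> fin_cases j <;>
      simp [gen, e1, Matrix.mulVec, dotProduct, Fin.sum_univ_three]
  funext j
  simp only [Tri.onW, Pi.add_apply, Matrix.mulVec_add]
  have h1 : (gen i s).A.mulVec (lastE1 k j) = lastE1 k j := by
    unfold lastE1
    by_cases hj : j = Fin.last k
    · subst hj
      rw [Pi.single_eq_same, hA]
    · rw [Pi.single_eq_of_ne hj, Matrix.mulVec_zero]
  rw [h1]
  by_cases hj0 : (j : ℕ) = 0
  · simp only [hj0, dite_true]
    abel
  · simp only [hj0, dite_false]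
    have h2 : lastE1 k ⟨(j : ℕ) - 1, lt_of_le_of_lt (Nat.sub_le _ _) j.isLt⟩ = 0 := by
      unfold lastE1
      refine Pi.single_eq_of_ne ?_ _
      intro h
      have h3 := congrArg Fin.val h
      simp only [Fin.val_last] at h3
      have := j.isLt
      omega
    rw [h2, Matrix.mulVec_zero, add_zero]
    abel

/-- recursion -/
theorem onW_cons {k : ℕ} (τ : Tri) (v : X) (w : W k) :
    τ.onW (Fin.cons v w : W (k + 1)) = Fin.cons (τ.fst v) ((τ.sec v).onW w) := by
  funext i
  refine Fin.cases ?_ (fun j => ?_) i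
  · simp [Tri.onW, Tri.fst]
  · simp only [Tri.onW, Tri.sec, Fin.cons_succ, Fin.val_succ, Nat.succ_ne_zero, dite_false]
    congr 1
    by_cases hj : (j : ℕ) = 0
    · simp only [hj, dite_true]
      have h1 : (⟨(j : ℕ) + 1 - 1, lt_of_le_of_lt (Nat.sub_le _ _) j.succ.isLt⟩ : Fin (k + 1)) = 0 := by
        ext
        simp [hj]
      simp only [hj] at h1 ⊢
      rw [h1, Fin.cons_zero]
    · simp only [hj, dite_false]
      have h1 : (⟨(j : ℕ) + 1 - 1, lt_of_le_of_lt (Nat.sub_le _ _) j.succ.isLt⟩ : Fin (k + 1)) =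
          Fin.succ ⟨(j : ℕ) - 1, lt_of_le_of_lt (Nat.sub_le _ _) j.isLt⟩ := by
        ext
        simp
        omega
      rw [h1, Fin.cons_succ]

/-- the sections of the generators -/
theorem sec_gen01 {k : ℕ} {Z : PermSys (W k)} (hZ : IsStd Z) (s : F) (v : X) (w : W k) :
    ((gen 0 s).sec v).onW w = Z.P 0 s w ∧ ((gen 1 s).sec v).onW w = Z.P 1 s w := by
  rw [hZ.P, hZ.P]
  constructor
  · have : (gen 0 s).sec v = gen 0 s := by
      simp [gen, Tri.sec]
    rw [this]
  · have : (gen 1 s).sec v = gen 1 s := by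
      simp [gen, Tri.sec]
    rw [this]

theorem sec_gen2 {k : ℕ} {Z : PermSys (W k)} (hZ : IsStd Z) (s : F) (v : X) (w : W k) :
    ((gen 2 s).sec v).onW w = Z.π 5 (⟨s, 0, 0⟩ * ⟨0, s * v 0, 0⟩) w ∧ (gen 2 s).fst v = v := by
  rw [hZ.pi]
  constructor
  · have : (gen 2 s).sec v = dat 5 (⟨s, 0, 0⟩ * ⟨0, s * v 0, 0⟩) := by
      refine tri_ext (fun i j => ?_) (fun i j => ?_) (fun i => ?_)
      · simp [gen, dat, Tri.sec]
      · fin_cases i <;> fin_cases j <;> simp [gen, dat, Tri.sec]
      · fin_cases i <;>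
          simp [gen, dat, Tri.sec, dotProduct, Fin.sum_univ_three]
    rw [this]
  · simp [gen, Tri.fst]

theorem sec_gen3 {k : ℕ} (s : F) (v : X) (w : W k) :
    ((gen 3 s).sec v).onW w = w := by
  have : (gen 3 s).sec v = Tri.one := by
    simp [gen, Tri.sec, Tri.one]
  rw [this, onW_one]

end Vale.Agent.P083
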