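import Vale.Agent.Lib.P083.Defs2
import Vale.Agent.Lib.P083.WPerm
import Vale.Agent.Lib.P083.Gap
import Vale.Agent.Lib.P083.Tensor

/-!
# P083, module Lift: the induction step (PROOF 3)

`ξ (v w) = s_v ζ(w)`; `‖ξ‖² ≥ |X| (1 - δ)`, `‖U_g ξ - ξ‖² ≤ |X| (7 / 10^4)²`; normalise.
-/

namespace Vale.Agent.P083

open scoped BigOperators InnerProductSpace

namespace LiftAux

section
variable {H : Type*} [NormedAddCommGroup H] [InnerProductSpace ℂ H]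
variable {Y : Type*} [Fintype Y]

theorem norm_shift_le (σ : Equiv.Perm Y) (ζ : PiLp 2 (fun _ : Y => H)) :
    ‖Theta (1 : H →L[ℂ] H) σ ζ‖ ≤ ‖ζ‖ := by
  refine (ContinuousLinearMap.le_opNorm _ _).trans ?_
  have h1 : ‖Theta (1 : H →L[ℂ] H) σ‖ ≤ 1 :=
    (norm_Theta_le (1 : H →L[ℂ] H) σ).trans ContinuousLinearMap.norm_id_le
  exact mul_le_of_le_one_left (norm_nonneg _) h1

theorem defect (g sv s' u' : H →L[ℂ] H) (τ : Equiv.Perm Y) (ζ : PiLp 2 (fun _ : Y => H))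
    {δ ε : ℝ} (hδ : ‖g * sv - s' * u'‖ ≤ δ) (hs : ‖s'‖ ≤ 2) (hu : ‖Theta u' τ ζ - ζ‖ ≤ ε)
    (hζ : ‖ζ‖ = 1) :
    ∑ w, ‖g (sv (ζ w)) - s' (ζ (τ w))‖ ^ 2 ≤ (δ + 2 * ε) ^ 2 := by
  set R : PiLp 2 (fun _ : Y => H) := Theta (g * sv - s' * u') 1 ζ +
    Theta s' 1 (Theta 1 τ⁻¹ (Theta u' τ ζ - ζ)) with hR
  have hRw : ∀ w, R w = g (sv (ζ w)) - s' (ζ (τ w)) := by
    intro w
    have e1 : (Theta (g * sv - s' * u') 1 ζ) w = g (sv (ζ w)) - s' (u' (ζ w)) := rfl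
    have e2 : (Theta s' 1 (Theta 1 τ⁻¹ (Theta u' τ ζ - ζ))) w =
        s' (u' (ζ (τ.symm (τ w))) - ζ (τ w)) := rfl
    rw [hR, PiLp.add_apply, e1, e2, Equiv.symm_apply_apply, map_sub]
    abel
  have h1 : ‖R‖ ^ 2 = ∑ w, ‖g (sv (ζ w)) - s' (ζ (τ w))‖ ^ 2 := by
    rw [PiLp.norm_sq_eq_of_L2]
    refine Finset.sum_congr rfl (fun w _ => ?_)
    rw [hRw]
  rw [← h1]
  have hδ0 : 0 ≤ δ := (norm_nonneg _).trans hδ
  have hε0 : 0 ≤ ε := (norm_nonneg _).trans hu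
  have h2 : ‖Theta (g * sv - s' * u') 1 ζ‖ ≤ δ := by
    refine (ContinuousLinearMap.le_opNorm _ _).trans ?_
    rw [hζ, mul_one]
    exact (norm_Theta_le _ _).trans hδ
  have h3 : ‖Theta s' 1 (Theta 1 τ⁻¹ (Theta u' τ ζ - ζ))‖ ≤ 2 * ε := by
    refine (ContinuousLinearMap.le_opNorm _ _).trans ?_
    refine mul_le_mul ((norm_Theta_le _ _).trans hs) ((norm_shift_le _ _).trans hu)
      (norm_nonneg _) (by norm_num)
  have h4 : ‖R‖ ≤ δ + 2 * ε := (norm_add_le _ _).trans (add_le_add h2 h3)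
  exact pow_le_pow_left₀ (norm_nonneg _) h4 2

end

section
variable {H : Type*} [NormedAddCommGroup H] [InnerProductSpace ℂ H] [CompleteSpace H]

theorem norm_s_le (T : H →L[ℂ] H) {δ : ℝ} (h1 : δ ≤ 1) (hT : ‖star T * T - 1‖ ≤ δ) :
    ‖T‖ ≤ 2 := by
  have e1 : ‖star T * T‖ = ‖T‖ * ‖T‖ := CStarRing.norm_star_mul_self
  have e2 : ‖star T * T‖ ≤ ‖star T * T - 1‖ + ‖(1 : H →L[ℂ] H)‖ := by
    have := norm_add_le (star T * T - 1) (1 : H →L[ℂ] H)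
    rwa [sub_add_cancel] at this
  have e3 : ‖(1 : H →L[ℂ] H)‖ ≤ 1 := ContinuousLinearMap.norm_id_le
  by_contra hcon
  push Not at hcon
  nlinarith

theorem norm_sq_ge (T : H →L[ℂ] H) {δ : ℝ} (hT : ‖star T * T - 1‖ ≤ δ) (h : H) :
    (1 - δ) * ‖h‖ ^ 2 ≤ ‖T h‖ ^ 2 := by
  have e1 : RCLike.re ⟪h, (star T * T - 1) h⟫_ℂ = ‖T h‖ ^ 2 - ‖h‖ ^ 2 := by
    have e2 : (star T * T - 1) h = ContinuousLinearMap.adjoint T (T h) - h := rfl
    rw [e2, inner_sub_right, ContinuousLinearMap.adjoint_inner_right, map_sub,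
      inner_self_eq_norm_sq, inner_self_eq_norm_sq]
  have e3 : |RCLike.re ⟪h, (star T * T - 1) h⟫_ℂ| ≤ ‖h‖ * (δ * ‖h‖) := by
    refine (RCLike.abs_re_le_norm _).trans ((norm_inner_le_norm _ _).trans ?_)
    exact mul_le_mul_of_nonneg_left (ContinuousLinearMap.le_of_opNorm_le _ hT h) (norm_nonneg h)
  rw [e1] at e3
  have := (abs_le.mp e3).1
  nlinarith

end

theorem sum_cons {k : ℕ} (f : W (k + 2) → ℝ) :
    ∑ w, f w = ∑ v : X, ∑ w : W (k + 1), f (Fin.cons v w : W (k + 2)) := by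
  rw [← (Fin.consEquiv (fun _ : Fin (k + 2) => X)).sum_comp f, Fintype.sum_prod_type]
  rfl

theorem last_zero (k : ℕ) : (lastE1 (k + 1)) 0 = 0 := by
  unfold lastE1
  rw [Pi.single_apply, if_neg]
  exact (Fin.last_pos).ne

theorem last_tail (k : ℕ) : (Fin.tail (lastE1 (k + 1)) : W (k + 1)) = lastE1 k := by
  funext i
  unfold lastE1 Fin.tail
  rw [Pi.single_apply, Pi.single_apply]
  by_cases h : i = Fin.last k
  · subst h; simp
  · rw [if_neg h, if_neg]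
    intro h'
    apply h
    rw [← Fin.succ_last] at h'
    exact Fin.succ_injective _ h'

end LiftAux

open LiftAux

section Levels
variable {H : Type*} [NormedAddCommGroup H] [InnerProductSpace ℂ H] [CompleteSpace H] [Nontrivial H]
variable {u : Fin 6 → Heis → H →L[ℂ] H} {G : Fin 4 → F → H →L[ℂ] H} {s : X → H →L[ℂ] H}
  {a : H →L[ℂ] H} {δ : ℝ}

/-- the defect on the part with first letter `v` -/
theorem LiftAux.part (hm : IsModel δ u G s a) (h0 : 0 ≤ δ) (h1 : δ ≤ 1 / 10 ^ 16) {k : ℕ}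
    {Z : PermSys (W (k + 1))} (hZ : IsStd Z)
    (ζ : PiLp 2 (fun _ : W (k + 1) => H)) (hζ : ‖ζ‖ = 1)
    (hi : ∀ i c, ‖Theta (G i c) (Z.P i c) ζ - ζ‖ ≤ 1 / 10 ^ 4) (i : Fin 4) (c : F) (v : X) :
    ∑ w : W (k + 1), ‖G i c (s v (ζ w)) - s ((gen i c).fst v) (ζ (((gen i c).sec v).onW w))‖ ^ 2 ≤
      (7 / 10 ^ 4) ^ 2 := by
  have hs2 : ∀ v, ‖s v‖ ≤ 2 := by
    intro v
    have := hm.iso v v
    rw [if_pos rfl] at this
    exact norm_s_le (s v) (h1.trans (by norm_num)) this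
  have hδ' : δ ≤ 1 / 4 := h1.trans (by norm_num)
  have hδ6 : δ ≤ 1 / 10 ^ 6 := h1.trans (by norm_num)
  fin_cases i
  · change ∑ w : W (k + 1), ‖G 0 c (s v (ζ w)) - s ((gen 0 c).fst v)
      (ζ (((gen 0 c).sec v).onW w))‖ ^ 2 ≤ _
    simp only [fun w => (sec_gen01 hZ c v w).1]
    refine (defect (G 0 c) (s v) (s ((gen 0 c).fst v)) (G 0 c) (Z.P 0 c) ζ (hm.sec0 c v)
      (hs2 _) (hi 0 c) hζ).trans ?_
    refine pow_le_pow_left₀ (by positivity) ?_ 2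
    norm_num at hδ6 ⊢
    linarith
  · change ∑ w : W (k + 1), ‖G 1 c (s v (ζ w)) - s ((gen 1 c).fst v)
      (ζ (((gen 1 c).sec v).onW w))‖ ^ 2 ≤ _
    simp only [fun w => (sec_gen01 hZ c v w).2]
    refine (defect (G 1 c) (s v) (s ((gen 1 c).fst v)) (G 1 c) (Z.P 1 c) ζ (hm.sec1 c v)
      (hs2 _) (hi 1 c) hζ).trans ?_
    refine pow_le_pow_left₀ (by positivity) ?_ 2
    norm_num at hδ6 ⊢
    linarith
  · change ∑ w : W (k + 1), ‖G 2 c (s v (ζ w)) - s ((gen 2 c).fst v)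
      (ζ (((gen 2 c).sec v).onW w))‖ ^ 2 ≤ _
    have hfst : (gen 2 c).fst v = v := (sec_gen2 hZ c v (0 : W (k + 1))).2
    simp only [fun w => (sec_gen2 hZ c v w).1, hfst]
    have h5 : ‖Theta (u 5 (⟨c, 0, 0⟩ * ⟨0, c * v 0, 0⟩))
        (Z.π 5 (⟨c, 0, 0⟩ * ⟨0, c * v 0, 0⟩)) ζ - ζ‖ ≤ δ + 3 / 10 ^ 4 := by
      have e1 : u 5 ⟨c, 0, 0⟩ = G 2 c := hm.sys.src 5 c
      have e2 : u 5 ⟨0, c * v 0, 0⟩ = G 3 (c * v 0) := hm.sys.tgt 5 (c * v 0)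
      have e3 : Z.π 5 ⟨c, 0, 0⟩ = Z.P 2 c := Z.src 5 c
      have e4 : Z.π 5 ⟨0, c * v 0, 0⟩ = Z.P 3 (c * v 0) := Z.tgt 5 (c * v 0)
      have e5 : ‖Theta (u 5 (⟨c, 0, 0⟩ * ⟨0, c * v 0, 0⟩)) (Z.P 2 c * Z.P 3 (c * v 0)) -
          Theta (G 2 c) (Z.P 2 c) * Theta (G 3 (c * v 0)) (Z.P 3 (c * v 0))‖ ≤ δ := by
        rw [Theta_mul, Theta_sub]
        refine (norm_Theta_le _ _).trans ?_
        have := hm.sys.mul 5 ⟨c, 0, 0⟩ ⟨0, c * v 0, 0⟩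
        rw [e1, e2, norm_sub_rev] at this
        exact this
      rw [map_mul, e3, e4]
      set A := Theta (u 5 (⟨c, 0, 0⟩ * ⟨0, c * v 0, 0⟩)) (Z.P 2 c * Z.P 3 (c * v 0)) with hA
      set B := Theta (G 2 c) (Z.P 2 c) with hB
      set C := Theta (G 3 (c * v 0)) (Z.P 3 (c * v 0)) with hC
      have e6 : A ζ - ζ = (A - B * C) ζ + B (C ζ - ζ) + (B ζ - ζ) := by
        rw [map_sub]
        change _ = A ζ - B (C ζ) + _ + _
        abel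
      have e7 : ‖(A - B * C) ζ‖ ≤ δ := by
        refine (ContinuousLinearMap.le_of_opNorm_le _ e5 ζ).trans ?_
        rw [hζ, mul_one]
      have e8 : ‖B (C ζ - ζ)‖ ≤ 2 * (1 / 10 ^ 4) := by
        refine (ContinuousLinearMap.le_opNorm _ _).trans ?_
        exact mul_le_mul ((norm_Theta_le _ _).trans (norm_G_le hm.sys h0 hδ' 2 c))
          (hi 3 (c * v 0)) (norm_nonneg _) (by norm_num)
      have e9 : ‖B ζ - ζ‖ ≤ 1 / 10 ^ 4 := hi 2 c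
      rw [e6]
      refine (norm_add₃_le).trans ?_
      linarith
    refine (defect (G 2 c) (s v) (s v) _ _ ζ (hm.sec2 c v) (hs2 _) h5 hζ).trans ?_
    refine pow_le_pow_left₀ (by positivity) ?_ 2
    norm_num at hδ6 ⊢
    linarith
  · change ∑ w : W (k + 1), ‖G 3 c (s v (ζ w)) - s ((gen 3 c).fst v)
      (ζ (((gen 3 c).sec v).onW w))‖ ^ 2 ≤ _
    simp only [fun w => sec_gen3 c v (w : W (k + 1))]
    have h5 : ‖Theta (1 : H →L[ℂ] H) (1 : Equiv.Perm (W (k + 1))) ζ - ζ‖ ≤ 0 := by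
      rw [Theta_one]
      simp
    have h6 : ‖G 3 c * s v - s ((gen 3 c).fst v) * 1‖ ≤ δ := by
      rw [mul_one]
      exact hm.sec3 c v
    refine (defect (G 3 c) (s v) (s ((gen 3 c).fst v)) 1 1 ζ h6 (hs2 _) h5 hζ).trans ?_
    refine pow_le_pow_left₀ (by positivity) ?_ 2
    norm_num at hδ6 ⊢
    linarith

theorem lift_vec (hm : IsModel δ u G s a) (h0 : 0 ≤ δ) (h1 : δ ≤ 1 / 10 ^ 16) {k : ℕ}
    {Z : PermSys (W (k + 1))} (hZ : IsStd Z) {Z' : PermSys (W (k + 2))} (hZ' : IsStd Z')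
    (ζ : PiLp 2 (fun _ : W (k + 1) => H)) (hζ : ‖ζ‖ = 1) (hV : IsV ζ)
    (hi : ∀ i c, ‖Theta (G i c) (Z.P i c) ζ - ζ‖ ≤ 1 / 10 ^ 4) :
    ∃ ζ' : PiLp 2 (fun _ : W (k + 2) => H), ‖ζ'‖ = 1 ∧ IsV (k := k + 1) ζ' ∧
      ∀ i c, ‖Theta (G i c) (Z'.P i c) ζ' - ζ'‖ ≤ 1 / 100 := by
  have hδ6 : δ ≤ 1 / 10 ^ 6 := h1.trans (by norm_num)
  set ξ : PiLp 2 (fun _ : W (k + 2) => H) :=
    WithLp.toLp 2 (fun w : W (k + 2) => s (w 0) (ζ (Fin.tail w))) with hξdef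
  have hξ : ∀ (v : X) (w : W (k + 1)), ξ (Fin.cons v w : W (k + 2)) = s v (ζ w) := by
    intro v w
    rfl
  set N : ℝ := (Fintype.card X : ℝ) with hN
  have hN0 : 0 < N := by
    rw [hN]
    exact_mod_cast Fintype.card_pos
  have hζ2 : ∑ w, ‖ζ w‖ ^ 2 = 1 := by
    rw [← PiLp.norm_sq_eq_of_L2 (fun _ : W (k + 1) => H) ζ, hζ, one_pow]
  have hlow : N * (1 - δ) ≤ ‖ξ‖ ^ 2 := by
    rw [PiLp.norm_sq_eq_of_L2, sum_cons]
    have h2 : ∀ v : X, (1 - δ) ≤ ∑ w : W (k + 1), ‖ξ (Fin.cons v w : W (k + 2))‖ ^ 2 := by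
      intro v
      have h3 : (1 - δ) = ∑ w : W (k + 1), (1 - δ) * ‖ζ w‖ ^ 2 := by
        rw [← Finset.mul_sum, hζ2, mul_one]
      rw [h3]
      refine Finset.sum_le_sum (fun w _ => ?_)
      rw [hξ]
      have := hm.iso v v
      rw [if_pos rfl] at this
      exact norm_sq_ge (s v) this (ζ w)
    calc N * (1 - δ) = ∑ _v : X, (1 - δ) := by
          rw [Finset.sum_const, Finset.card_univ, nsmul_eq_mul]
      _ ≤ _ := Finset.sum_le_sum (fun v _ => h2 v)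
  have hpos2 : 0 < ‖ξ‖ ^ 2 := by
    refine lt_of_lt_of_le ?_ hlow
    have : 0 < 1 - δ := by norm_num at hδ6; linarith
    positivity
  have hpos : 0 < ‖ξ‖ := by
    rcases (norm_nonneg ξ).eq_or_lt with h | h
    · rw [← h] at hpos2; norm_num at hpos2
    · exact h
  have hdef : ∀ i c, ‖Theta (G i c) (Z'.P i c) ξ - ξ‖ ≤ 1 / 100 * ‖ξ‖ := by
    intro i c
    have h2 : ‖Theta (G i c) (Z'.P i c) ξ - ξ‖ ^ 2 ≤ N * (7 / 10 ^ 4) ^ 2 := by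
      rw [PiLp.norm_sq_eq_of_L2]
      have e1 : ∑ w, ‖(Theta (G i c) (Z'.P i c) ξ - ξ) w‖ ^ 2 =
          ∑ w, ‖G i c (ξ w) - ξ (Z'.P i c w)‖ ^ 2 := by
        rw [← Equiv.sum_comp (Z'.P i c)]
        refine Finset.sum_congr rfl (fun w _ => ?_)
        rw [PiLp.sub_apply, Theta_apply, Equiv.symm_apply_apply]
      rw [e1, sum_cons]
      have e2 : ∀ v : X, ∑ w : W (k + 1), ‖G i c (ξ (Fin.cons v w : W (k + 2))) -
          ξ (Z'.P i c (Fin.cons v w : W (k + 2)))‖ ^ 2 ≤ (7 / 10 ^ 4) ^ 2 := by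
        intro v
        refine le_trans (le_of_eq ?_) (LiftAux.part hm h0 h1 hZ ζ hζ hi i c v)
        refine Finset.sum_congr rfl (fun w _ => ?_)
        rw [hZ'.P, onW_cons, hξ, hξ]
      calc ∑ v : X, ∑ w : W (k + 1), ‖G i c (ξ (Fin.cons v w : W (k + 2))) -
          ξ (Z'.P i c (Fin.cons v w : W (k + 2)))‖ ^ 2 ≤ ∑ _v : X, ((7 / 10 ^ 4) ^ 2 : ℝ) :=
            Finset.sum_le_sum (fun v _ => e2 v)
        _ = N * (7 / 10 ^ 4) ^ 2 := by rw [Finset.sum_const, Finset.card_univ, nsmul_eq_mul]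
    refine le_of_sq_le_sq ?_ (by positivity)
    refine h2.trans ?_
    rw [mul_pow]
    have h3 : N * (1 / 2) ≤ ‖ξ‖ ^ 2 := by
      refine le_trans (mul_le_mul_of_nonneg_left ?_ hN0.le) hlow
      norm_num at hδ6
      linarith
    nlinarith
  refine ⟨((‖ξ‖⁻¹ : ℝ) : ℂ) • ξ, ?_, ?_, ?_⟩
  · rw [norm_smul, Complex.norm_real, norm_inv, norm_norm, inv_mul_cancel₀ hpos.ne']
  · intro w
    have e1 : ξ (w + lastE1 (k + 1)) = om • ξ w := by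
      change s ((w + lastE1 (k + 1)) 0) (ζ (Fin.tail (w + lastE1 (k + 1)))) =
        om • s (w 0) (ζ (Fin.tail w))
      have e2 : (w + lastE1 (k + 1)) 0 = w 0 := by
        rw [Pi.add_apply, last_zero, add_zero]
      have e3 : (Fin.tail (w + lastE1 (k + 1)) : W (k + 1)) = Fin.tail w + lastE1 k := by
        rw [← last_tail k]
        rfl
      rw [e2, e3, hV, map_smul]
    rw [PiLp.smul_apply, PiLp.smul_apply, e1, smul_comm]
  · intro i c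
    rw [map_smul, ← smul_sub, norm_smul, Complex.norm_real, norm_inv, norm_norm]
    have := mul_le_mul_of_nonneg_left (hdef i c) (inv_nonneg.mpr hpos.le)
    refine this.trans (le_of_eq ?_)
    field_simp

end Levels

end Vale.Agent.P083
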