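import Mathlib
import Vale.Agent.Lib.P083.Defs2
import Vale.Agent.Lib.P083.Correct
import Vale.Agent.Lib.P083.Tensor
import Vale.Agent.Lib.P083.WPerm
import Vale.Agent.Lib.P083.Base
import Vale.Agent.Lib.P083.Lift

/-!
# P083: invariant vectors on all levels
-/

namespace Vale.Agent.P083

open scoped BigOperators InnerProductSpace

section Levels
variable {H : Type*} [NormedAddCommGroup H] [InnerProductSpace ℂ H] [CompleteSpace H] [Nontrivial H]
variable {u : Fin 6 → Heis → H →L[ℂ] H} {G : Fin 4 → F → H →L[ℂ] H} {s : X → H →L[ℂ] H}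
  {a : H →L[ℂ] H} {δ : ℝ}

/-- the submodule of the `IsV` vectors -/
def Lev.S (H : Type*) [NormedAddCommGroup H] [InnerProductSpace ℂ H] (k : ℕ) :
    Submodule ℂ (PiLp 2 (fun _ : W (k + 1) => H)) where
  carrier := {ζ | IsV ζ}
  zero_mem' := by
    intro w
    simp
  add_mem' := by
    intro ζ ξ hζ hξ w
    have h1 : ζ (w + lastE1 k) = om • ζ w := hζ w
    have h2 : ξ (w + lastE1 k) = om • ξ w := hξ w
    simp only [PiLp.add_apply, h1, h2, smul_add]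
  smul_mem' := by
    intro c ζ hζ w
    have h1 : ζ (w + lastE1 k) = om • ζ w := hζ w
    simp only [PiLp.smul_apply, h1]
    rw [smul_comm]

theorem Lev.improve {G : Fin 4 → F → H →L[ℂ] H} (hs : IsSys (1 / 10 ^ 16) u G) (k : ℕ)
    {Z : PermSys (W (k + 1))} (hZ : IsStd Z)
    (hex : ∃ ζ : PiLp 2 (fun _ : W (k + 1) => H), ‖ζ‖ = 1 ∧ IsV ζ ∧
      ∀ i c, ‖Theta (G i c) (Z.P i c) ζ - ζ‖ ≤ 1 / 100) :
    ∃ ζ : PiLp 2 (fun _ : W (k + 1) => H), ‖ζ‖ = 1 ∧ IsV ζ ∧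
      ∀ i c, ‖Theta (G i c) (Z.P i c) ζ - ζ‖ ≤ 1 / 10 ^ 5 := by
  obtain ⟨ζ, hζ1, hζV, hζ⟩ := hex
  have hst := tensor_sys hs Z
  have hlast : ∀ i c w, (Z.P i c).symm (w + lastE1 k) = (Z.P i c).symm w + lastE1 k := by
    intro i c w
    rw [Equiv.symm_apply_eq, std_last hZ, Equiv.apply_symm_apply]
  obtain ⟨v, hv, hv1, hv2⟩ := correct hst (by norm_num) le_rfl (Lev.S H k)
    (by
      intro i c v hv w
      have hv' : ∀ w, v (w + lastE1 k) = om • v w := hv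
      simp only [Theta_apply]
      rw [hlast, hv', map_smul])
    (by
      intro i c v hv w
      have hv' : ∀ w, v (w + lastE1 k) = om • v w := hv
      rw [Theta_star]
      simp only [Theta_apply]
      have h1 : ((Z.P i c)⁻¹ : Equiv.Perm (W (k + 1))).symm = Z.P i c := rfl
      rw [h1, std_last hZ, hv', map_smul])
    ⟨ζ, hζV, hζ1, hζ⟩
  refine ⟨v, hv1, hv, fun i c => (hv2 i c).trans ?_⟩
  have h2 : √((1 : ℝ) / 10 ^ 16) = 1 / 10 ^ 8 := by
    have h3 : (1 : ℝ) / 10 ^ 16 = (1 / 10 ^ 8) ^ 2 := by norm_num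
    rw [h3, Real.sqrt_sq (by norm_num)]
  rw [h2]
  norm_num

theorem all_levels (hm : IsModel (1 / 10 ^ 16) u G s a)
    (Z : ∀ k, PermSys (W (k + 1))) (hZ : ∀ k, IsStd (Z k)) (k : ℕ) :
    ∃ ζ : PiLp 2 (fun _ : W (k + 1) => H), ‖ζ‖ = 1 ∧ IsV ζ ∧
      ∀ i c, ‖Theta (G i c) ((Z k).P i c) ζ - ζ‖ ≤ 1 / 10 ^ 5 := by
  induction k with
  | zero =>
    exact Lev.improve hm.sys 0 (hZ 0) (base_vec hm (by norm_num) le_rfl (hZ 0))
  | succ k ih =>
    obtain ⟨ζ, h1, hV, h2⟩ := ih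
    exact Lev.improve hm.sys (k + 1) (hZ (k + 1))
      (lift_vec hm (by norm_num) le_rfl (hZ k) (hZ (k + 1)) ζ h1 hV
        (fun i c => (h2 i c).trans (by norm_num)))

end Levels

end Vale.Agent.P083
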