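import Vale.Agent.Lib.P083.Defs2

/-!
# P083: isometries of `ℓ²(E)` attached to injections of the set `E`
-/

namespace Vale.Agent.P083

open scoped BigOperators InnerProductSpace Topology BoundedContinuousFunction ENNReal ComplexOrder
open Filter

namespace OpsAux

open Classical in
/-- the coordinate isometries -/
noncomputable def sg (E : Type) (i : E) : ℂ →ₗᵢ[ℂ] lp (fun _ : E => ℂ) 2 where
  toFun c := lp.single 2 i c
  map_add' a b := lp.single_add (E := fun _ : E => ℂ) 2 i a b
  map_smul' c a := lp.single_smul (E := fun _ : E => ℂ) 2 i c a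
  norm_map' c := lp.norm_single (E := fun _ : E => ℂ) (p := 2) (by norm_num) i c

open Classical in
theorem inner_sg_left (E : Type) (i : E) (a : ℂ) (f : lp (fun _ : E => ℂ) 2) :
    ⟪sg E i a, f⟫_ℂ = ⟪a, f i⟫_ℂ :=
  lp.inner_single_left (𝕜 := ℂ) (G := fun _ : E => ℂ) i a f

open Classical in
theorem sg_ne (E : Type) {i j : E} (h : j ≠ i) (a : ℂ) : (sg E i a : lp (fun _ : E => ℂ) 2) j = 0 :=
  lp.single_apply_ne (E := fun _ : E => ℂ) 2 i a h

theorem orth (E : Type) (f : E ↪ E) :
    OrthogonalFamily ℂ (fun _ : E => ℂ) (fun i => sg E (f i)) := by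
  intro i j hij a b
  have hne : f i ≠ f j := fun h => hij (f.injective h)
  simp only
  rw [inner_sg_left, sg_ne E hne, inner_zero_right]

/-- the isometry attached to an injection -/
noncomputable def T (E : Type) (f : E ↪ E) : lp (fun _ : E => ℂ) 2 →L[ℂ] lp (fun _ : E => ℂ) 2 :=
  (orth E f).linearIsometry.toContinuousLinearMap

theorem T_sg (E : Type) (f : E ↪ E) (i : E) (a : ℂ) : T E f (sg E i a) = sg E (f i) a := by
  classical
  have h := (orth E f).linearIsometry_apply_single (i := i) a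
  have h2 : (sg E i a : lp (fun _ : E => ℂ) 2) = lp.single 2 i a := by
    unfold sg
    simp only [LinearIsometry.coe_mk, LinearMap.coe_mk, AddHom.coe_mk]
  rw [h2]
  exact h

theorem norm_T (E : Type) (f : E ↪ E) (x : lp (fun _ : E => ℂ) 2) : ‖T E f x‖ = ‖x‖ :=
  (orth E f).linearIsometry.norm_map x

theorem hasSum_sg (E : Type) (x : lp (fun _ : E => ℂ) 2) : HasSum (fun i => sg E i (x i)) x := by
  classical
  have h := lp.hasSum_single (E := fun _ : E => ℂ) (p := 2) (by norm_num) x
  refine h.congr_fun ?_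
  intro i
  rfl

theorem ext_sg {E : Type} {Y : Type*} [NormedAddCommGroup Y] [NormedSpace ℂ Y]
    {A B : lp (fun _ : E => ℂ) 2 →L[ℂ] Y} (h : ∀ i a, A (sg E i a) = B (sg E i a)) : A = B := by
  ext x
  have h1 := A.hasSum (hasSum_sg E x)
  have h2 := B.hasSum (hasSum_sg E x)
  simp only [h] at h1
  exact h1.unique h2

theorem coord (E : Type) (f : E ↪ E) (x : lp (fun _ : E => ℂ) 2) (j : E)
    (hj : j ∉ Set.range f) : (T E f x) j = 0 := by
  have h1 : ⟪sg E j 1, T E f x⟫_ℂ = 0 := by
    have h2 := ((T E f).hasSum (hasSum_sg E x))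
    have h3 := h2.mapL (innerSL ℂ (sg E j 1))
    have h4 : (fun i => innerSL ℂ (sg E j 1) (T E f (sg E i (x i)))) = fun _ => (0 : ℂ) := by
      funext i
      rw [innerSL_apply_apply, T_sg, inner_sg_left, sg_ne E, inner_zero_right]
      intro h
      exact hj ⟨i, h.symm⟩
    rw [h4] at h3
    exact h3.unique hasSum_zero
  rw [inner_sg_left] at h1
  simpa using h1

end OpsAux

theorem exists_ops (E : Type) : ∃ T : (E ↪ E) → (lp (fun _ : E => ℂ) 2 →L[ℂ] lp (fun _ : E => ℂ) 2),
    T (Function.Embedding.refl E) = 1 ∧ (∀ f g : E ↪ E, T (g.trans f) = T f * T g) ∧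
    (∀ f : E ↪ E, star (T f) * T f = 1) ∧
    (∀ f g : E ↪ E, Disjoint (Set.range f) (Set.range g) → star (T f) * T g = 0) := by
  refine ⟨OpsAux.T E, ?_, ?_, ?_, ?_⟩
  · refine OpsAux.ext_sg fun i a => ?_
    rw [OpsAux.T_sg]
    rfl
  · intro f g
    refine OpsAux.ext_sg fun i a => ?_
    rw [OpsAux.T_sg, mul_apply_eq_comp, OpsAux.T_sg, OpsAux.T_sg]
    rfl
  · intro f
    rw [ContinuousLinearMap.star_eq_adjoint]
    exact ((OpsAux.T E f).norm_map_iff_adjoint_comp_self).1 (OpsAux.norm_T E f)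
  · intro f g hfg
    refine OpsAux.ext_sg fun i a => ?_
    refine ext_inner_left ℂ fun x => ?_
    rw [ContinuousLinearMap.star_eq_adjoint, mul_apply_eq_comp,
      ContinuousLinearMap.adjoint_inner_right, OpsAux.T_sg]
    rw [zero_apply, inner_zero_right, ← inner_conj_symm, OpsAux.inner_sg_left,
      OpsAux.coord E f x (g i), inner_zero_right, map_zero]
    intro h
    exact Set.disjoint_left.1 hfg h ⟨i, rfl⟩

end Vale.Agent.P083
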