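import Mathlib
import Vale.Agent.Lib.P083.Defs2
import Vale.Agent.Lib.P083.WPerm
import Vale.Agent.Lib.P083.Separable
import Vale.Agent.Lib.P083.Ops

/-!
# P083: the separable C*-algebra with an exact model
-/

namespace Vale.Agent.P083

open scoped ENNReal

namespace Model

/-- words -/
abbrev E : Type := List (Option X)

/-- `v :: ·` -/
def cons (v : Option X) : E ↪ E := ⟨fun w => v :: w, fun _ _ h => List.tail_eq_of_cons_eq h⟩

/-- the operators -/
abbrev B : Type := lp (fun _ : E => ℂ) 2 →L[ℂ] lp (fun _ : E => ℂ) 2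

theorem sec2_eq (c : F) (v : X) : (gen 2 c).sec v = dat 5 (⟨c, 0, 0⟩ * ⟨0, c * v 0, 0⟩) := by
  refine WPerm.tri_ext (fun i j => ?_) (fun i j => ?_) (fun i => ?_)
  · simp [gen, dat, Tri.sec]
  · fin_cases i <;> fin_cases j <;> simp [gen, dat, Tri.sec]
  · fin_cases i <;>
      simp [gen, dat, Tri.sec, dotProduct, Fin.sum_univ_three]

theorem exists_model_B : ∃ (u : Fin 6 → Heis → B) (G : Fin 4 → F → B) (s : X → B) (a : B),
    IsModel 0 u G s a := by
  obtain ⟨T, hT1, hTm, hTi, hTd⟩ := exists_ops E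
  obtain ⟨Z, hπ, hP⟩ := exists_permSysL
  let u : Fin 6 → Heis → B := fun e g => T (Z.π e g).toEmbedding
  let G : Fin 4 → F → B := fun i c => T (Z.P i c).toEmbedding
  let s : X → B := fun v => T (cons (some v))
  let a : B := T (cons none)
  have hmul : ∀ e g h, u e g * u e h = u e (g * h) := by
    intro e g h
    change T _ * T _ = T _
    rw [← hTm]
    congr 1
    ext1 w
    change Z.π e g (Z.π e h w) = Z.π e (g * h) w
    rw [map_mul]
    rfl
  have hone : ∀ e, u e 1 = 1 := by
    intro e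
    change T _ = 1
    rw [← hT1]
    congr 1
    ext1 w
    change Z.π e 1 w = w
    rw [map_one]
    rfl
  have hstar : ∀ e g, star (u e g) = u e g⁻¹ := by
    intro e g
    have h1 : star (u e g) * u e g = 1 := hTi _
    calc star (u e g) = star (u e g) * (u e g * u e g⁻¹) := by
          rw [hmul, mul_inv_cancel, hone, mul_one]
      _ = u e g⁻¹ := by rw [← mul_assoc, h1, one_mul]
  have hz : ∀ {x y : B}, x = y → ‖x - y‖ ≤ 0 := by
    intro x y h
    rw [h, sub_self, norm_zero]
  have hcons : ∀ (i : Fin 4) (c : F) (v : X) (w : E), Z.P i c (some v :: w) =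
      some ((gen i c).fst v) :: Tri.onL (gen i c).A (gen i c).B ((gen i c).B.mulVec v) w := by
    intro i c v w
    rw [hP]
    rfl
  refine ⟨u, G, s, a, ⟨?_, ?_, fun e => hz (hone e), fun e g h => hz (hmul e g h),
    fun e g => hz (hstar e g)⟩, ?_, ?_, ?_, ?_, ?_, hz (hTi _), ?_⟩
  · intro e c
    change T _ = T _
    rw [Z.src]
  · intro e c
    change T _ = T _
    rw [Z.tgt]
  · intro v v'
    split_ifs with h
    · subst h
      exact hz (hTi _)
    · refine hz (hTd _ _ ?_)
      rw [Set.disjoint_left]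
      rintro w ⟨w1, rfl⟩ ⟨w2, h2⟩
      apply h
      have h3 : some v' :: w2 = some v :: w1 := h2
      injection h3 with h4
      injection h4 with h5
      exact h5.symm
  · intro c v
    apply hz
    change T _ * T _ = T _ * T _
    rw [← hTm, ← hTm]
    congr 1
    ext1 w
    change Z.P 0 c (some v :: w) = some ((gen 0 c).fst v) :: Z.P 0 c w
    rw [hcons, hP]
    have h1 : (gen 0 c).B.mulVec v = (gen 0 c).t := by
      simp [gen]
    rw [h1]
  · intro c v
    apply hz
    change T _ * T _ = T _ * T _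
    rw [← hTm, ← hTm]
    congr 1
    ext1 w
    change Z.P 1 c (some v :: w) = some ((gen 1 c).fst v) :: Z.P 1 c w
    rw [hcons, hP]
    have h1 : (gen 1 c).B.mulVec v = (gen 1 c).t := by
      simp [gen]
    rw [h1]
  · intro c v
    apply hz
    change T _ * T _ = T _ * T _
    rw [← hTm, ← hTm]
    congr 1
    ext1 w
    change Z.P 2 c (some v :: w) = some v :: Z.π 5 (⟨c, 0, 0⟩ * ⟨0, c * v 0, 0⟩) w
    rw [hcons, hπ, ← sec2_eq]
    have h1 : (gen 2 c).fst v = v := by
      simp [gen, Tri.fst]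
    rw [h1]
    rfl
  · intro c v
    apply hz
    change T _ * T _ = T _
    rw [← hTm]
    congr 1
    ext1 w
    change Z.P 3 c (some v :: w) = some ((gen 3 c).fst v) :: w
    rw [hcons]
    have h1 : (gen 3 c).B.mulVec v = 0 := by
      simp [gen]
    have h2 : Tri.onL (gen 3 c).A (gen 3 c).B 0 w = w := WPerm.onL_one 0 rfl w
    rw [h1, h2]
  · intro i c
    apply hz
    change T _ * T _ = T _
    rw [← hTm]
    congr 1
    ext1 w
    change Z.P i c (none :: w) = none :: w
    rw [hP]
    rfl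

end Model

open Model

theorem exists_model : ∃ (A : Type) (_ : CStarAlgebra A) (_ : Nontrivial A),
    TopologicalSpace.SeparableSpace A ∧
    ∃ (u : Fin 6 → Heis → A) (G : Fin 4 → F → A) (s : X → A) (a : A), IsModel 0 u G s a := by
  obtain ⟨u, G, s, a, hm⟩ := exists_model_B
  let E' : Set B := (Set.range fun q : Fin 6 × Heis => u q.1 q.2) ∪
    ((Set.range fun q : Fin 4 × F => G q.1 q.2) ∪ (Set.range s ∪ {a}))
  have hE : E'.Countable := by
    refine (Set.countable_range _).union ((Set.countable_range _).union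
      ((Set.countable_range _).union (Set.countable_singleton _)))
  let A := (StarAlgebra.adjoin ℂ E').topologicalClosure
  have hmem : ∀ x ∈ E', x ∈ A := fun x hx =>
    StarSubalgebra.le_topologicalClosure _ (StarAlgebra.subset_adjoin ℂ E' hx)
  have hu : ∀ e g, u e g ∈ A := fun e g => hmem _ (Or.inl ⟨(e, g), rfl⟩)
  have hG : ∀ i c, G i c ∈ A := fun i c => hmem _ (Or.inr (Or.inl ⟨(i, c), rfl⟩))
  have hs : ∀ v, s v ∈ A := fun v => hmem _ (Or.inr (Or.inr (Or.inl ⟨v, rfl⟩)))
  have ha : a ∈ A := hmem _ (Or.inr (Or.inr (Or.inr rfl)))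
  have : IsClosed (A : Set B) := StarSubalgebra.isClosed_topologicalClosure _
  have hnt : Nontrivial A := by
    refine ⟨⟨0, 1, fun h => ?_⟩⟩
    have h1 : ((0 : A) : B) = ((1 : A) : B) := congrArg Subtype.val h
    have h2 : (0 : B) = 1 := h1
    have h3 : (0 : B) (lp.single 2 ([] : E) (1 : ℂ)) = (1 : B) (lp.single 2 ([] : E) (1 : ℂ)) := by
      rw [h2]
    have h4 : (0 : lp (fun _ : E => ℂ) 2) = lp.single 2 ([] : E) (1 : ℂ) := h3
    have h5 := congrArg (fun ξ : lp (fun _ : E => ℂ) 2 => ξ ([] : E)) h4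
    simp at h5
  refine ⟨A, inferInstance, hnt, separable_adjoin E' hE, fun e g => ⟨u e g, hu e g⟩,
    fun i c => ⟨G i c, hG i c⟩, fun v => ⟨s v, hs v⟩, ⟨a, ha⟩, ⟨?_, ?_, ?_, ?_, ?_⟩,
    ?_, ?_, ?_, ?_, ?_, ?_, ?_⟩
  · exact fun e c => Subtype.ext (hm.sys.src e c)
  · exact fun e c => Subtype.ext (hm.sys.tgt e c)
  · exact fun e => hm.sys.one e
  · exact fun e g h => hm.sys.mul e g h
  · exact fun e g => hm.sys.star e g
  · intro v v'
    have h := hm.iso v v'
    split_ifs at h ⊢
    · exact h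
    · exact h
  · exact fun c v => hm.sec0 c v
  · exact fun c v => hm.sec1 c v
  · exact fun c v => hm.sec2 c v
  · exact fun c v => hm.sec3 c v
  · exact hm.baseIso
  · exact fun i c => hm.base i c

end Vale.Agent.P083
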