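import Vale.Agent.Lib.P083.Defs2

/-!
# P083: the Haagerup Cauchy-Schwarz inequality (PROOF 5a)
-/

namespace Vale.Agent.P083

open scoped BigOperators InnerProductSpace ComplexOrder

namespace Haag

open Matrix

section bounds

open scoped Matrix.Norms.L2Operator

theorem opnorm_le {m : ℕ} (t : Matrix (Fin m) (Fin m) ℂ) {C : ℝ} (hC0 : 0 ≤ C)
    (h : ∀ x : EuclideanSpace ℂ (Fin m), ‖Matrix.toEuclideanLin t x‖ ≤ C * ‖x‖) : ‖t‖ ≤ C := by
  rw [Matrix.l2_opNorm_def]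
  exact ContinuousLinearMap.opNorm_le_bound _ hC0 h

theorem col_bound {m : ℕ} (t : Matrix (Fin m) (Fin m) ℂ) {C : ℝ} (h : ‖t‖ ≤ C) (j : Fin m) :
    ∑ i, ‖t i j‖ ^ 2 ≤ C ^ 2 := by
  have h1 := Matrix.l2_opNorm_mulVec t (EuclideanSpace.single j (1 : ℂ))
  have h2 : ‖(EuclideanSpace.single j (1 : ℂ) : EuclideanSpace ℂ (Fin m))‖ = 1 := by
    simp
  rw [h2, mul_one] at h1
  have h3 : ‖(EuclideanSpace.equiv (Fin m) ℂ).symm <|
      t *ᵥ (EuclideanSpace.single j (1 : ℂ) : EuclideanSpace ℂ (Fin m))‖ ^ 2 = ∑ i, ‖t i j‖ ^ 2 := by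
    rw [EuclideanSpace.norm_sq_eq]
    refine Finset.sum_congr rfl fun i _ => ?_
    congr 2
    simp
  rw [← h3]
  exact pow_le_pow_left₀ (norm_nonneg _) (h1.trans h) 2

theorem row_bound {m : ℕ} (t : Matrix (Fin m) (Fin m) ℂ) {C : ℝ} (h : ‖t‖ ≤ C) (i : Fin m) :
    ∑ j, ‖t i j‖ ^ 2 ≤ C ^ 2 := by
  have h1 := col_bound tᴴ (C := C) (by rw [Matrix.l2_opNorm_conjTranspose]; exact h) i
  refine le_trans (le_of_eq ?_) h1
  refine Finset.sum_congr rfl fun j _ => ?_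
  rw [Matrix.conjTranspose_apply, norm_star]

theorem conj_norm {m : ℕ} (t U : Matrix (Fin m) (Fin m) ℂ) {C : ℝ} (h : ‖t‖ ≤ C)
    (hU : U ∈ unitary (Matrix (Fin m) (Fin m) ℂ)) : ‖star U * t * U‖ ≤ C := by
  rw [CStarRing.norm_mul_mem_unitary _ hU, CStarRing.norm_mem_unitary_mul]
  · exact h
  · exact Unitary.star_mem hU

/-- the weighted Hilbert-Schmidt bound -/
theorem hs_bound {m : ℕ} (t : Matrix (Fin m) (Fin m) ℂ) {C : ℝ} (h : ‖t‖ ≤ C)
    (l : Fin m → ℝ) (hl : ∑ i, l i ^ 2 = 1) :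
    ∑ i, ∑ j, l i * l j * ‖t i j‖ ^ 2 ≤ C ^ 2 := by
  have h1 : ∑ i, ∑ j, l i * l j * ‖t i j‖ ^ 2 ≤
      ∑ i, ∑ j, (l i ^ 2 * ‖t i j‖ ^ 2 / 2 + l j ^ 2 * ‖t i j‖ ^ 2 / 2) := by
    refine Finset.sum_le_sum fun i _ => Finset.sum_le_sum fun j _ => ?_
    nlinarith [mul_nonneg (sq_nonneg (l i - l j)) (sq_nonneg ‖t i j‖)]
  have h2 : ∑ i, ∑ j, (l i ^ 2 * ‖t i j‖ ^ 2 / 2 + l j ^ 2 * ‖t i j‖ ^ 2 / 2) =
      (∑ i, l i ^ 2 * (∑ j, ‖t i j‖ ^ 2)) / 2 + (∑ j, l j ^ 2 * (∑ i, ‖t i j‖ ^ 2)) / 2 := by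
    simp only [Finset.sum_add_distrib]
    congr 1
    · rw [Finset.sum_div]
      refine Finset.sum_congr rfl fun i _ => ?_
      rw [Finset.mul_sum, Finset.sum_div]
    · rw [Finset.sum_comm, Finset.sum_div]
      refine Finset.sum_congr rfl fun i _ => ?_
      rw [Finset.mul_sum, Finset.sum_div]
  have h3 : ∑ i, l i ^ 2 * (∑ j, ‖t i j‖ ^ 2) ≤ C ^ 2 := by
    calc ∑ i, l i ^ 2 * (∑ j, ‖t i j‖ ^ 2) ≤ ∑ i, l i ^ 2 * C ^ 2 :=
          Finset.sum_le_sum fun i _ => mul_le_mul_of_nonneg_left (row_bound t h i) (sq_nonneg _)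
      _ = C ^ 2 := by rw [← Finset.sum_mul, hl, one_mul]
  have h4 : ∑ j, l j ^ 2 * (∑ i, ‖t i j‖ ^ 2) ≤ C ^ 2 := by
    calc ∑ j, l j ^ 2 * (∑ i, ‖t i j‖ ^ 2) ≤ ∑ i, l i ^ 2 * C ^ 2 :=
          Finset.sum_le_sum fun i _ => mul_le_mul_of_nonneg_left (col_bound t h i) (sq_nonneg _)
      _ = C ^ 2 := by rw [← Finset.sum_mul, hl, one_mul]
  rw [h2] at h1
  linarith

end bounds

variable {m : ℕ} {Y : Type*} [Fintype Y] [DecidableEq Y]

omit [DecidableEq Y] in
/-- inner product of two diagonal forms -/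
theorem hform (β γ : Fin m → Y → ℂ) (l : Fin m → ℝ) :
    ∑ y, ∑ y', (starRingEnd ℂ) (∑ i, (l i : ℂ) * ((starRingEnd ℂ) (β i y) * β i y')) *
        (∑ j, (l j : ℂ) * ((starRingEnd ℂ) (γ j y) * γ j y')) =
      ((∑ i, ∑ j, l i * l j * ‖∑ y, (starRingEnd ℂ) (β i y) * γ j y‖ ^ 2 : ℝ) : ℂ) := by
  have h1 : ∀ i j, ((l i * l j * ‖∑ y, (starRingEnd ℂ) (β i y) * γ j y‖ ^ 2 : ℝ) : ℂ) =
      ∑ y, ∑ y', ((l i : ℂ) * (β i y * (starRingEnd ℂ) (β i y'))) *
        ((l j : ℂ) * ((starRingEnd ℂ) (γ j y) * γ j y')) := by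
    intro i j
    have h2 : ((‖∑ y, (starRingEnd ℂ) (β i y) * γ j y‖ ^ 2 : ℝ) : ℂ) =
        (starRingEnd ℂ) (∑ y, (starRingEnd ℂ) (β i y) * γ j y) *
          (∑ y, (starRingEnd ℂ) (β i y) * γ j y) := by
      rw [Complex.conj_mul']
      push_cast
      rfl
    rw [Complex.ofReal_mul, h2, map_sum, Finset.sum_mul_sum, Finset.mul_sum]
    refine Finset.sum_congr rfl fun y _ => ?_
    rw [Finset.mul_sum]
    refine Finset.sum_congr rfl fun y' _ => ?_
    rw [map_mul, Complex.conj_conj]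
    push_cast
    ring
  push_cast
  have h3 : ∀ y y', (starRingEnd ℂ) (∑ i, (l i : ℂ) * ((starRingEnd ℂ) (β i y) * β i y')) *
        (∑ j, (l j : ℂ) * ((starRingEnd ℂ) (γ j y) * γ j y')) =
      ∑ i, ∑ j, ((l i : ℂ) * (β i y * (starRingEnd ℂ) (β i y'))) *
        ((l j : ℂ) * ((starRingEnd ℂ) (γ j y) * γ j y')) := by
    intro y y'
    rw [map_sum, Finset.sum_mul_sum]
    refine Finset.sum_congr rfl fun i _ => Finset.sum_congr rfl fun j _ => ?_
    rw [map_mul, map_mul, Complex.conj_conj, Complex.conj_ofReal]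
  simp only [h3]
  have h4 : ∀ i j, (l i : ℂ) * (l j : ℂ) * (‖∑ y, (starRingEnd ℂ) (β i y) * γ j y‖ : ℂ) ^ 2 =
      ∑ y, ∑ y', ((l i : ℂ) * (β i y * (starRingEnd ℂ) (β i y'))) *
        ((l j : ℂ) * ((starRingEnd ℂ) (γ j y) * γ j y')) := by
    intro i j
    rw [← h1 i j]
    push_cast
    ring
  simp only [h4]
  calc ∑ y, ∑ y', ∑ i, ∑ j, ((l i : ℂ) * (β i y * (starRingEnd ℂ) (β i y'))) *
        ((l j : ℂ) * ((starRingEnd ℂ) (γ j y) * γ j y'))
      = ∑ y, ∑ i, ∑ y', ∑ j, ((l i : ℂ) * (β i y * (starRingEnd ℂ) (β i y'))) *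
        ((l j : ℂ) * ((starRingEnd ℂ) (γ j y) * γ j y')) :=
        Finset.sum_congr rfl fun y _ => Finset.sum_comm
    _ = ∑ y, ∑ i, ∑ j, ∑ y', ((l i : ℂ) * (β i y * (starRingEnd ℂ) (β i y'))) *
        ((l j : ℂ) * ((starRingEnd ℂ) (γ j y) * γ j y')) :=
        Finset.sum_congr rfl fun y _ => Finset.sum_congr rfl fun i _ => Finset.sum_comm
    _ = ∑ i, ∑ y, ∑ j, ∑ y', ((l i : ℂ) * (β i y * (starRingEnd ℂ) (β i y'))) *
        ((l j : ℂ) * ((starRingEnd ℂ) (γ j y) * γ j y')) := Finset.sum_comm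
    _ = ∑ i, ∑ j, ∑ y, ∑ y', ((l i : ℂ) * (β i y * (starRingEnd ℂ) (β i y'))) *
        ((l j : ℂ) * ((starRingEnd ℂ) (γ j y) * γ j y')) :=
        Finset.sum_congr rfl fun i _ => Finset.sum_comm

omit [DecidableEq Y] in
/-- singular value decomposition in sum form: a unitary `U` and pairwise orthogonal `β i` with `T = U β` -/
theorem svd (T : Matrix (Fin m) Y ℂ) : ∃ (U : Matrix (Fin m) (Fin m) ℂ) (β : Matrix (Fin m) Y ℂ),
    U ∈ unitary (Matrix (Fin m) (Fin m) ℂ) ∧ T = U * β ∧ β = star U * T ∧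
      ∀ i j, i ≠ j → ∑ y, (starRingEnd ℂ) (β i y) * β j y = 0 := by
  have hA : (T * Tᴴ).IsHermitian := Matrix.isHermitian_mul_conjTranspose_self T
  set U : Matrix (Fin m) (Fin m) ℂ := (hA.eigenvectorUnitary).1 with hU
  have hUm : U ∈ unitary (Matrix (Fin m) (Fin m) ℂ) := hA.eigenvectorUnitary.2
  have h1 : star U * U = 1 := Unitary.star_mul_self_of_mem hUm
  have h2 : U * star U = 1 := Unitary.mul_star_self_of_mem hUm
  refine ⟨U, star U * T, hUm, ?_, rfl, ?_⟩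
  · rw [← Matrix.mul_assoc, h2, Matrix.one_mul]
  · have h3 : star U * (T * Tᴴ) * U = diagonal (fun i => ((hA.eigenvalues i : ℝ) : ℂ)) := by
      conv_lhs => rw [hA.spectral_theorem]
      rw [Unitary.conjStarAlgAut_apply]
      have h4 : star U * (U * diagonal (RCLike.ofReal ∘ hA.eigenvalues) * star U) * U =
          (star U * U) * diagonal (RCLike.ofReal ∘ hA.eigenvalues) * (star U * U) := by
        simp only [Matrix.mul_assoc]
      change star U * (U * diagonal (RCLike.ofReal ∘ hA.eigenvalues) * star U) * U = _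
      rw [h4, h1, Matrix.one_mul, Matrix.mul_one]
      rfl
    have h5 : (star U * T) * (star U * T)ᴴ = diagonal (fun i => ((hA.eigenvalues i : ℝ) : ℂ)) := by
      rw [← h3, Matrix.conjTranspose_mul, Matrix.star_eq_conjTranspose,
        Matrix.conjTranspose_conjTranspose]
      simp only [Matrix.mul_assoc]
    intro i j hij
    have h6 := congrFun (congrFun h5 j) i
    rw [Matrix.diagonal_apply_ne _ (Ne.symm hij), Matrix.mul_apply] at h6
    rw [← h6]
    refine Finset.sum_congr rfl fun y _ => ?_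
    rw [Matrix.conjTranspose_apply, mul_comm]
    rfl

omit [DecidableEq Y] in
/-- the trace form in the new coordinates -/
theorem trace_form (T : Matrix (Fin m) Y ℂ) (U : Matrix (Fin m) (Fin m) ℂ)
    (β : Matrix (Fin m) Y ℂ) (hT : T = U * β) (t : Matrix (Fin m) (Fin m) ℂ)
    (σ : Equiv.Perm Y) :
    ∑ μ, ∑ y, (starRingEnd ℂ) (T μ y) * ∑ ν, t μ ν * T ν (σ.symm y) =
      ∑ i, ∑ j, (star U * t * U) i j * ∑ y, (starRingEnd ℂ) (β i y) * β j (σ.symm y) := by
  set S : Matrix (Fin m) Y ℂ := Matrix.of fun μ y => T μ (σ.symm y) with hS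
  set βσ : Matrix (Fin m) Y ℂ := Matrix.of fun μ y => β μ (σ.symm y) with hβσ
  have h1 : S = U * βσ := by
    ext μ y
    rw [hS, Matrix.of_apply, hT, Matrix.mul_apply, Matrix.mul_apply]
    rfl
  have h2 : ∑ μ, ∑ y, (starRingEnd ℂ) (T μ y) * ∑ ν, t μ ν * T ν (σ.symm y) =
      Matrix.trace (Tᴴ * (t * S)) := by
    rw [Finset.sum_comm, Matrix.trace]
    refine Finset.sum_congr rfl fun y _ => ?_
    rw [Matrix.diag_apply, Matrix.mul_apply]
    refine Finset.sum_congr rfl fun μ _ => ?_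
    rw [Matrix.conjTranspose_apply, Matrix.mul_apply]
    rfl
  have h3 : Tᴴ * (t * S) = βᴴ * ((star U * t * U) * βσ) := by
    rw [h1, hT, Matrix.conjTranspose_mul, Matrix.star_eq_conjTranspose]
    simp only [Matrix.mul_assoc]
  rw [h2, h3, Matrix.trace]
  have h4 : ∀ y, (βᴴ * ((star U * t * U) * βσ)).diag y =
      ∑ i, ∑ j, (star U * t * U) i j * ((starRingEnd ℂ) (β i y) * β j (σ.symm y)) := by
    intro y
    rw [Matrix.diag_apply, Matrix.mul_apply]
    refine Finset.sum_congr rfl fun i _ => ?_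
    rw [Matrix.conjTranspose_apply, Matrix.mul_apply, Finset.mul_sum]
    refine Finset.sum_congr rfl fun j _ => ?_
    rw [hβσ, Matrix.of_apply]
    change (starRingEnd ℂ) (β i y) * _ = _
    ring
  simp only [h4]
  rw [Finset.sum_comm]
  refine Finset.sum_congr rfl fun i _ => ?_
  rw [Finset.sum_comm]
  refine Finset.sum_congr rfl fun j _ => ?_
  rw [Finset.mul_sum]

end Haag

open Haag in
theorem haagerup {m : ℕ} {Y : Type*} [Fintype Y] [DecidableEq Y] (T : Matrix (Fin m) Y ℂ)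
    (hT : ∑ μ, ∑ y, ‖T μ y‖ ^ 2 = 1) :
    ∃ h : Matrix Y Y ℂ, h.PosSemidef ∧ (∑ y, ∑ y', ‖h y y'‖ ^ 2 = 1) ∧
      h.trace.re ≤ √m ∧
      (∀ (t : Matrix (Fin m) (Fin m) ℂ) (C : ℝ), 0 ≤ C →
        (∀ x : EuclideanSpace ℂ (Fin m), ‖Matrix.toEuclideanLin t x‖ ≤ C * ‖x‖) →
        ∀ σ : Equiv.Perm Y,
          ‖∑ μ, ∑ y, (starRingEnd ℂ) (T μ y) * ∑ ν, t μ ν * T ν (σ.symm y)‖ ^ 2
            ≤ C ^ 2 * (∑ y, ∑ y', (starRingEnd ℂ) (h y y') * h (σ.symm y) (σ.symm y')).re) ∧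
      (∀ (f : Equiv.Perm Y) (z : ℂ), (∀ μ y, T μ (f y) = z * T μ y) →
        ∀ y y', h y (f y') = z * h y y') := by
  obtain ⟨U, β, hU, hTU, hβ, horth⟩ := svd T
  set l : Fin m → ℝ := fun i => √(∑ y, ‖β i y‖ ^ 2) with hl
  have hl0 : ∀ i, 0 ≤ l i := fun i => Real.sqrt_nonneg _
  have hlsq : ∀ i, l i ^ 2 = ∑ y, ‖β i y‖ ^ 2 := fun i =>
    Real.sq_sqrt (Finset.sum_nonneg fun y _ => sq_nonneg _)
  have hself : ∀ i, ∑ y, (starRingEnd ℂ) (β i y) * β i y = ((l i ^ 2 : ℝ) : ℂ) := by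
    intro i
    rw [hlsq]
    push_cast
    exact Finset.sum_congr rfl fun y _ => Complex.conj_mul' _
  have hzero : ∀ i, l i = 0 → ∀ y, β i y = 0 := by
    intro i hi y
    have h1 := hlsq i
    rw [hi, zero_pow two_ne_zero] at h1
    have h2 := (Finset.sum_eq_zero_iff_of_nonneg fun y _ => sq_nonneg _).1 h1.symm y
      (Finset.mem_univ _)
    exact norm_eq_zero.1 (pow_eq_zero_iff two_ne_zero |>.1 h2)
  -- sum of the squares
  have hsum : ∑ i, l i ^ 2 = 1 := by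
    have h1 : (((∑ i, l i ^ 2 : ℝ)) : ℂ) = ((∑ μ, ∑ y, ‖T μ y‖ ^ 2 : ℝ) : ℂ) := by
      have h2 : ((∑ μ, ∑ y, ‖T μ y‖ ^ 2 : ℝ) : ℂ) =
          ∑ μ, ∑ y, (starRingEnd ℂ) (T μ y) * ∑ ν, (1 : Matrix (Fin m) (Fin m) ℂ) μ ν *
            T ν ((1 : Equiv.Perm Y).symm y) := by
        push_cast
        refine Finset.sum_congr rfl fun μ _ => Finset.sum_congr rfl fun y _ => ?_
        have h3 : ∑ ν, (1 : Matrix (Fin m) (Fin m) ℂ) μ ν * T ν ((1 : Equiv.Perm Y).symm y) =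
            T μ y := by
          rw [Finset.sum_eq_single μ]
          · rw [Matrix.one_apply_eq, one_mul]
            rfl
          · intro ν _ hν
            rw [Matrix.one_apply_ne (Ne.symm hν), zero_mul]
          · intro h
            exact absurd (Finset.mem_univ _) h
        rw [h3, Complex.conj_mul']
      rw [h2, trace_form T U β hTU 1 1, Matrix.mul_one, Unitary.star_mul_self_of_mem hU]
      push_cast
      refine Finset.sum_congr rfl fun i _ => ?_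
      rw [Finset.sum_eq_single i]
      · rw [Matrix.one_apply_eq, one_mul]
        have h4 := hself i
        push_cast at h4
        rw [← h4]
        rfl
      · intro ν _ hν
        rw [Matrix.one_apply_ne (Ne.symm hν), zero_mul]
      · intro h
        exact absurd (Finset.mem_univ _) h
    rw [hT] at h1
    exact_mod_cast h1
  set h : Matrix Y Y ℂ := Matrix.of fun y y' =>
    ∑ i, (((l i)⁻¹ : ℝ) : ℂ) * ((starRingEnd ℂ) (β i y) * β i y') with hh
  have hhap : ∀ y y', h y y' = ∑ i, (((l i)⁻¹ : ℝ) : ℂ) * ((starRingEnd ℂ) (β i y) * β i y') :=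
    fun y y' => rfl
  refine ⟨h, ?_, ?_, ?_, ?_, ?_⟩
  · -- positive semidefinite
    have h1 : h = ∑ i, (l i)⁻¹ • Matrix.vecMulVec (star (β i)) (star (star (β i))) := by
      ext y y'
      rw [hhap, Matrix.sum_apply]
      refine Finset.sum_congr rfl fun i _ => ?_
      rw [Matrix.smul_apply, Matrix.vecMulVec_apply, star_star, Complex.real_smul]
      rfl
    rw [h1]
    refine Matrix.posSemidef_sum _ fun i _ => ?_
    exact (Matrix.posSemidef_vecMulVec_self_star _).smul (inv_nonneg.2 (hl0 i))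
  · -- norm
    have h1 : ((∑ y, ∑ y', ‖h y y'‖ ^ 2 : ℝ) : ℂ) = 1 := by
      have h2 : ((∑ y, ∑ y', ‖h y y'‖ ^ 2 : ℝ) : ℂ) =
          ∑ y, ∑ y', (starRingEnd ℂ) (h y y') * h y y' := by
        push_cast
        refine Finset.sum_congr rfl fun y _ => Finset.sum_congr rfl fun y' _ => ?_
        rw [Complex.conj_mul']
      rw [h2]
      simp only [hhap]
      rw [hform β β fun i => (l i)⁻¹]
      have h3 : ∑ i, ∑ j, (l i)⁻¹ * (l j)⁻¹ * ‖∑ y, (starRingEnd ℂ) (β i y) * β j y‖ ^ 2 = 1 := by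
        rw [← hsum]
        refine Finset.sum_congr rfl fun i _ => ?_
        rw [Finset.sum_eq_single i]
        · rw [hself, Complex.norm_real, Real.norm_eq_abs, sq_abs]
          rcases eq_or_ne (l i) 0 with h4 | h4
          · rw [h4]
            simp
          · field_simp
        · intro j _ hj
          rw [horth i j (Ne.symm hj), norm_zero]
          simp
        · intro h
          exact absurd (Finset.mem_univ _) h
      rw [h3, Complex.ofReal_one]
    exact_mod_cast h1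
  · -- trace
    have h1 : h.trace = ((∑ i, l i : ℝ) : ℂ) := by
      rw [Matrix.trace]
      have h2 : ∀ y, h.diag y = ∑ i, (((l i)⁻¹ : ℝ) : ℂ) * ((starRingEnd ℂ) (β i y) * β i y) :=
        fun y => rfl
      simp only [h2]
      rw [Finset.sum_comm]
      push_cast
      refine Finset.sum_congr rfl fun i _ => ?_
      rw [← Finset.mul_sum, hself]
      rcases eq_or_ne (l i) 0 with h4 | h4
      · rw [h4]
        simp
      · have h5 : (l i : ℂ) ≠ 0 := by exact_mod_cast h4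
        push_cast
        field_simp
    rw [h1, Complex.ofReal_re]
    refine Real.le_sqrt_of_sq_le ?_
    have h2 := sq_sum_le_card_mul_sum_sq (s := (Finset.univ : Finset (Fin m))) (f := l)
    rw [hsum, mul_one, Finset.card_univ, Fintype.card_fin] at h2
    exact h2
  · -- the main inequality
    intro t C hC0 hC σ
    have hnorm := opnorm_le t hC0 hC
    have hnorm' := conj_norm t U hnorm hU
    rw [trace_form T U β hTU t σ]
    set t' := star U * t * U with ht'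
    set B : Fin m → Fin m → ℂ := fun i j => ∑ y, (starRingEnd ℂ) (β i y) * β j (σ.symm y) with hB
    have hform' : (∑ y, ∑ y', (starRingEnd ℂ) (h y y') * h (σ.symm y) (σ.symm y')) =
        ((∑ i, ∑ j, (l i)⁻¹ * (l j)⁻¹ * ‖B i j‖ ^ 2 : ℝ) : ℂ) := by
      have := hform β (fun j y => β j (σ.symm y)) fun i => (l i)⁻¹
      rw [← this]
      rfl
    rw [hform', Complex.ofReal_re]
    have h1 : ‖∑ i, ∑ j, t' i j * B i j‖ ≤ ∑ p : Fin m × Fin m, ‖t' p.1 p.2‖ * ‖B p.1 p.2‖ := by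
      rw [← Fintype.sum_prod_type' (f := fun i j => t' i j * B i j)]
      refine (norm_sum_le _ _).trans ?_
      refine Finset.sum_le_sum fun p _ => ?_
      rw [norm_mul]
    have h2 : (∑ p : Fin m × Fin m, ‖t' p.1 p.2‖ * ‖B p.1 p.2‖) ^ 2 ≤
        (∑ p : Fin m × Fin m, l p.1 * l p.2 * ‖t' p.1 p.2‖ ^ 2) *
          (∑ p : Fin m × Fin m, (l p.1)⁻¹ * (l p.2)⁻¹ * ‖B p.1 p.2‖ ^ 2) := by
      refine Finset.sum_sq_le_sum_mul_sum_of_sq_le_mul _ ?_ ?_ ?_
      · intro p _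
        exact mul_nonneg (mul_nonneg (hl0 _) (hl0 _)) (sq_nonneg _)
      · intro p _
        exact mul_nonneg (mul_nonneg (inv_nonneg.2 (hl0 _)) (inv_nonneg.2 (hl0 _))) (sq_nonneg _)
      · intro p _
        refine le_of_eq ?_
        rcases eq_or_ne (l p.1) 0 with h4 | h4
        · have h5 : B p.1 p.2 = 0 := by
            refine Finset.sum_eq_zero fun y _ => ?_
            rw [hzero _ h4, map_zero, zero_mul]
          rw [h5, norm_zero]
          ring
        · rcases eq_or_ne (l p.2) 0 with h6 | h6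
          · have h5 : B p.1 p.2 = 0 := by
              refine Finset.sum_eq_zero fun y _ => ?_
              rw [hzero _ h6, mul_zero]
            rw [h5, norm_zero]
            ring
          · field_simp
    have h3 : ∑ p : Fin m × Fin m, l p.1 * l p.2 * ‖t' p.1 p.2‖ ^ 2 ≤ C ^ 2 := by
      rw [Fintype.sum_prod_type]
      exact hs_bound t' hnorm' l hsum
    have h4 : ∑ p : Fin m × Fin m, (l p.1)⁻¹ * (l p.2)⁻¹ * ‖B p.1 p.2‖ ^ 2 =
        ∑ i, ∑ j, (l i)⁻¹ * (l j)⁻¹ * ‖B i j‖ ^ 2 := Fintype.sum_prod_type _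
    rw [← h4]
    calc ‖∑ i, ∑ j, t' i j * B i j‖ ^ 2
        ≤ (∑ p : Fin m × Fin m, ‖t' p.1 p.2‖ * ‖B p.1 p.2‖) ^ 2 :=
          pow_le_pow_left₀ (norm_nonneg _) h1 2
      _ ≤ _ := h2
      _ ≤ _ := by
          refine mul_le_mul_of_nonneg_right h3 (Finset.sum_nonneg fun p _ => ?_)
          exact mul_nonneg (mul_nonneg (inv_nonneg.2 (hl0 _)) (inv_nonneg.2 (hl0 _))) (sq_nonneg _)
  · -- equivariance
    intro f z hf y y'
    rw [hhap, hhap, Finset.mul_sum]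
    refine Finset.sum_congr rfl fun i _ => ?_
    have h1 : β i (f y') = z * β i y' := by
      rw [hβ, Matrix.mul_apply, Matrix.mul_apply, Finset.mul_sum]
      refine Finset.sum_congr rfl fun μ _ => ?_
      rw [hf]
      ring
    rw [h1]
    ring

end Vale.Agent.P083
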