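import Vale.Agent.Lib.P083.Defs2

/-!
# P083: the group generated by the generators contains translations and transvections (5c)
-/

namespace Vale.Agent.P083

namespace GroupGen

variable {k : ℕ}

/-- shift of a coordinate function -/
def sft (j : ℕ) (f : Fin k → F) (i : Fin k) : F :=
  if j ≤ (i : ℕ) then f ⟨(i : ℕ) - j, lt_of_le_of_lt (Nat.sub_le _ _) i.isLt⟩ else 0

theorem sft_add (j : ℕ) (f g : Fin k → F) (i : Fin k) :
    sft j (fun i' => f i' + g i') i = sft j f i + sft j g i := by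
  unfold sft
  split_ifs <;> simp

theorem sft_zero (j : ℕ) (i : Fin k) : sft j (fun _ : Fin k => (0 : F)) i = 0 := by
  unfold sft
  split_ifs <;> rfl

theorem sft_sft (a : ℕ) (j : ℕ) (c : F) (f : Fin k → F) (i : Fin k) :
    sft a (fun i' => c * sft j f i') i = c * sft (a + j) f i := by
  unfold sft
  by_cases h1 : a ≤ (i : ℕ)
  · by_cases h2 : j ≤ (i : ℕ) - a
    · have h3 : a + j ≤ (i : ℕ) := by omega
      rw [if_pos h1, if_pos h3]
      have e : (⟨(⟨(i : ℕ) - a, lt_of_le_of_lt (Nat.sub_le _ _) i.isLt⟩ : Fin k) - j,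
          lt_of_le_of_lt (Nat.sub_le _ _)
            (⟨(i : ℕ) - a, lt_of_le_of_lt (Nat.sub_le _ _) i.isLt⟩ : Fin k).isLt⟩ : Fin k) =
          ⟨(i : ℕ) - (a + j), lt_of_le_of_lt (Nat.sub_le _ _) i.isLt⟩ := by
        apply Fin.ext
        change (i : ℕ) - a - j = (i : ℕ) - (a + j)
        omega
      rw [← e]
      exact congrArg (fun t => c * t) (if_pos h2)
    · have h3 : ¬ (a + j ≤ (i : ℕ)) := by omega
      rw [if_pos h1, if_neg h3]
      exact congrArg (fun t => c * t) (if_neg h2)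
  · have h3 : ¬ (a + j ≤ (i : ℕ)) := by omega
    rw [if_neg h1, if_neg h3, mul_zero]

/-- the map `c t^j E_ab` -/
def tvd (a b : Fin 3) (c : F) (j : ℕ) : W k →+ W k where
  toFun w := fun i r => if r = a then c * sft j (fun i' => w i' b) i else 0
  map_zero' := by
    funext i r
    have h : sft j (fun i' : Fin k => (0 : W k) i' b) i = 0 := sft_zero j i
    rw [h, mul_zero, ite_self]
    rfl
  map_add' v w := by
    funext i r
    have h : sft j (fun i' : Fin k => (v + w) i' b) i =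
        sft j (fun i' => v i' b) i + sft j (fun i' => w i' b) i := sft_add j _ _ i
    rw [h]
    change _ = (if r = a then c * sft j (fun i' => v i' b) i else 0) +
      (if r = a then c * sft j (fun i' => w i' b) i else 0)
    split_ifs <;> ring

theorem tvd_apply (a b : Fin 3) (c : F) (j : ℕ) (w : W k) (i : Fin k) (r : Fin 3) :
    tvd a b c j w i r = if r = a then c * sft j (fun i' => w i' b) i else 0 := rfl

theorem tvd_kill {a b a' b' : Fin 3} (h : b ≠ a') (c c' : F) (j j' : ℕ) (w : W k) :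
    tvd a b c j (tvd a' b' c' j' w) = 0 := by
  funext i r
  rw [tvd_apply]
  have h1 : (fun i' : Fin k => tvd a' b' c' j' w i' b) = fun _ => 0 := by
    funext i'
    rw [tvd_apply, if_neg h]
  rw [h1, sft_zero, mul_zero, ite_self]
  rfl

theorem tvd_comp (a b d : Fin 3) (c c' : F) (i j : ℕ) (w : W k) :
    tvd a b c i (tvd b d c' j w) = tvd a d (c * c') (i + j) w := by
  funext n r
  rw [tvd_apply, tvd_apply]
  have h1 : (fun i' : Fin k => tvd b d c' j w i' b) =
      fun i' => c' * sft j (fun i'' => w i'' d) i' := by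
    funext i'
    rw [tvd_apply, if_pos rfl]
  rw [h1, sft_sft]
  split_ifs <;> ring

/-- `1 + c t^j E_ab` is in the group -/
def R (N : Subgroup (Equiv.Perm (W k))) (a b : Fin 3) (c : F) (j : ℕ) : Prop :=
  ∃ σ ∈ N, ∀ w, σ w = w + tvd a b c j w

theorem inv_of {σ : Equiv.Perm (W k)} {a b : Fin 3} {c : F} {j : ℕ} (hab : a ≠ b)
    (h : ∀ w, σ w = w + tvd a b c j w) (w : W k) : σ⁻¹ w = w - tvd a b c j w := by
  apply σ.injective
  have e : σ (σ⁻¹ w) = w := σ.apply_symm_apply w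
  rw [e, h, map_sub, tvd_kill (Ne.symm hab)]
  abel

theorem comm {N : Subgroup (Equiv.Perm (W k))} {a b d : Fin 3} {c c' : F} {i j : ℕ}
    (hab : a ≠ b) (hbd : b ≠ d) (had : a ≠ d) (h1 : R N a b c i) (h2 : R N b d c' j) :
    R N a d (c * c') (i + j) := by
  obtain ⟨σ, hσ, h1⟩ := h1
  obtain ⟨τ, hτ, h2⟩ := h2
  refine ⟨σ * τ * σ⁻¹ * τ⁻¹, N.mul_mem (N.mul_mem (N.mul_mem hσ hτ) (N.inv_mem hσ))
    (N.inv_mem hτ), fun w => ?_⟩
  have e : (σ * τ * σ⁻¹ * τ⁻¹) w = σ (τ (σ⁻¹ (τ⁻¹ w))) := rfl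
  rw [e, inv_of hbd h2, inv_of hab h1, h2, h1]
  have k4 : ∀ v : W k, tvd b d c' j (tvd a b c i v) = 0 := fun v => tvd_kill (Ne.symm had) _ _ _ _ _
  have k5 : ∀ v : W k, tvd a b c i (tvd a b c i v) = 0 := fun v => tvd_kill (Ne.symm hab) _ _ _ _ _
  have k6 : ∀ v : W k, tvd b d c' j (tvd b d c' j v) = 0 := fun v => tvd_kill (Ne.symm hbd) _ _ _ _ _
  have k7 : ∀ v : W k, tvd a b c i (tvd a d (c * c') (i + j) v) = 0 :=
    fun v => tvd_kill (Ne.symm hab) _ _ _ _ _
  have k8 : ∀ v : W k, tvd b d c' j (tvd a d (c * c') (i + j) v) = 0 :=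
    fun v => tvd_kill (Ne.symm had) _ _ _ _ _
  simp only [map_sub, map_add, k4, k5, k6, k7, k8, tvd_comp, sub_zero]
  abel

/-- translations in the group -/
def T (N : Subgroup (Equiv.Perm (W k))) : AddSubgroup (W k) where
  carrier := {v | Equiv.addRight v ∈ N}
  add_mem' := by
    intro u v hu hv
    have e : (Equiv.addRight (u + v) : Equiv.Perm (W k)) = Equiv.addRight v * Equiv.addRight u := by
      refine Equiv.ext fun w => ?_
      change w + (u + v) = w + u + v
      abel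
    change Equiv.addRight (u + v) ∈ N
    rw [e]
    exact N.mul_mem hv hu
  zero_mem' := by
    have e : (Equiv.addRight (0 : W k) : Equiv.Perm (W k)) = 1 := by
      refine Equiv.ext fun w => ?_
      change w + 0 = w
      exact add_zero w
    change Equiv.addRight (0 : W k) ∈ N
    rw [e]
    exact N.one_mem
  neg_mem' := by
    intro u hu
    have e : (Equiv.addRight (-u) : Equiv.Perm (W k)) = (Equiv.addRight u)⁻¹ := by
      refine Equiv.ext fun w => ?_
      apply (Equiv.addRight u).injective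
      have e1 : (Equiv.addRight u : Equiv.Perm (W k)) ((Equiv.addRight u)⁻¹ w) = w :=
        (Equiv.addRight u).apply_symm_apply w
      rw [e1]
      change w + -u + u = w
      abel
    change Equiv.addRight (-u) ∈ N
    rw [e]
    exact N.inv_mem hu

theorem T_tvd {N : Subgroup (Equiv.Perm (W k))} {a b : Fin 3} {c : F} {j : ℕ} (h : R N a b c j)
    {v : W k} (hv : v ∈ T N) : tvd a b c j v ∈ T N := by
  obtain ⟨σ, hσ, h⟩ := h
  have e : (Equiv.addRight (v + tvd a b c j v) : Equiv.Perm (W k)) =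
      σ * Equiv.addRight v * σ⁻¹ := by
    refine Equiv.ext fun w => ?_
    have e1 : (σ * Equiv.addRight v * σ⁻¹) w = σ (σ⁻¹ w + v) := rfl
    have e2 : σ (σ⁻¹ w) = w := σ.apply_symm_apply w
    have e3 : σ (σ⁻¹ w + v) = σ (σ⁻¹ w) + σ v := by
      rw [h, h, h, map_add]
      abel
    rw [e1, e3, e2, h]
    rfl
  have h1 : v + tvd a b c j v ∈ T N := by
    change Equiv.addRight (v + tvd a b c j v) ∈ N
    rw [e]
    exact N.mul_mem (N.mul_mem hσ hv) (N.inv_mem hσ)
  have h2 := (T N).sub_mem h1 hv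
  rwa [add_sub_cancel_left] at h2

/-- elementary vector -/
def elv (i : ℕ) (r : Fin 3) (s : F) : W k := fun i' r' => if (i' : ℕ) = i ∧ r' = r then s else 0

theorem elv_apply (i : ℕ) (r : Fin 3) (s : F) (i' : Fin k) (r' : Fin 3) :
    elv i r s i' r' = if (i' : ℕ) = i ∧ r' = r then s else 0 := rfl

theorem tvd_elv (a b : Fin 3) (c : F) (j i : ℕ) (s : F) :
    tvd a b c j (elv i b s : W k) = elv (i + j) a (c * s) := by
  funext n r
  rw [tvd_apply, elv_apply]
  by_cases hr : r = a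
  · rw [if_pos hr]
    unfold sft
    by_cases h1 : j ≤ (n : ℕ)
    · rw [if_pos h1]
      change c * elv i b s ⟨(n : ℕ) - j, lt_of_le_of_lt (Nat.sub_le _ _) n.isLt⟩ b = _
      rw [elv_apply]
      by_cases h2 : (n : ℕ) = i + j
      · have h4 : (n : ℕ) = i + j ∧ r = a := ⟨h2, hr⟩
        have h3 : ((⟨(n : ℕ) - j, lt_of_le_of_lt (Nat.sub_le _ _) n.isLt⟩ : Fin k) : ℕ) = i ∧
            b = b := by
          refine ⟨?_, rfl⟩
          change (n : ℕ) - j = i
          omega
        rw [if_pos h4, if_pos h3]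
      · have h4 : ¬ ((n : ℕ) = i + j ∧ r = a) := fun h => h2 h.1
        rw [if_neg h4]
        have h3 : ¬ (((⟨(n : ℕ) - j, lt_of_le_of_lt (Nat.sub_le _ _) n.isLt⟩ : Fin k) : ℕ) = i ∧
            b = b) := by
          intro h
          have h5 : (n : ℕ) - j = i := h.1
          omega
        rw [if_neg h3, mul_zero]
    · have h4 : ¬ ((n : ℕ) = i + j ∧ r = a) := by
        intro h
        have := h.1
        omega
      rw [if_neg h1, mul_zero, if_neg h4]
  · have h4 : ¬ ((n : ℕ) = i + j ∧ r = a) := fun h => hr h.2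
    rw [if_neg hr, if_neg h4]

variable {Z : PermSys (W k)}

theorem R_x (hZ : IsStd Z) {N : Subgroup (Equiv.Perm (W k))} (hN : ∀ i s, Z.P i s ∈ N) (s : F) :
    R N 0 1 s 0 := by
  refine ⟨Z.P 0 s, hN 0 s, fun w => ?_⟩
  rw [hZ.P]
  funext i r
  change _ = w i r + tvd 0 1 s 0 w i r
  rw [tvd_apply]
  fin_cases r <;>
    simp [Tri.onW, gen, sft, dotProduct, Fin.sum_univ_three]

theorem R_y (hZ : IsStd Z) {N : Subgroup (Equiv.Perm (W k))} (hN : ∀ i s, Z.P i s ∈ N) (s : F) :
    R N 1 2 s 0 := by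
  refine ⟨Z.P 1 s, hN 1 s, fun w => ?_⟩
  rw [hZ.P]
  funext i r
  change _ = w i r + tvd 1 2 s 0 w i r
  rw [tvd_apply]
  fin_cases r <;>
    simp [Tri.onW, gen, sft, dotProduct, Fin.sum_univ_three]

theorem R_z (hZ : IsStd Z) {N : Subgroup (Equiv.Perm (W k))} (hN : ∀ i s, Z.P i s ∈ N) (s : F) :
    R N 2 0 s 1 := by
  refine ⟨Z.P 2 s, hN 2 s, fun w => ?_⟩
  rw [hZ.P]
  funext i r
  change _ = w i r + tvd 2 0 s 1 w i r
  rw [tvd_apply]
  by_cases hi : (i : ℕ) = 0
  · have h1 : ¬ (1 ≤ (i : ℕ)) := by omega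
    fin_cases r <;>
      simp [Tri.onW, gen, sft, hi]
  · have h1 : 1 ≤ (i : ℕ) := by omega
    fin_cases r <;>
      simp [Tri.onW, gen, sft, dotProduct, Fin.sum_univ_three, hi, h1]

theorem R_e12 (hZ : IsStd Z) {N : Subgroup (Equiv.Perm (W k))} (hN : ∀ i s, Z.P i s ∈ N)
    (j : ℕ) (c : F) : R N 0 1 c j := by
  induction j generalizing c with
  | zero => exact R_x hZ hN c
  | succ j ih =>
    have h1 : R N 0 2 (c * 1) (j + 0) :=
      comm (by decide) (by decide) (by decide) (ih c) (R_y hZ hN 1)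
    have h2 : R N 2 1 (1 * 1) (1 + 0) :=
      comm (by decide) (by decide) (by decide) (R_z hZ hN 1) (R_x hZ hN 1)
    have h3 : R N 0 1 (c * 1 * (1 * 1)) (j + 0 + (1 + 0)) :=
      comm (by decide) (by decide) (by decide) h1 h2
    rwa [mul_one, mul_one, mul_one, add_zero, add_zero] at h3

theorem elv_mem (hZ : IsStd Z) {N : Subgroup (Equiv.Perm (W k))} (hN : ∀ i s, Z.P i s ∈ N)
    (i : ℕ) (s : F) :
    (elv i 2 s : W k) ∈ T N ∧ (elv i 1 s : W k) ∈ T N ∧ (elv i 0 s : W k) ∈ T N := by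
  have step : ∀ i, (elv i 2 s : W k) ∈ T N →
      (elv i 2 s : W k) ∈ T N ∧ (elv i 1 s : W k) ∈ T N ∧ (elv i 0 s : W k) ∈ T N := by
    intro i h
    have h1 := T_tvd (R_y hZ hN 1) h
    rw [tvd_elv, one_mul, add_zero] at h1
    have h2 := T_tvd (R_x hZ hN 1) h1
    rw [tvd_elv, one_mul, add_zero] at h2
    exact ⟨h, h1, h2⟩
  induction i with
  | zero =>
    apply step
    have e : (Equiv.addRight (elv 0 2 s : W k) : Equiv.Perm (W k)) = Z.P 3 s := by
      refine Equiv.ext fun w => ?_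
      rw [hZ.P]
      funext i r
      change w i r + elv 0 2 s i r = _
      by_cases hi : (i : ℕ) = 0
      · fin_cases r <;> simp [Tri.onW, gen, elv, hi]
      · fin_cases r <;> simp [Tri.onW, gen, elv, hi]
    change Equiv.addRight (elv 0 2 s : W k) ∈ N
    rw [e]
    exact hN 3 s
  | succ i ih =>
    apply step
    have h := T_tvd (R_z hZ hN 1) ih.2.2
    rwa [tvd_elv, one_mul] at h

theorem sum_elv (v : W k) : v = ∑ i : Fin k, ∑ r : Fin 3, (elv (i : ℕ) r (v i r) : W k) := by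
  funext n r
  rw [Finset.sum_apply, Finset.sum_apply]
  rw [Finset.sum_eq_single n]
  · rw [Finset.sum_apply, Finset.sum_apply, Finset.sum_eq_single r]
    · unfold elv
      rw [if_pos ⟨rfl, rfl⟩]
    · intro b _ hb
      unfold elv
      rw [if_neg (fun h => hb h.2.symm)]
    · intro h
      exact absurd (Finset.mem_univ r) h
  · intro b _ hb
    rw [Finset.sum_apply, Finset.sum_apply]
    refine Finset.sum_eq_zero fun r' _ => ?_
    unfold elv
    rw [if_neg (fun h => hb (Fin.ext h.1.symm))]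
  · intro h
    exact absurd (Finset.mem_univ n) h

end GroupGen

open GroupGen

theorem gen_trans {k : ℕ} {Z : PermSys (W k)} (hZ : IsStd Z) (N : Subgroup (Equiv.Perm (W k)))
    (hN : ∀ i s, Z.P i s ∈ N) (v : W k) : Equiv.addRight v ∈ N := by
  have h : v ∈ T N := by
    rw [sum_elv v]
    refine (T N).sum_mem fun i _ => (T N).sum_mem fun r _ => ?_
    have h := elv_mem hZ hN (i : ℕ) (v i r)
    fin_cases r
    · exact h.2.2
    · exact h.2.1
    · exact h.1
  exact h

theorem gen_e12 {k : ℕ} {Z : PermSys (W k)} (hZ : IsStd Z) (N : Subgroup (Equiv.Perm (W k)))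
    (hN : ∀ i s, Z.P i s ∈ N) (c : F) (j : ℕ) :
    ∃ σ ∈ N, ∀ (w : W k) (i : Fin k), σ w i = w i + (if j ≤ (i : ℕ) then
      (c * w ⟨(i : ℕ) - j, lt_of_le_of_lt (Nat.sub_le _ _) i.isLt⟩ 1) • e1 else 0) := by
  obtain ⟨σ, hσ, h⟩ := R_e12 hZ hN j c
  refine ⟨σ, hσ, fun w i => ?_⟩
  rw [h]
  funext r
  change w i r + tvd 0 1 c j w i r = w i r + _
  rw [tvd_apply]
  unfold sft
  by_cases h1 : j ≤ (i : ℕ)
  · rw [if_pos h1, if_pos h1]
    fin_cases r <;> simp [e1]
  · rw [if_neg h1, if_neg h1]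
    simp

end Vale.Agent.P083
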