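import Mathlib
import Vale.Agent.Lib.P083.Defs2
import Vale.Agent.Lib.P083.GroupGen

/-!
# P083: the invariant kernel (PROOF 5c)
-/

namespace Vale.Agent.P083

open scoped BigOperators ComplexOrder

namespace InvK

/-- the subgroup of the permutations that preserve a kernel -/
def inv {Y : Type*} (h0 : Matrix Y Y ℂ) : Subgroup (Equiv.Perm Y) where
  carrier := {σ | ∀ w w', h0 (σ w) (σ w') = h0 w w'}
  mul_mem' := by
    intro a b ha hb w w'
    rw [Equiv.Perm.mul_apply, Equiv.Perm.mul_apply, ha, hb]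
  one_mem' := fun w w' => rfl
  inv_mem' := by
    intro a ha w w'
    have h1 : a (a⁻¹ w) = w := a.apply_symm_apply w
    have h2 : a (a⁻¹ w') = w' := a.apply_symm_apply w'
    have := ha (a⁻¹ w) (a⁻¹ w')
    rw [h1, h2] at this
    exact this.symm

theorem om_ne_one : om ≠ 1 := by
  intro h
  unfold om at h
  rw [Complex.exp_eq_one_iff] at h
  obtain ⟨n, hn⟩ := h
  have hpi : (2 * Real.pi * Complex.I : ℂ) ≠ 0 := Complex.two_pi_I_ne_zero
  have h1 : (1 : ℂ) = n * 37 := by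
    have h2 : (2 * Real.pi * Complex.I : ℂ) * 1 = (2 * Real.pi * Complex.I) * (n * 37) := by
      field_simp at hn
      linear_combination (2 * Real.pi * Complex.I : ℂ) * hn
    exact mul_left_cancel₀ hpi h2
  have h3 : (1 : ℤ) = n * 37 := by exact_mod_cast h1
  omega

theorem card_W (k : ℕ) : Fintype.card (W k) = (37 ^ 3) ^ k := by
  simp [ZMod.card]

theorem card_zero (k : ℕ) :
    (Finset.univ.filter (fun u : W k => ∀ i, u i 1 = 0)).card ≤ (37 ^ 2) ^ k := by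
  have h1 : (Finset.univ.filter (fun u : W k => ∀ i, u i 1 = 0)).card ≤
      (Finset.univ : Finset (Fin k → F × F)).card := by
    refine Finset.card_le_card_of_injOn (fun u i => (u i 0, u i 2)) (fun _ _ => Finset.mem_univ _) ?_
    intro u hu v hv h
    rw [Finset.mem_coe, Finset.mem_filter] at hu hv
    funext i
    have h2 := congrFun h i
    simp only [Prod.mk.injEq] at h2
    funext j
    fin_cases j
    · exact h2.1
    · exact (hu.2 i).trans (hv.2 i).symm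
    · exact h2.2
  refine h1.trans (le_of_eq ?_)
  rw [Finset.card_univ]
  simp [ZMod.card]

theorem vanish {k : ℕ} {Z : PermSys (W (k + 1))} (hZ : IsStd Z)
    (h0 : Matrix (W (k + 1)) (W (k + 1)) ℂ)
    (hinv : ∀ i s w w', h0 (Z.P i s w) (Z.P i s w') = h0 w w')
    (hV : ∀ w w', h0 w (w' + lastE1 k) = om * h0 w w') (u : W (k + 1))
    (hu : ∃ i, u i 1 ≠ 0) : h0 0 u = 0 := by
  classical
  obtain ⟨i0, hi0, hmin⟩ : ∃ i0 : Fin (k + 1), u i0 1 ≠ 0 ∧ ∀ i < i0, u i 1 = 0 := by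
    have hne : (Finset.univ.filter (fun i : Fin (k + 1) => u i 1 ≠ 0)).Nonempty := by
      obtain ⟨i, hi⟩ := hu
      exact ⟨i, Finset.mem_filter.2 ⟨Finset.mem_univ _, hi⟩⟩
    refine ⟨_, (Finset.mem_filter.1 (Finset.min'_mem _ hne)).2, fun i hi => ?_⟩
    by_contra h
    exact absurd (Finset.min'_le _ i (Finset.mem_filter.2 ⟨Finset.mem_univ _, h⟩)) (not_le.2 hi)
  obtain ⟨σ, hσN, hσ⟩ := gen_e12 hZ (inv h0) (fun i s => hinv i s) (u i0 1)⁻¹ (k - i0)
  have hi0k : (i0 : ℕ) ≤ k := Nat.lt_succ_iff.1 i0.isLt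
  have hσ0 : σ 0 = 0 := by
    funext i
    rw [hσ]
    simp
  have hσu : σ u = u + lastE1 k := by
    funext i
    rw [hσ]
    rw [Pi.add_apply]
    congr 1
    unfold lastE1
    by_cases hi : i = Fin.last k
    · subst hi
      rw [Pi.single_eq_same, if_pos (by rw [Fin.val_last]; omega)]
      have : (⟨((Fin.last k : Fin (k + 1)) : ℕ) - (k - i0), lt_of_le_of_lt (Nat.sub_le _ _)
          (Fin.last k).isLt⟩ : Fin (k + 1)) = i0 := by
        apply Fin.ext
        simp only [Fin.val_last]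
        omega
      rw [this, inv_mul_cancel₀ hi0, one_smul]
    · rw [Pi.single_eq_of_ne hi]
      split_ifs with hj
      · have hik : (i : ℕ) < k := by
          have h1 : (i : ℕ) ≠ k := fun h => hi (Fin.ext (by rw [Fin.val_last]; exact h))
          have h2 := i.isLt
          omega
        have hz := hmin ⟨(i : ℕ) - (k - i0), lt_of_le_of_lt (Nat.sub_le _ _) i.isLt⟩ (by
          rw [Fin.lt_def]
          show (i : ℕ) - (k - i0) < i0
          omega)
        rw [hz, mul_zero, zero_smul]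
      · rfl
  have h1 := hσN 0 u
  rw [hσ0, hσu, hV] at h1
  have h2 : (om - 1) * h0 0 u = 0 := by linear_combination h1
  rcases mul_eq_zero.1 h2 with h3 | h3
  · exact absurd (sub_eq_zero.1 h3) om_ne_one
  · exact h3

theorem minor {Y : Type*} [Fintype Y] [DecidableEq Y] {h : Matrix Y Y ℂ} (hp : h.PosSemidef)
    (x y : Y) (hxy : h y y = h x x) : ‖h x y‖ ^ 2 ≤ (h x x).re ^ 2 := by
  have h1 := (hp.submatrix ![x, y]).det_nonneg
  rw [Matrix.det_fin_two] at h1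
  simp only [Matrix.submatrix_apply, Matrix.cons_val_zero, Matrix.cons_val_one] at h1
  have h2 : h y x = star (h x y) := by
    have := hp.1
    exact (congrFun (congrFun this y) x).symm
  rw [h2, hxy] at h1
  have h3 := (Complex.le_def.1 h1).1
  rw [Complex.zero_re, Complex.sub_re, Complex.mul_re] at h3
  have h4 : (h x y * star (h x y)).re = ‖h x y‖ ^ 2 := by
    rw [Complex.star_def, Complex.mul_conj, Complex.ofReal_re, Complex.normSq_eq_norm_sq]
  rw [h4] at h3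
  nlinarith [mul_self_nonneg (h x x).im]

end InvK

theorem inv_kernel {k m : ℕ} {Z : PermSys (W (k + 1))} (hZ : IsStd Z)
    (h0 : Matrix (W (k + 1)) (W (k + 1)) ℂ) (hpos : h0.PosSemidef) (htr : h0.trace.re ≤ √m)
    (hinv : ∀ i s w w', h0 (Z.P i s w) (Z.P i s w') = h0 w w')
    (hV : ∀ w w', h0 w (w' + lastE1 k) = om * h0 w w') :
    ∑ w, ∑ w', ‖h0 w w'‖ ^ 2 ≤ m / 37 ^ (k + 1) := by
  classical
  have htrans : ∀ w w', h0 w w' = h0 0 (w' - w) := by
    intro w w'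
    have h1 : h0 (w + -w) (w' + -w) = h0 w w' :=
      gen_trans hZ (InvK.inv h0) (fun i s => hinv i s) (-w) w w'
    rw [add_neg_cancel, ← sub_eq_add_neg] at h1
    exact h1.symm
  have hdiag : ∀ w, h0 w w = h0 0 0 := fun w => by rw [htrans w w, sub_self]
  have hF0 : 0 ≤ (h0 0 0).re := (Complex.le_def.1 (hpos.diag_nonneg (i := 0))).1
  have hcardpos : (0 : ℝ) < (37 ^ 3 : ℝ) ^ (k + 1) := by positivity
  have htr' : ((37 ^ 3 : ℝ) ^ (k + 1)) * (h0 0 0).re ≤ √m := by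
    have h1 : h0.trace = Fintype.card (W (k + 1)) * h0 0 0 := by
      have h3 : h0.trace = ∑ _w : W (k + 1), h0 0 0 :=
        Finset.sum_congr rfl (fun w _ => hdiag w)
      rw [h3, Finset.sum_const, Finset.card_univ, nsmul_eq_mul]
    rw [h1, InvK.card_W] at htr
    have h2 : ((((37 ^ 3) ^ (k + 1) : ℕ) : ℂ) * h0 0 0).re = ((37 ^ 3 : ℝ) ^ (k + 1)) * (h0 0 0).re := by
      have : (((37 ^ 3) ^ (k + 1) : ℕ) : ℂ) = (((37 ^ 3 : ℝ) ^ (k + 1) : ℝ) : ℂ) := by push_cast; ring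
      rw [this, Complex.re_ofReal_mul]
    rwa [h2] at htr
  have hbd : ∀ u, ‖h0 0 u‖ ^ 2 ≤ (h0 0 0).re ^ 2 := fun u =>
    InvK.minor hpos 0 u (hdiag u)
  have hsum : ∀ w, ∑ w', ‖h0 w w'‖ ^ 2 = ∑ u, ‖h0 0 u‖ ^ 2 := by
    intro w
    rw [Finset.sum_congr rfl (fun w' _ => by rw [htrans w w'])]
    exact Fintype.sum_equiv (Equiv.subRight w) _ _ (fun w' => rfl)
  have hone : ∑ u, ‖h0 0 u‖ ^ 2 ≤ ((37 ^ 2 : ℝ) ^ (k + 1)) * (h0 0 0).re ^ 2 := by
    have h1 : ∑ u, ‖h0 0 u‖ ^ 2 =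
        ∑ u ∈ Finset.univ.filter (fun u : W (k + 1) => ∀ i, u i 1 = 0), ‖h0 0 u‖ ^ 2 := by
      symm
      refine Finset.sum_subset (Finset.filter_subset _ _) fun u _ hu => ?_
      rw [Finset.mem_filter] at hu
      push Not at hu
      rw [InvK.vanish hZ h0 hinv hV u (hu (Finset.mem_univ _)), norm_zero]
      norm_num
    rw [h1]
    refine (Finset.sum_le_card_nsmul _ _ _ fun u _ => hbd u).trans ?_
    rw [nsmul_eq_mul]
    refine mul_le_mul_of_nonneg_right ?_ (sq_nonneg _)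
    have := InvK.card_zero (k + 1)
    exact_mod_cast this
  have hall : ∑ w, ∑ w', ‖h0 w w'‖ ^ 2 = ((37 ^ 3 : ℝ) ^ (k + 1)) * ∑ u, ‖h0 0 u‖ ^ 2 := by
    rw [Finset.sum_congr rfl (fun w _ => hsum w), Finset.sum_const, Finset.card_univ,
      nsmul_eq_mul, InvK.card_W]
    push_cast
    ring
  rw [hall]
  have hsq : (((37 ^ 3 : ℝ) ^ (k + 1)) * (h0 0 0).re) ^ 2 ≤ m := by
    have h1 := pow_le_pow_left₀ (mul_nonneg hcardpos.le hF0) htr' 2
    rwa [Real.sq_sqrt (Nat.cast_nonneg m)] at h1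
  have hpow : (37 ^ 3 : ℝ) ^ (k + 1) = (37 ^ 2 : ℝ) ^ (k + 1) * 37 ^ (k + 1) := by
    rw [← mul_pow]
    norm_num
  have h37 : (0 : ℝ) < 37 ^ (k + 1) := by positivity
  have h372 : (0 : ℝ) < (37 ^ 2) ^ (k + 1) := by positivity
  rw [le_div_iff₀ h37]
  calc (37 ^ 3 : ℝ) ^ (k + 1) * (∑ u, ‖h0 0 u‖ ^ 2) * 37 ^ (k + 1)
      ≤ (37 ^ 3 : ℝ) ^ (k + 1) * (((37 ^ 2 : ℝ) ^ (k + 1)) * (h0 0 0).re ^ 2) * 37 ^ (k + 1) := by
        gcongr
    _ = (37 ^ 3 : ℝ) ^ (k + 1) * ((37 ^ 2 : ℝ) ^ (k + 1) * 37 ^ (k + 1)) * (h0 0 0).re ^ 2 := by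
        ring
    _ = (((37 ^ 3 : ℝ) ^ (k + 1)) * (h0 0 0).re) ^ 2 := by
        rw [← hpow]
        ring
    _ ≤ m := hsq

end Vale.Agent.P083
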