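import Mathlib
import Vale.Agent.Lib.P083.Defs2
import Vale.Agent.Lib.P083.Gap

/-!
# P083: averaging over the group generated by the permutations (PROOF.md, 5b)
-/

namespace Vale.Agent.P083

open scoped BigOperators InnerProductSpace Topology ComplexOrder

namespace ProjAux

theorem perm_apply_inv {T : Type*} (x : Equiv.Perm T) (t : T) : x (x⁻¹ t) = t :=
  x.apply_symm_apply t

section Perm

variable {T : Type*} [Fintype T]

/-- permutation operator -/
noncomputable def R (σ : Equiv.Perm T) : EuclideanSpace ℂ T →L[ℂ] EuclideanSpace ℂ T :=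
  ((LinearIsometryEquiv.piLpCongrLeft 2 ℂ ℂ σ).toContinuousLinearEquiv :
    EuclideanSpace ℂ T →L[ℂ] EuclideanSpace ℂ T)

theorem R_apply (σ : Equiv.Perm T) (v : EuclideanSpace ℂ T) (t : T) : R σ v t = v (σ.symm t) :=
  rfl

theorem R_one : R (1 : Equiv.Perm T) = 1 := by
  ext v t
  rfl

theorem R_mul (σ τ : Equiv.Perm T) : R (σ * τ) = R σ * R τ := by
  ext v t
  rfl

theorem R_star (σ : Equiv.Perm T) : star (R σ) = R σ⁻¹ := by
  rw [ContinuousLinearMap.star_eq_adjoint]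
  symm
  rw [ContinuousLinearMap.eq_adjoint_iff]
  intro x y
  rw [PiLp.inner_apply, PiLp.inner_apply]
  rw [← Equiv.sum_comp σ (fun t => ⟪x t, R σ y t⟫_ℂ)]
  refine Finset.sum_congr rfl fun t _ => ?_
  rw [R_apply, R_apply, Equiv.symm_apply_apply]
  rfl

end Perm

/-- a self-adjoint operator with spectrum in `{0} ∪ [1/2, ∞)` -/
theorem diag_gap {K : Type*} [NormedAddCommGroup K] [InnerProductSpace ℂ K]
    [FiniteDimensional ℂ K] [CompleteSpace K] (A : K →L[ℂ] K) (hA : star A = A)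
    (hpos : ∀ v, 0 ≤ RCLike.re ⟪v, A v⟫_ℂ)
    (hgap : ∀ v, (1 / 2) * RCLike.re ⟪v, A v⟫_ℂ ≤ ‖A v‖ ^ 2) (v : K)
    (hv : ∀ w, A w = 0 → ⟪w, v⟫_ℂ = 0) : ‖v‖ ^ 2 ≤ 2 * RCLike.re ⟪v, A v⟫_ℂ := by
  have hT : (A : K →ₗ[ℂ] K).IsSymmetric := by
    intro x y
    have h1 : ContinuousLinearMap.adjoint A = A := by
      rw [← ContinuousLinearMap.star_eq_adjoint, hA]
    change ⟪A x, y⟫_ℂ = ⟪x, A y⟫_ℂ
    rw [← ContinuousLinearMap.adjoint_inner_right, h1]
  have hn : Module.finrank ℂ K = Module.finrank ℂ K := rfl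
  set b := hT.eigenvectorBasis hn with hb
  set μ := hT.eigenvalues hn with hμ
  have hAb : ∀ i, A (b i) = (μ i : ℂ) • b i := fun i => hT.apply_eigenvectorBasis hn i
  have hin : ∀ i, RCLike.re ⟪b i, A (b i)⟫_ℂ = μ i := by
    intro i
    rw [hAb, inner_smul_right, inner_self_eq_norm_sq_to_K, b.norm_eq_one]
    simp
  have hμ0 : ∀ i, 0 ≤ μ i := fun i => by
    rw [← hin i]
    exact hpos _
  have hμ1 : ∀ i, μ i = 0 ∨ 1 / 2 ≤ μ i := by
    intro i
    have h1 := hgap (b i)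
    rw [hin, hAb, norm_smul, b.norm_eq_one, mul_one] at h1
    have h2 : ‖((μ i : ℝ) : ℂ)‖ = μ i := by
      rw [Complex.norm_real, Real.norm_eq_abs, abs_of_nonneg (hμ0 i)]
    rw [h2] at h1
    by_contra hcon
    rw [not_or, not_le] at hcon
    have h3 : 0 < μ i := lt_of_le_of_ne (hμ0 i) (Ne.symm hcon.1)
    nlinarith [hcon.2]
  have hAv : RCLike.re ⟪v, A v⟫_ℂ = ∑ i, μ i * ‖⟪b i, v⟫_ℂ‖ ^ 2 := by
    rw [← b.sum_inner_mul_inner v (A v), map_sum]
    refine Finset.sum_congr rfl fun i _ => ?_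
    have h1 : ⟪b i, A v⟫_ℂ = (μ i : ℂ) * ⟪b i, v⟫_ℂ := by
      have h2 : ⟪b i, A v⟫_ℂ = ⟪A (b i), v⟫_ℂ := (hT (b i) v).symm
      rw [h2, hAb, inner_smul_left]
      simp
    rw [h1, ← inner_conj_symm v (b i)]
    have h2 : (starRingEnd ℂ) ⟪b i, v⟫_ℂ * ((μ i : ℂ) * ⟪b i, v⟫_ℂ) =
        ((μ i * ‖⟪b i, v⟫_ℂ‖ ^ 2 : ℝ) : ℂ) := by
      have h3 : (starRingEnd ℂ) ⟪b i, v⟫_ℂ * ⟪b i, v⟫_ℂ = ((‖⟪b i, v⟫_ℂ‖ ^ 2 : ℝ) : ℂ) := by
        rw [mul_comm, Complex.mul_conj, Complex.normSq_eq_norm_sq]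
      rw [Complex.ofReal_mul, ← h3]
      ring
    rw [h2]
    exact Complex.ofReal_re _
  rw [hAv, ← b.sum_sq_norm_inner_right v, Finset.mul_sum]
  refine Finset.sum_le_sum fun i _ => ?_
  rcases hμ1 i with h1 | h1
  · have h2 : ⟪b i, v⟫_ℂ = 0 := by
      apply hv
      rw [hAb, h1]
      simp
    rw [h2]
    simp
  · nlinarith [sq_nonneg ‖⟪b i, v⟫_ℂ‖]

section Main

variable {Y : Type*} [Fintype Y]

/-- diagonal action -/
def dg (σ : Equiv.Perm Y) : Equiv.Perm (Y × Y) := Equiv.prodCongr σ σ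

/-- the representations -/
noncomputable def uu (Z : PermSys Y) (e : Fin 6) (g : Heis) :
    EuclideanSpace ℂ (Y × Y) →L[ℂ] EuclideanSpace ℂ (Y × Y) := R (dg (Z.π e g))

/-- the generators -/
noncomputable def GG (Z : PermSys Y) (i : Fin 4) (s : F) :
    EuclideanSpace ℂ (Y × Y) →L[ℂ] EuclideanSpace ℂ (Y × Y) := R (dg (Z.P i s))

theorem GG_apply (Z : PermSys Y) (i : Fin 4) (s : F) (v : EuclideanSpace ℂ (Y × Y)) (q : Y × Y) :
    GG Z i s v q = v ((Z.P i s).symm q.1, (Z.P i s).symm q.2) := rfl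

omit [Fintype Y] in
theorem dg_one : dg (1 : Equiv.Perm Y) = 1 := rfl

omit [Fintype Y] in
theorem dg_mul (σ τ : Equiv.Perm Y) : dg (σ * τ) = dg σ * dg τ := rfl

omit [Fintype Y] in
theorem dg_inv (σ : Equiv.Perm Y) : dg σ⁻¹ = (dg σ)⁻¹ := rfl

theorem uu_one (Z : PermSys Y) (e : Fin 6) : uu Z e 1 = 1 := by
  unfold uu
  rw [map_one, dg_one, R_one]

theorem uu_mul (Z : PermSys Y) (e : Fin 6) (g h : Heis) : uu Z e (g * h) = uu Z e g * uu Z e h := by
  unfold uu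
  rw [map_mul, dg_mul, R_mul]

theorem uu_star (Z : PermSys Y) (e : Fin 6) (g : Heis) : star (uu Z e g) = uu Z e g⁻¹ := by
  unfold uu
  rw [map_inv, R_star, dg_inv]

theorem isSys (Z : PermSys Y) : IsSys (0 : ℝ) (uu Z) (GG Z) where
  src := fun e s => by
    unfold uu GG
    rw [Z.src]
  tgt := fun e s => by
    unfold uu GG
    rw [Z.tgt]
  one := fun e => by
    rw [uu_one, sub_self, norm_zero]
  mul := fun e g h => by
    rw [uu_mul, sub_self, norm_zero]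
  star := fun e g => by
    rw [uu_star, sub_self, norm_zero]

/-- the vector of a matrix -/
noncomputable def vec (h : Matrix Y Y ℂ) : EuclideanSpace ℂ (Y × Y) :=
  WithLp.toLp 2 (fun q : Y × Y => h q.1 q.2)

omit [Fintype Y] in
theorem vec_apply (h : Matrix Y Y ℂ) (q : Y × Y) : vec h q = h q.1 q.2 := rfl

theorem norm_vec_sq (h : Matrix Y Y ℂ) : ‖vec h‖ ^ 2 = ∑ y, ∑ y', ‖h y y'‖ ^ 2 := by
  rw [EuclideanSpace.norm_sq_eq, Fintype.sum_prod_type]
  rfl

theorem q_eq_zero (Z : PermSys Y) (i : Fin 4) (v : EuclideanSpace ℂ (Y × Y))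
    (hv : ∀ c, GG Z i c v = v) : Q (GG Z) i v = 0 := by
  unfold Q
  simp only [sub_apply, one_apply_eq_self,
    smul_apply, sum_apply, hv]
  rw [Finset.sum_const, Finset.card_univ, ZMod.card, ← Nat.cast_smul_eq_nsmul ℂ, smul_smul]
  norm_num

theorem q_norm (Z : PermSys Y) (i : Fin 4) (v : EuclideanSpace ℂ (Y × Y)) {ε : ℝ}
    (hv : ∀ c, ‖v - GG Z i c v‖ ^ 2 ≤ ε) : ‖Q (GG Z) i v‖ ^ 2 ≤ ε := by
  have hε : 0 ≤ ε := (sq_nonneg _).trans (hv 0)
  have h1 : Q (GG Z) i v = (37 : ℂ)⁻¹ • ∑ c : F, (v - GG Z i c v) := by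
    unfold Q
    simp only [sub_apply, one_apply_eq_self,
      smul_apply, sum_apply]
    rw [Finset.sum_sub_distrib, Finset.sum_const, Finset.card_univ, ZMod.card,
      ← Nat.cast_smul_eq_nsmul ℂ, smul_sub, smul_smul]
    norm_num
  have h2 : ‖Q (GG Z) i v‖ ≤ √ε := by
    rw [h1, norm_smul]
    have h3 : ‖∑ c : F, (v - GG Z i c v)‖ ≤ 37 * √ε := by
      refine (norm_sum_le _ _).trans ?_
      have h4 : ∀ c ∈ (Finset.univ : Finset F), ‖v - GG Z i c v‖ ≤ √ε := fun c _ =>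
        Real.le_sqrt_of_sq_le (hv c)
      refine (Finset.sum_le_sum h4).trans ?_
      rw [Finset.sum_const, Finset.card_univ, ZMod.card, nsmul_eq_mul]
      norm_num
    have h5 : ‖(37 : ℂ)⁻¹‖ = (37 : ℝ)⁻¹ := by
      rw [norm_inv]
      norm_num
    rw [h5]
    calc (37 : ℝ)⁻¹ * ‖∑ c : F, (v - GG Z i c v)‖ ≤ (37 : ℝ)⁻¹ * (37 * √ε) := by gcongr
      _ = √ε := by ring
  calc ‖Q (GG Z) i v‖ ^ 2 ≤ (√ε) ^ 2 := pow_le_pow_left₀ (norm_nonneg _) h2 2
    _ = ε := Real.sq_sqrt hε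

theorem re_D (Z : PermSys Y) (v : EuclideanSpace ℂ (Y × Y)) :
    RCLike.re ⟪v, D (GG Z) v⟫_ℂ = ∑ i : Fin 4, ‖Q (GG Z) i v‖ ^ 2 := by
  unfold D
  rw [sum_apply, inner_sum, map_sum]
  refine Finset.sum_congr rfl fun i _ => ?_
  have h1 := q_bound (isSys Z) le_rfl (by norm_num) i v
  rw [mul_zero, zero_mul] at h1
  have h2 := abs_nonpos_iff.1 h1
  linarith

theorem star_D_eq (Z : PermSys Y) : star (D (GG Z)) = D (GG Z) := by
  have h1 := star_D (isSys Z) le_rfl (by norm_num)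
  rw [mul_zero] at h1
  exact sub_eq_zero.1 (norm_le_zero_iff.1 h1)

theorem inv_of_ker (Z : PermSys Y) (w : EuclideanSpace ℂ (Y × Y)) (hw : D (GG Z) w = 0)
    (i : Fin 4) (c : F) : GG Z i c w = w := by
  have h1 := re_D Z w
  rw [hw, inner_zero_right, map_zero] at h1
  have h2 : ‖Q (GG Z) i w‖ ^ 2 = 0 :=
    (Finset.sum_eq_zero_iff_of_nonneg (fun j _ => sq_nonneg _)).1 h1.symm i (Finset.mem_univ _)
  have h3 : ‖Q (GG Z) i w‖ = 0 := by
    rwa [sq_eq_zero_iff] at h2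
  have h4 := fix_bound (isSys Z) le_rfl (by norm_num) i c w
  rw [h3, mul_zero, zero_mul, add_zero] at h4
  exact sub_eq_zero.1 (norm_le_zero_iff.1 h4)

/-- the key estimate -/
theorem key (Z : PermSys Y) (h h0 : Matrix Y Y ℂ) {ε : ℝ}
    (hh : ∀ i s, ∑ y, ∑ y', ‖h ((Z.P i s).symm y) ((Z.P i s).symm y') - h y y'‖ ^ 2 ≤ ε)
    (hinv : ∀ i s y y', h0 (Z.P i s y) (Z.P i s y') = h0 y y')
    (horth : ∀ w : EuclideanSpace ℂ (Y × Y), (∀ i c, GG Z i c w = w) →
      ⟪w, vec h⟫_ℂ = ⟪w, vec h0⟫_ℂ) :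
    ∑ y, ∑ y', ‖h y y' - h0 y y'‖ ^ 2 ≤ 8 * ε := by
  have e1 : ∑ y, ∑ y', ‖h y y' - h0 y y'‖ ^ 2 = ‖vec h - vec h0‖ ^ 2 := by
    have : vec h - vec h0 = vec (h - h0) := by
      ext q
      rfl
    rw [this, norm_vec_sq]
    rfl
  rw [e1]
  have h1 := diag_gap (D (GG Z)) (star_D_eq Z)
    (fun v => by
      rw [re_D]
      exact Finset.sum_nonneg fun i _ => sq_nonneg _)
    (fun v => by
      have h2 := gap (isSys Z) le_rfl (by norm_num) v
      rw [mul_zero, zero_mul, sub_zero] at h2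
      exact h2) (vec h - vec h0)
    (fun w hw => by
      rw [inner_sub_right, horth w (inv_of_ker Z w hw), sub_self])
  refine h1.trans ?_
  rw [re_D]
  have h2 : ∀ i ∈ (Finset.univ : Finset (Fin 4)), ‖Q (GG Z) i (vec h - vec h0)‖ ^ 2 ≤ ε := by
    intro i _
    have h3 : Q (GG Z) i (vec h0) = 0 := by
      apply q_eq_zero
      intro c
      ext q
      rw [GG_apply, vec_apply, vec_apply]
      have h4 := hinv i c ((Z.P i c).symm q.1) ((Z.P i c).symm q.2)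
      rw [Equiv.apply_symm_apply, Equiv.apply_symm_apply] at h4
      exact h4.symm
    rw [map_sub, h3, sub_zero]
    apply q_norm
    intro c
    refine le_trans (le_of_eq ?_) (hh i c)
    rw [norm_sub_rev, EuclideanSpace.norm_sq_eq, Fintype.sum_prod_type]
    rfl
  have h5 := Finset.sum_le_sum h2
  rw [Finset.sum_const, Finset.card_univ, Fintype.card_fin, nsmul_eq_mul] at h5
  push_cast at h5
  linarith

/-- the group generated by the permutations -/
def NN (Z : PermSys Y) : Subgroup (Equiv.Perm Y) :=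
  Subgroup.closure (Set.range fun q : Fin 4 × F => Z.P q.1 q.2)

omit [Fintype Y] in
theorem P_mem (Z : PermSys Y) (i : Fin 4) (s : F) : Z.P i s ∈ NN Z :=
  Subgroup.subset_closure ⟨(i, s), rfl⟩

end Main

end ProjAux

open ProjAux in
theorem proj {Y : Type*} [Fintype Y] [DecidableEq Y] (Z : PermSys Y) (h : Matrix Y Y ℂ) {ε : ℝ}
    (hh : ∀ i s, ∑ y, ∑ y', ‖h ((Z.P i s).symm y) ((Z.P i s).symm y') - h y y'‖ ^ 2 ≤ ε) :
    ∃ h0 : Matrix Y Y ℂ, (∀ i s y y', h0 (Z.P i s y) (Z.P i s y') = h0 y y') ∧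
      (∑ y, ∑ y', ‖h y y' - h0 y y'‖ ^ 2 ≤ 8 * ε) ∧ (h.PosSemidef → h0.PosSemidef) ∧
      h0.trace = h.trace ∧
      ∀ (f : Equiv.Perm Y) (z : ℂ), (∀ i s y, Z.P i s (f y) = f (Z.P i s y)) →
        (∀ y y', h y (f y') = z * h y y') → ∀ y y', h0 y (f y') = z * h0 y y' := by
  classical
  have : Fintype (NN Z) := Fintype.ofFinite _
  set r : ℂ := ((Fintype.card (NN Z) : ℂ))⁻¹ with hr
  have hcard : (Fintype.card (NN Z) : ℂ) ≠ 0 := by
    exact_mod_cast Fintype.card_ne_zero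
  set h0 : Matrix Y Y ℂ := fun y y' => r * ∑ n : NN Z, h ((n : Equiv.Perm Y) y) ((n : Equiv.Perm Y) y')
    with hh0
  have hinv : ∀ i s y y', h0 (Z.P i s y) (Z.P i s y') = h0 y y' := by
    intro i s y y'
    simp only [hh0]
    congr 1
    exact Fintype.sum_equiv (Equiv.mulRight (⟨Z.P i s, P_mem Z i s⟩ : NN Z)) _ _ fun n => rfl
  refine ⟨h0, hinv, ?_, ?_, ?_, ?_⟩
  · refine key Z h h0 hh hinv fun w hw => ?_
    have hwn : ∀ n ∈ NN Z, ∀ y y', w (n y, n y') = w (y, y') := by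
      intro n hn
      induction hn using Subgroup.closure_induction with
      | mem x hx =>
        obtain ⟨q, rfl⟩ := hx
        intro y y'
        have h1 := congrArg (fun v : EuclideanSpace ℂ (Y × Y) => v (Z.P q.1 q.2 y, Z.P q.1 q.2 y'))
          (hw q.1 q.2)
        simp only [GG_apply, Equiv.symm_apply_apply] at h1
        exact h1.symm
      | one =>
        intro y y'
        rfl
      | mul x y' _ _ hx hy =>
        intro a b
        rw [Equiv.Perm.mul_apply, Equiv.Perm.mul_apply, hx, hy]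
      | inv x _ hx =>
        intro a b
        have h1 := hx (x⁻¹ a) (x⁻¹ b)
        rw [perm_apply_inv, perm_apply_inv] at h1
        exact h1.symm
    rw [PiLp.inner_apply, PiLp.inner_apply]
    have h1 : ∀ n : NN Z, ∑ q : Y × Y, ⟪w q, h ((n : Equiv.Perm Y) q.1) ((n : Equiv.Perm Y) q.2)⟫_ℂ =
        ∑ q : Y × Y, ⟪w q, vec h q⟫_ℂ := by
      intro n
      refine Fintype.sum_equiv (dg (n : Equiv.Perm Y)) _ _ fun q => ?_
      change _ = ⟪w ((n : Equiv.Perm Y) q.1, (n : Equiv.Perm Y) q.2), _⟫_ℂ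
      rw [hwn n n.2]
      rfl
    have h2 : ∀ q : Y × Y, ⟪w q, vec h0 q⟫_ℂ =
        r * ∑ n : NN Z, ⟪w q, h ((n : Equiv.Perm Y) q.1) ((n : Equiv.Perm Y) q.2)⟫_ℂ := by
      intro q
      rw [vec_apply]
      simp only [hh0]
      rw [← smul_eq_mul, inner_smul_right, ← inner_sum]
    rw [Finset.sum_congr rfl fun q _ => h2 q, ← Finset.mul_sum, Finset.sum_comm,
      Finset.sum_congr rfl fun n _ => h1 n, Finset.sum_const, Finset.card_univ, nsmul_eq_mul,
      ← mul_assoc, hr, inv_mul_cancel₀ hcard, one_mul]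
  · intro hp
    have h1 : h0 = r • ∑ n : NN Z, h.submatrix (n : Equiv.Perm Y) (n : Equiv.Perm Y) := by
      ext y y'
      simp only [hh0, Matrix.smul_apply, Matrix.sum_apply, Matrix.submatrix_apply, smul_eq_mul]
    rw [h1]
    refine Matrix.PosSemidef.smul ?_ ?_
    · exact Matrix.posSemidef_sum _ fun n _ => hp.submatrix _
    · rw [hr]
      positivity
  · have h1 : ∀ n : NN Z, ∑ y, h ((n : Equiv.Perm Y) y) ((n : Equiv.Perm Y) y) = h.trace := by
      intro n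
      exact Fintype.sum_equiv (n : Equiv.Perm Y) _ _ fun y => rfl
    change ∑ y, h0 y y = h.trace
    simp only [hh0]
    rw [← Finset.mul_sum, Finset.sum_comm, Finset.sum_congr rfl fun n _ => h1 n, Finset.sum_const,
      Finset.card_univ, nsmul_eq_mul, ← mul_assoc, hr, inv_mul_cancel₀ hcard, one_mul]
  · intro f z hf hz y y'
    have hfn : ∀ n ∈ NN Z, ∀ y, n (f y) = f (n y) := by
      intro n hn
      induction hn using Subgroup.closure_induction with
      | mem x hx =>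
        obtain ⟨q, rfl⟩ := hx
        exact hf q.1 q.2
      | one =>
        intro y
        rfl
      | mul x y' _ _ hx hy =>
        intro a
        rw [Equiv.Perm.mul_apply, Equiv.Perm.mul_apply, hy, hx]
      | inv x _ hx =>
        intro a
        apply x.injective
        rw [perm_apply_inv, hx, perm_apply_inv]
    simp only [hh0]
    have h1 : ∀ n : NN Z, h ((n : Equiv.Perm Y) y) ((n : Equiv.Perm Y) (f y')) =
        z * h ((n : Equiv.Perm Y) y) ((n : Equiv.Perm Y) y') := by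
      intro n
      rw [hfn n n.2, hz]
    rw [Finset.sum_congr rfl fun n _ => h1 n, ← Finset.mul_sum]
    ring

end Vale.Agent.P083
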