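import Mathlib
import Vale.Agent.Lib.P083.Stmt
import Vale.Agent.Lib.P083.Defs
import Vale.Agent.Lib.P083.Defs2

/-!
# P083: slicing a vector in `l2(I x Y; H)` to a coordinate
-/

namespace Vale.Agent.P083

open scoped BigOperators InnerProductSpace Topology BoundedContinuousFunction ENNReal ComplexOrder
open Filter

namespace Slice

/-- an averaging step: some index does at least as well as the average -/
theorem exists_index {n : ℕ} (w d : Fin n → ℝ) (C : ℝ) (hw : ∀ i, 0 ≤ w i) (hd : ∀ i, 0 ≤ d i)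
    (h1 : ∑ i, w i = 1) (h2 : ∑ i, d i ≤ C) : ∃ i, 0 < w i ∧ d i ≤ C * w i := by
  by_contra hcon
  push Not at hcon
  have hle : ∀ i, C * w i ≤ d i := by
    intro i
    rcases (hw i).lt_or_eq with h | h
    · exact (hcon i h).le
    · rw [← h, mul_zero]; exact hd i
  have hex : ∃ i, 0 < w i := by
    by_contra hno
    push Not at hno
    have : ∑ i, w i ≤ 0 := Finset.sum_nonpos fun i _ => hno i
    linarith
  obtain ⟨i0, hi0⟩ := hex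
  have hlt : ∑ i, C * w i < ∑ i, d i :=
    Finset.sum_lt_sum (fun i _ => hle i) ⟨i0, Finset.mem_univ _, hcon i0 hi0⟩
  rw [← Finset.mul_sum, h1, mul_one] at hlt
  linarith

end Slice

theorem slice {H : Type*} [NormedAddCommGroup H] [InnerProductSpace ℂ H]
    {Y J : Type*} [Fintype Y] [Fintype J] {m : ℕ} (t : J → Matrix (Fin m) (Fin m) ℂ)
    (σ : J → Equiv.Perm Y) (ξ : Y → Fin m → H) (h1 : ∑ y, ∑ μ, ‖ξ y μ‖ ^ 2 = 1) {ε : ℝ}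
    (hε : ∀ j, ∑ y, ∑ μ, ‖(∑ ν, t j μ ν • ξ ((σ j).symm y) ν) - ξ y μ‖ ^ 2 ≤ ε) :
    ∃ (e : H) (T : Matrix (Fin m) Y ℂ), (∀ μ y, T μ y = ⟪e, ξ y μ⟫_ℂ) ∧
      (∑ μ, ∑ y, ‖T μ y‖ ^ 2 = 1) ∧
      ∀ j, ∑ μ, ∑ y, ‖(∑ ν, t j μ ν * T ν ((σ j).symm y)) - T μ y‖ ^ 2 ≤ Fintype.card J * ε := by
  classical
  let U : Submodule ℂ H := Submodule.span ℂ (Set.range fun q : Y × Fin m => ξ q.1 q.2)
  haveI : FiniteDimensional ℂ U := FiniteDimensional.span_of_finite ℂ (Set.finite_range _)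
  have hmem : ∀ y μ, ξ y μ ∈ U := fun y μ => Submodule.subset_span ⟨(y, μ), rfl⟩
  let b := stdOrthonormalBasis ℂ U
  have hpars : ∀ x ∈ U, ∑ i, ‖⟪(b i : H), x⟫_ℂ‖ ^ 2 = ‖x‖ ^ 2 := by
    intro x hx
    have := b.sum_sq_norm_inner_right (⟨x, hx⟩ : U)
    simpa using this
  let z : J → Y → Fin m → H := fun j y μ => (∑ ν, t j μ ν • ξ ((σ j).symm y) ν) - ξ y μ
  have hz : ∀ j y μ, z j y μ ∈ U := fun j y μ =>
    U.sub_mem (U.sum_mem fun ν _ => U.smul_mem _ (hmem _ _)) (hmem _ _)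
  have hw1 : ∑ i, (∑ y, ∑ μ, ‖⟪(b i : H), ξ y μ⟫_ℂ‖ ^ 2) = 1 := by
    rw [Finset.sum_comm, ← h1]
    refine Finset.sum_congr rfl fun y _ => ?_
    rw [Finset.sum_comm]
    exact Finset.sum_congr rfl fun μ _ => hpars _ (hmem y μ)
  have hd1 : ∑ i, (∑ j, ∑ y, ∑ μ, ‖⟪(b i : H), z j y μ⟫_ℂ‖ ^ 2) ≤ Fintype.card J * ε := by
    rw [Finset.sum_comm]
    have : ∀ j ∈ (Finset.univ : Finset J),
        ∑ i, ∑ y, ∑ μ, ‖⟪(b i : H), z j y μ⟫_ℂ‖ ^ 2 ≤ ε := by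
      intro j _
      rw [Finset.sum_comm]
      refine le_trans (le_of_eq ?_) (hε j)
      refine Finset.sum_congr rfl fun y _ => ?_
      rw [Finset.sum_comm]
      exact Finset.sum_congr rfl fun μ _ => hpars _ (hz j y μ)
    have h := Finset.sum_le_sum this
    rw [Finset.sum_const, nsmul_eq_mul] at h
    simpa using h
  obtain ⟨i, hi, hdi⟩ := Slice.exists_index
    (fun i => ∑ y, ∑ μ, ‖⟪(b i : H), ξ y μ⟫_ℂ‖ ^ 2)
    (fun i => ∑ j, ∑ y, ∑ μ, ‖⟪(b i : H), z j y μ⟫_ℂ‖ ^ 2) _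
    (fun i => by positivity) (fun i => by positivity) hw1 hd1
  set n : ℝ := ∑ y, ∑ μ, ‖⟪(b i : H), ξ y μ⟫_ℂ‖ ^ 2 with hn
  let e : H := ((Real.sqrt n)⁻¹ : ℂ) • (b i : H)
  have hin : ∀ x : H, ‖⟪e, x⟫_ℂ‖ ^ 2 = n⁻¹ * ‖⟪(b i : H), x⟫_ℂ‖ ^ 2 := by
    intro x
    have h0 : ‖((starRingEnd ℂ) ((Real.sqrt n)⁻¹ : ℂ))‖ ^ 2 = n⁻¹ := by
      rw [RCLike.norm_conj, norm_inv, Complex.norm_real, Real.norm_eq_abs,
        abs_of_nonneg (Real.sqrt_nonneg _), inv_pow, Real.sq_sqrt hi.le]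
    rw [show ⟪e, x⟫_ℂ = (starRingEnd ℂ) ((Real.sqrt n)⁻¹ : ℂ) * ⟪(b i : H), x⟫_ℂ from
      inner_smul_left _ _ _, norm_mul, mul_pow, h0]
  refine ⟨e, fun μ y => ⟪e, ξ y μ⟫_ℂ, fun μ y => rfl, ?_, ?_⟩
  · rw [Finset.sum_comm]
    calc ∑ y, ∑ μ, ‖⟪e, ξ y μ⟫_ℂ‖ ^ 2 = ∑ y, ∑ μ, n⁻¹ * ‖⟪(b i : H), ξ y μ⟫_ℂ‖ ^ 2 :=
          Finset.sum_congr rfl fun y _ => Finset.sum_congr rfl fun μ _ => hin _
      _ = n⁻¹ * n := by
          rw [hn, Finset.mul_sum]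
          exact Finset.sum_congr rfl fun y _ => by rw [Finset.mul_sum]
      _ = 1 := inv_mul_cancel₀ hi.ne'
  · intro j
    have hterm : ∀ μ y, (∑ ν, t j μ ν * ⟪e, ξ ((σ j).symm y) ν⟫_ℂ) - ⟪e, ξ y μ⟫_ℂ
        = ⟪e, z j y μ⟫_ℂ := by
      intro μ y
      simp only [z, inner_sub_right, inner_sum, inner_smul_right]
    calc ∑ μ, ∑ y, ‖(∑ ν, t j μ ν * ⟪e, ξ ((σ j).symm y) ν⟫_ℂ) - ⟪e, ξ y μ⟫_ℂ‖ ^ 2
        = ∑ y, ∑ μ, n⁻¹ * ‖⟪(b i : H), z j y μ⟫_ℂ‖ ^ 2 := by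
          rw [Finset.sum_comm]
          refine Finset.sum_congr rfl fun y _ => Finset.sum_congr rfl fun μ _ => ?_
          rw [hterm, hin]
      _ = n⁻¹ * ∑ y, ∑ μ, ‖⟪(b i : H), z j y μ⟫_ℂ‖ ^ 2 := by
          rw [Finset.mul_sum]
          exact Finset.sum_congr rfl fun y _ => by rw [Finset.mul_sum]
      _ ≤ n⁻¹ * ∑ j, ∑ y, ∑ μ, ‖⟪(b i : H), z j y μ⟫_ℂ‖ ^ 2 := by
          refine mul_le_mul_of_nonneg_left ?_ (inv_nonneg.2 hi.le)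
          exact Finset.single_le_sum
            (f := fun j => ∑ y, ∑ μ, ‖⟪(b i : H), z j y μ⟫_ℂ‖ ^ 2)
            (fun j _ => by positivity) (Finset.mem_univ j)
      _ ≤ n⁻¹ * (Fintype.card J * ε * n) :=
          mul_le_mul_of_nonneg_left hdi (inv_nonneg.2 hi.le)
      _ = Fintype.card J * ε := by
          rw [mul_comm, mul_assoc, mul_inv_cancel₀ hi.ne', mul_one]

end Vale.Agent.P083
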