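import Mathlib
import Vale.Agent.Lib.P083.Defs2
import Vale.Agent.Lib.P083.Compress
import Vale.Agent.Lib.P083.Slice
import Vale.Agent.Lib.P083.Haag
import Vale.Agent.Lib.P083.Proj
import Vale.Agent.Lib.P083.InvKernel
import Vale.Agent.Lib.P083.WPerm

/-!
# P083: assembly of section 5 (no almost invariant vectors at all levels)
-/

namespace Vale.Agent.P083

open scoped BigOperators InnerProductSpace Topology ComplexOrder
open Filter

namespace NoLev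

/-- norm of a double family as a vector -/
theorem dsum_sub_sq {α β E : Type*} [Fintype α] [Fintype β] [NormedAddCommGroup E]
    (f g : α → β → E) :
    ∑ a, ∑ b, ‖f a b + g a b‖ ^ 2
      ≤ 2 * ∑ a, ∑ b, ‖f a b‖ ^ 2 + 2 * ∑ a, ∑ b, ‖g a b‖ ^ 2 := by
  rw [Finset.mul_sum, Finset.mul_sum, ← Finset.sum_add_distrib]
  refine Finset.sum_le_sum fun a _ => ?_
  rw [Finset.mul_sum, Finset.mul_sum, ← Finset.sum_add_distrib]
  refine Finset.sum_le_sum fun b _ => ?_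
  have h1 := norm_add_le (f a b) (g a b)
  have h2 : ‖f a b + g a b‖ ^ 2 ≤ (‖f a b‖ + ‖g a b‖) ^ 2 :=
    pow_le_pow_left₀ (norm_nonneg _) h1 2
  nlinarith [sq_nonneg (‖f a b‖ - ‖g a b‖)]

/-- the defect of the transported vector -/
theorem defect {H : Type*} [NormedAddCommGroup H] [InnerProductSpace ℂ H]
    {Y : Type*} [Fintype Y] {m : ℕ} (t : Matrix (Fin m) (Fin m) ℂ)
    (V : H →ₗᵢ[ℂ] PiLp 2 (fun _ : Fin m => H)) (b : H →L[ℂ] H) {ε : ℝ}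
    (hV : ∀ h, ‖WithLp.toLp 2 (fun μ => ∑ ν, t μ ν • V h ν) - V (b h)‖ ≤ ε * ‖h‖)
    (σ : Equiv.Perm Y) (ζ : PiLp 2 (fun _ : Y => H)) (hζ : ‖ζ‖ = 1)
    (hd : ‖Theta b σ ζ - ζ‖ ≤ ε) :
    ∑ y, ∑ μ, ‖(∑ ν, t μ ν • V (ζ (σ.symm y)) ν) - V (ζ y) μ‖ ^ 2 ≤ 4 * ε ^ 2 := by
  have h1 : ∀ y, ∑ μ, ‖(∑ ν, t μ ν • V (ζ (σ.symm y)) ν) - V (ζ y) μ‖ ^ 2
      ≤ 2 * ε ^ 2 * ‖ζ (σ.symm y)‖ ^ 2 + 2 * ‖(Theta b σ ζ - ζ) y‖ ^ 2 := by
    intro y
    have e1 : ∑ μ, ‖(∑ ν, t μ ν • V (ζ (σ.symm y)) ν) - V (ζ y) μ‖ ^ 2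
        = ‖(WithLp.toLp 2 (fun μ => ∑ ν, t μ ν • V (ζ (σ.symm y)) ν) - V (b (ζ (σ.symm y))))
            + V (b (ζ (σ.symm y)) - ζ y)‖ ^ 2 := by
      rw [PiLp.norm_sq_eq_of_L2]
      refine Finset.sum_congr rfl fun μ _ => ?_
      congr 2
      rw [map_sub]
      simp only [PiLp.add_apply, PiLp.sub_apply]
      abel
    rw [e1]
    have e2 := hV (ζ (σ.symm y))
    have e3 : ‖V (b (ζ (σ.symm y)) - ζ y)‖ = ‖(Theta b σ ζ - ζ) y‖ := by
      rw [V.norm_map]; rfl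
    have e4 := norm_add_le (WithLp.toLp 2 (fun μ => ∑ ν, t μ ν • V (ζ (σ.symm y)) ν)
      - V (b (ζ (σ.symm y)))) (V (b (ζ (σ.symm y)) - ζ y))
    rw [e3] at e4
    have e5 := pow_le_pow_left₀ (norm_nonneg _) (e4.trans (add_le_add_left e2 _)) 2
    have e6 := norm_nonneg ((Theta b σ ζ - ζ) y)
    have e7 := norm_nonneg (ζ (σ.symm y))
    refine e5.trans ?_
    nlinarith [sq_nonneg (ε * ‖ζ (σ.symm y)‖ - ‖(Theta b σ ζ - ζ) y‖)]
  refine (Finset.sum_le_sum fun y _ => h1 y).trans ?_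
  rw [Finset.sum_add_distrib, ← Finset.mul_sum, ← Finset.mul_sum]
  have h2 : ∑ y, ‖ζ (σ.symm y)‖ ^ 2 = 1 := by
    rw [Equiv.sum_comp σ.symm (fun y => ‖ζ y‖ ^ 2), ← PiLp.norm_sq_eq_of_L2, hζ]; norm_num
  have h3 : ∑ y, ‖(Theta b σ ζ - ζ) y‖ ^ 2 ≤ ε ^ 2 := by
    rw [← PiLp.norm_sq_eq_of_L2]
    exact pow_le_pow_left₀ (norm_nonneg _) hd 2
  rw [h2]
  linarith

/-- lower bound for a scalar product of unit vectors which are close -/
theorem inner_lower {α β : Type*} [Fintype α] [Fintype β] (T T' : α → β → ℂ)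
    (hT : ∑ a, ∑ b, ‖T a b‖ ^ 2 = 1) {r : ℝ} (hr : 0 ≤ r)
    (hd : ∑ a, ∑ b, ‖T' a b - T a b‖ ^ 2 ≤ r ^ 2) :
    1 - r ≤ ‖∑ a, ∑ b, (starRingEnd ℂ) (T a b) * T' a b‖ := by
  have h1 : ∑ a, ∑ b, (starRingEnd ℂ) (T a b) * T' a b
      = 1 + ∑ a, ∑ b, (starRingEnd ℂ) (T a b) * (T' a b - T a b) := by
    have : (1 : ℂ) = ∑ a, ∑ b, (starRingEnd ℂ) (T a b) * T a b := by
      have e : ((∑ a, ∑ b, ‖T a b‖ ^ 2 : ℝ) : ℂ) = 1 := by rw [hT]; norm_num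
      rw [← e]
      push_cast
      refine Finset.sum_congr rfl fun a _ => Finset.sum_congr rfl fun b _ => ?_
      rw [mul_comm, Complex.mul_conj, Complex.normSq_eq_norm_sq]
      push_cast; rfl
    rw [this, ← Finset.sum_add_distrib]
    refine Finset.sum_congr rfl fun a _ => ?_
    rw [← Finset.sum_add_distrib]
    refine Finset.sum_congr rfl fun b _ => ?_
    ring
  have h2 : ‖∑ a, ∑ b, (starRingEnd ℂ) (T a b) * (T' a b - T a b)‖ ≤ r := by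
    have e1 : ‖∑ a, ∑ b, (starRingEnd ℂ) (T a b) * (T' a b - T a b)‖
        ≤ ∑ p : α × β, ‖T p.1 p.2‖ * ‖T' p.1 p.2 - T p.1 p.2‖ := by
      rw [← Finset.sum_product']
      refine (norm_sum_le _ _).trans (le_of_eq ?_)
      simp [Finset.univ_product_univ]
    have e2 : (∑ p : α × β, ‖T p.1 p.2‖ * ‖T' p.1 p.2 - T p.1 p.2‖) ^ 2 ≤ r ^ 2 := by
      refine (Finset.sum_mul_sq_le_sq_mul_sq _ _ _).trans ?_
      rw [Fintype.sum_prod_type, Fintype.sum_prod_type, hT, one_mul]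
      exact hd
    exact e1.trans (abs_le_of_sq_le_sq' e2 hr).2
  rw [h1]
  have h3 := norm_sub_le (1 + ∑ a, ∑ b, (starRingEnd ℂ) (T a b) * (T' a b - T a b))
    (∑ a, ∑ b, (starRingEnd ℂ) (T a b) * (T' a b - T a b))
  rw [add_sub_cancel_right, norm_one] at h3
  linarith

/-- the distance of two kernels -/
theorem dist_sq {Y : Type*} [Fintype Y] (h : Matrix Y Y ℂ) (hh : ∑ y, ∑ y', ‖h y y'‖ ^ 2 = 1)
    (σ : Equiv.Perm Y) :
    ∑ y, ∑ y', ‖h (σ.symm y) (σ.symm y') - h y y'‖ ^ 2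
      = 2 - 2 * (∑ y, ∑ y', (starRingEnd ℂ) (h y y') * h (σ.symm y) (σ.symm y')).re := by
  have h1 : ∑ y, ∑ y', ‖h (σ.symm y) (σ.symm y')‖ ^ 2 = 1 := by
    rw [Equiv.sum_comp σ.symm (fun y => ∑ y', ‖h y (σ.symm y')‖ ^ 2), ← hh]
    refine Finset.sum_congr rfl fun y _ => ?_
    rw [Equiv.sum_comp σ.symm (fun y' => ‖h y y'‖ ^ 2)]
  have h2 : ∀ z w : ℂ, ‖z - w‖ ^ 2 = ‖z‖ ^ 2 + ‖w‖ ^ 2 - 2 * ((starRingEnd ℂ) w * z).re := by
    intro z w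
    rw [← Complex.normSq_eq_norm_sq, ← Complex.normSq_eq_norm_sq, ← Complex.normSq_eq_norm_sq,
      Complex.normSq_sub]
    simp [Complex.mul_re]
    ring
  simp_rw [h2]
  simp only [Finset.sum_sub_distrib, Finset.sum_add_distrib, Complex.re_sum, Finset.mul_sum]
  rw [h1, hh]
  norm_num [Finset.mul_sum]

end NoLev

theorem no_levels {H : Type*} [NormedAddCommGroup H] [InnerProductSpace ℂ H] [CompleteSpace H]
    [Nontrivial H] {S : Fin 2 → H →L[ℂ] H} (hS : IsCuntzPair S) (G : Fin 4 → F → H →L[ℂ] H)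
    (hG : ∀ i c, G i c ∈ (StarAlgebra.adjoin ℂ (Set.range S)).topologicalClosure)
    (hn : ∀ i c, ‖G i c‖ ≤ 1 + 1 / 10 ^ 6)
    (Z : ∀ k, PermSys (W (k + 1))) (hZ : ∀ k, IsStd (Z k)) :
    ¬ ∀ k, ∃ ζ : PiLp 2 (fun _ : W (k + 1) => H), ‖ζ‖ = 1 ∧ IsV ζ ∧
      ∀ i c, ‖Theta (G i c) ((Z k).P i c) ζ - ζ‖ ≤ 1 / 10 ^ 5 := by
  intro hall
  obtain ⟨m, t, V, ht, hV⟩ := compress hS (J := Fin 4 × F) (fun j => G j.1 j.2)
    (fun j => hG j.1 j.2) (ε := 1 / 10 ^ 5) (by norm_num)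
  have key : ∀ k : ℕ, (1 : ℝ) / 4 ≤ m / 37 ^ (k + 1) := by
    intro k
    obtain ⟨ζ, hζ, hVζ, hdef⟩ := hall k
    obtain ⟨e, T, hTe, hT1, hT2⟩ := slice t (fun j : Fin 4 × F => (Z k).P j.1 j.2)
      (fun y μ => V (ζ y) μ) (by
        have : ∀ y, ∑ μ, ‖V (ζ y) μ‖ ^ 2 = ‖ζ y‖ ^ 2 := by
          intro y
          rw [← PiLp.norm_sq_eq_of_L2, V.norm_map]
        simp_rw [this]
        rw [← PiLp.norm_sq_eq_of_L2, hζ]; norm_num) (ε := 4 * (1 / 10 ^ 5) ^ 2)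
      (fun j => NoLev.defect (t j) V (G j.1 j.2) (hV j) _ ζ hζ (hdef j.1 j.2))
    obtain ⟨h, hpos, hh1, htr, hC, hf⟩ := haagerup T hT1
    have hcard : (Fintype.card (Fin 4 × F) : ℝ) = 148 := by
      simp [F, ZMod.card]
    -- closeness of `h`
    have hclose : ∀ i c, ∑ y, ∑ y', ‖h (((Z k).P i c).symm y) (((Z k).P i c).symm y') - h y y'‖ ^ 2
        ≤ 1 / 10 ^ 3 := by
      intro i c
      have h1 := hT2 (i, c)
      rw [hcard] at h1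
      have h2 := NoLev.inner_lower T
        (fun μ y => ∑ ν, t (i, c) μ ν * T ν (((Z k).P i c).symm y)) hT1
        (r := 245 / 10 ^ 6) (by norm_num) (h1.trans (by norm_num))
      have h3 := hC (t (i, c)) (1 + 1 / 10 ^ 6) (by norm_num) (fun x =>
        (ht (i, c) x).trans (mul_le_mul_of_nonneg_right (hn i c) (norm_nonneg _))) ((Z k).P i c)
      rw [NoLev.dist_sq h hh1]
      set R := (∑ y, ∑ y', (starRingEnd ℂ) (h y y') *
        h (((Z k).P i c).symm y) (((Z k).P i c).symm y')).re with hR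
      have h4 : (1 - 245 / 10 ^ 6 : ℝ) ^ 2 ≤ (1 + 1 / 10 ^ 6) ^ 2 * R :=
        (pow_le_pow_left₀ (by norm_num) h2 2).trans h3
      norm_num at h4 ⊢
      linarith
    obtain ⟨h0, hinv, hd, hp0, htr0, hf0⟩ := proj (Z k) h hclose
    have hV0 : ∀ w w', h0 w (w' + lastE1 k) = om * h0 w w' := by
      refine hf0 (Equiv.addRight (lastE1 k)) om (fun i s y => ?_) (hf (Equiv.addRight (lastE1 k)) om
        (fun μ y => ?_))
      · exact std_last (hZ k) i s y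
      · show T μ (y + lastE1 k) = om * T μ y
        rw [hTe, hTe, hVζ y, map_smul, PiLp.smul_apply, inner_smul_right]
    have hfin := inv_kernel (hZ k) h0 (hp0 hpos) (by rw [htr0]; exact htr) hinv hV0
    have h5 := NoLev.dsum_sub_sq (fun y y' => h y y' - h0 y y') (fun y y' => h0 y y')
    simp only [sub_add_cancel] at h5
    rw [hh1] at h5
    have h6 : (1 : ℝ) / 4 ≤ ∑ w, ∑ w', ‖h0 w w'‖ ^ 2 := by
      have : ∑ y, ∑ y', ‖h y y' - h0 y y'‖ ^ 2 ≤ 8 / 10 ^ 3 := hd.trans (by norm_num)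
      norm_num at this ⊢
      linarith
    exact h6.trans hfin
  obtain ⟨k, hk⟩ := pow_unbounded_of_one_lt (4 * (m : ℝ)) (show (1 : ℝ) < 37 by norm_num)
  have h1 := key k
  rw [le_div_iff₀ (by positivity)] at h1
  have h2 : (37 : ℝ) ^ k ≤ 37 ^ (k + 1) := pow_le_pow_right₀ (by norm_num) (Nat.le_succ k)
  linarith

end Vale.Agent.P083
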