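import Mathlib
import Vale.Agent.Lib.P083.Stmt
import Vale.Agent.Lib.P101.Defs

/-!
# P083: existence of the norm ultrapower

Repackaged from the concrete ultrapower of `Vale.Agent.Lib.P101.Defs`.
-/

namespace Vale.Agent.P083

open scoped ENNReal Topology BoundedContinuousFunction
open Filter

namespace UltraEx

/-- a bounded function as an element of `lp`. -/
noncomputable def bcfToLp (A : Type) [CStarAlgebra A] [Nontrivial A] :
    (ℕ →ᵇ A) →⋆ₐ[ℂ] lp (fun _ : ℕ => A) ∞ where
  toFun f := (AlgEquiv.lpBCF ℕ ℂ).symm f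
  map_one' := map_one _
  map_mul' := map_mul _
  map_zero' := map_zero _
  map_add' := map_add _
  commutes' r := AlgHomClass.commutes (AlgEquiv.lpBCF ℕ ℂ).symm r
  map_star' f := by
    ext n
    rfl

theorem bcfToLp_surjective (A : Type) [CStarAlgebra A] [Nontrivial A] :
    Function.Surjective (bcfToLp A) :=
  fun x => ⟨AlgEquiv.lpBCF ℕ ℂ x, (AlgEquiv.lpBCF ℕ ℂ).symm_apply_apply x⟩

end UltraEx

theorem exists_ultrapower (O : Type) [CStarAlgebra O] [Nontrivial O] (ω : Ultrafilter ℕ) :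
    ∃ (U : Type) (_ : CStarAlgebra U) (q : (ℕ →ᵇ O) →⋆ₐ[ℂ] U), IsUltrapowerMap ω q := by
  refine ⟨P101.Ultrapower ω O, inferInstance,
    (P101.toUltrapower ω O).comp (UltraEx.bcfToLp O), ?_⟩
  refine ⟨(P101.quotMk_surjective (P101.cNull ω O)).comp (UltraEx.bcfToLp_surjective O),
    fun a => ?_⟩
  have h1 : (P101.toUltrapower ω O).comp (UltraEx.bcfToLp O) a = 0 ↔
      UltraEx.bcfToLp O a ∈ P101.cNull ω O := P101.quotMk_eq_zero_iff (P101.cNull ω O) _
  rw [h1, P101.mem_cNull]
  rfl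

end Vale.Agent.P083
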