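import Mathlib
import Vale.Agent.Lib.P083.Defs2

/-!
# P083: lifting an exact model in the ultrapower to approximate models
-/

namespace Vale.Agent.P083

open scoped BigOperators InnerProductSpace Topology BoundedContinuousFunction
open Filter

theorem lift_model {A O U : Type} [CStarAlgebra A] [CStarAlgebra O] [CStarAlgebra U]
    {ω : Ultrafilter ℕ} {q : (ℕ →ᵇ O) →⋆ₐ[ℂ] U} (hq : IsUltrapowerMap ω q) (φ : A →⋆ₐ[ℂ] U)
    {u : Fin 6 → Heis → A} {G : Fin 4 → F → A} {s : X → A} {a : A} (hm : IsModel 0 u G s a)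
    {δ : ℝ} (hδ : 0 < δ) :
    ∃ (u' : Fin 6 → Heis → O) (G' : Fin 4 → F → O) (s' : X → O) (a' : O),
      IsModel δ u' G' s' a' := by
  classical
  have hsec : ∀ y : U, ∃ x : ℕ →ᵇ O, q x = y := hq.surjective
  choose σ hσ using hsec
  set L : A → (ℕ →ᵇ O) := fun z => σ (φ z) with hL
  have hqL : ∀ z : A, q (L z) = φ z := fun z => hσ (φ z)
  have key : ∀ x : ℕ →ᵇ O, q x = 0 → ∀ᶠ n in (ω : Filter ℕ), ‖x n‖ ≤ δ := by
    intro x hx
    have h1 := (hq.eq_zero_iff x).1 hx
    exact (h1.eventually (gt_mem_nhds hδ)).mono fun n hn => le_of_lt hn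
  have z0 : ∀ z : A, ‖z‖ ≤ 0 → z = 0 := fun z hz => norm_le_zero_iff.1 hz
  have e1 : ∀ᶠ n in (ω : Filter ℕ), ∀ e, ‖L (u e 1) n - 1‖ ≤ δ := by
    rw [eventually_all]
    intro e
    have h := key (L (u e 1) - 1) (by
      rw [map_sub, hqL, map_one, ← map_one φ, ← map_sub, z0 _ (hm.sys.one e), map_zero])
    exact h.mono fun n hn => by simpa using hn
  have e2 : ∀ᶠ n in (ω : Filter ℕ), ∀ e g h,
      ‖L (u e g) n * L (u e h) n - L (u e (g * h)) n‖ ≤ δ := by
    rw [eventually_all]; intro e
    rw [eventually_all]; intro g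
    rw [eventually_all]; intro k
    have h := key (L (u e g) * L (u e k) - L (u e (g * k))) (by
      rw [map_sub, map_mul, hqL, hqL, hqL, ← map_mul, ← map_sub, z0 _ (hm.sys.mul e g k),
        map_zero])
    exact h.mono fun n hn => by simpa using hn
  have e3 : ∀ᶠ n in (ω : Filter ℕ), ∀ e g, ‖star (L (u e g) n) - L (u e g⁻¹) n‖ ≤ δ := by
    rw [eventually_all]; intro e
    rw [eventually_all]; intro g
    have h := key (star (L (u e g)) - L (u e g⁻¹)) (by
      rw [map_sub, map_star, hqL, hqL, ← map_star, ← map_sub, z0 _ (hm.sys.star e g), map_zero])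
    exact h.mono fun n hn => by simpa using hn
  have e4 : ∀ᶠ n in (ω : Filter ℕ), ∀ v v',
      ‖star (L (s v) n) * L (s v') n - (if v = v' then 1 else 0)‖ ≤ δ := by
    rw [eventually_all]; intro v
    rw [eventually_all]; intro v'
    have h := key (star (L (s v)) * L (s v') - (if v = v' then 1 else 0)) (by
      have h2 : q (if v = v' then 1 else 0) = φ (if v = v' then 1 else 0) := by
        split_ifs <;> simp
      rw [map_sub, map_mul, map_star, hqL, hqL, h2, ← map_star, ← map_mul, ← map_sub,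
        z0 _ (hm.iso v v'), map_zero])
    refine h.mono fun n hn => ?_
    by_cases hv : v = v'
    · simpa [hv] using hn
    · simpa [hv] using hn
  have e5 : ∀ᶠ n in (ω : Filter ℕ), ∀ c v,
      ‖L (G 0 c) n * L (s v) n - L (s ((gen 0 c).fst v)) n * L (G 0 c) n‖ ≤ δ := by
    rw [eventually_all]; intro c
    rw [eventually_all]; intro v
    have h := key (L (G 0 c) * L (s v) - L (s ((gen 0 c).fst v)) * L (G 0 c)) (by
      rw [map_sub, map_mul, map_mul, hqL, hqL, hqL, ← map_mul, ← map_mul, ← map_sub,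
        z0 _ (hm.sec0 c v), map_zero])
    exact h.mono fun n hn => by simpa using hn
  have e6 : ∀ᶠ n in (ω : Filter ℕ), ∀ c v,
      ‖L (G 1 c) n * L (s v) n - L (s ((gen 1 c).fst v)) n * L (G 1 c) n‖ ≤ δ := by
    rw [eventually_all]; intro c
    rw [eventually_all]; intro v
    have h := key (L (G 1 c) * L (s v) - L (s ((gen 1 c).fst v)) * L (G 1 c)) (by
      rw [map_sub, map_mul, map_mul, hqL, hqL, hqL, ← map_mul, ← map_mul, ← map_sub,
        z0 _ (hm.sec1 c v), map_zero])
    exact h.mono fun n hn => by simpa using hn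
  have e7 : ∀ᶠ n in (ω : Filter ℕ), ∀ c (v : X),
      ‖L (G 2 c) n * L (s v) n - L (s v) n * L (u 5 (⟨c, 0, 0⟩ * ⟨0, c * v 0, 0⟩)) n‖ ≤ δ := by
    rw [eventually_all]; intro c
    rw [eventually_all]; intro v
    have h := key (L (G 2 c) * L (s v) - L (s v) * L (u 5 (⟨c, 0, 0⟩ * ⟨0, c * v 0, 0⟩))) (by
      rw [map_sub, map_mul, map_mul, hqL, hqL, hqL, ← map_mul, ← map_mul, ← map_sub,
        z0 _ (hm.sec2 c v), map_zero])
    exact h.mono fun n hn => by simpa using hn
  have e8 : ∀ᶠ n in (ω : Filter ℕ), ∀ c v,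
      ‖L (G 3 c) n * L (s v) n - L (s ((gen 3 c).fst v)) n‖ ≤ δ := by
    rw [eventually_all]; intro c
    rw [eventually_all]; intro v
    have h := key (L (G 3 c) * L (s v) - L (s ((gen 3 c).fst v))) (by
      rw [map_sub, map_mul, hqL, hqL, hqL, ← map_mul, ← map_sub,
        z0 _ (hm.sec3 c v), map_zero])
    exact h.mono fun n hn => by simpa using hn
  have e9 : ∀ᶠ n in (ω : Filter ℕ), ‖star (L a n) * L a n - 1‖ ≤ δ := by
    have h := key (star (L a) * L a - 1) (by
      rw [map_sub, map_mul, map_star, hqL, map_one, ← map_one φ, ← map_star, ← map_mul,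
        ← map_sub, z0 _ hm.baseIso, map_zero])
    exact h.mono fun n hn => by simpa using hn
  have e10 : ∀ᶠ n in (ω : Filter ℕ), ∀ i c, ‖L (G i c) n * L a n - L a n‖ ≤ δ := by
    rw [eventually_all]; intro i
    rw [eventually_all]; intro c
    have h := key (L (G i c) * L a - L a) (by
      rw [map_sub, map_mul, hqL, hqL, ← map_mul, ← map_sub, z0 _ (hm.base i c), map_zero])
    exact h.mono fun n hn => by simpa using hn
  obtain ⟨n, h1, h2, h3, h4, h5, h6, h7, h8, h9, h10⟩ := (e1.and (e2.and (e3.and (e4.and (e5.and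
    (e6.and (e7.and (e8.and (e9.and e10))))))))).exists
  refine ⟨fun e g => L (u e g) n, fun i c => L (G i c) n, fun v => L (s v) n, L a n, ?_⟩
  exact
    { sys :=
        { src := fun e c => by
            show L (u e ⟨c, 0, 0⟩) n = L (G (src e) c) n
            rw [hm.sys.src]
          tgt := fun e c => by
            show L (u e ⟨0, c, 0⟩) n = L (G (tgt e) c) n
            rw [hm.sys.tgt]
          one := h1
          mul := h2
          star := h3 }
      iso := h4
      sec0 := h5
      sec1 := h6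
      sec2 := h7
      sec3 := h8
      baseIso := h9
      base := h10 }

end Vale.Agent.P083
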