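import Mathlib
import Vale.Agent.Lib.P083.Levels
import Vale.Agent.Lib.P083.NoLevels
import Vale.Agent.Lib.P083.Model
import Vale.Agent.Lib.P083.UltraLift
import Vale.Agent.Lib.P083.States
import Vale.Agent.Lib.P083.UltraExists

/-!
# P083: assembly
-/

namespace Vale.Agent.P083

open scoped BigOperators InnerProductSpace Topology BoundedContinuousFunction
open Filter

/-- a *-homomorphism maps a model to a model -/
theorem IsModel.map {O B : Type*} [CStarAlgebra O] [CStarAlgebra B] (ρ : O →⋆ₐ[ℂ] B) {δ : ℝ}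
    {u : Fin 6 → Heis → O} {G : Fin 4 → F → O} {s : X → O} {a : O} (hm : IsModel δ u G s a) :
    IsModel δ (fun e g => ρ (u e g)) (fun i c => ρ (G i c)) (fun v => ρ (s v)) (ρ a) := by
  have hn : ∀ x : O, ‖ρ x‖ ≤ ‖x‖ := fun x => NonUnitalStarAlgHom.norm_apply_le ρ x
  refine ⟨⟨?_, ?_, ?_, ?_, ?_⟩, ?_, ?_, ?_, ?_, ?_, ?_, ?_⟩
  · intro e c
    rw [hm.sys.src]
  · intro e c
    rw [hm.sys.tgt]
  · intro e
    have h := (hn (u e 1 - 1)).trans (hm.sys.one e)
    simpa only [map_sub, map_one] using h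
  · intro e g h
    have h := (hn _).trans (hm.sys.mul e g h)
    simpa only [map_sub, map_mul] using h
  · intro e g
    have h := (hn _).trans (hm.sys.star e g)
    simpa only [map_sub, map_star] using h
  · intro v v'
    have h := (hn _).trans (hm.iso v v')
    split_ifs at h ⊢ <;> simpa only [map_sub, map_mul, map_star, map_one, map_zero] using h
  · intro c v
    have h := (hn _).trans (hm.sec0 c v)
    simpa only [map_sub, map_mul] using h
  · intro c v
    have h := (hn _).trans (hm.sec1 c v)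
    simpa only [map_sub, map_mul] using h
  · intro c v
    have h := (hn _).trans (hm.sec2 c v)
    simpa only [map_sub, map_mul] using h
  · intro c v
    have h := (hn _).trans (hm.sec3 c v)
    simpa only [map_sub, map_mul] using h
  · have h := (hn _).trans hm.baseIso
    simpa only [map_sub, map_mul, map_star, map_one] using h
  · intro i c
    have h := (hn _).trans (hm.base i c)
    simpa only [map_sub, map_mul] using h

/-- norms of the generators in an approximate model -/
theorem norm_G_le' {B : Type*} [CStarAlgebra B] {u : Fin 6 → Heis → B} {G : Fin 4 → F → B}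
    {δ : ℝ} (h1 : δ ≤ 1 / 10 ^ 16) (hs : IsSys δ u G) (i : Fin 4) (c : F) :
    ‖G i c‖ ≤ 1 + 1 / 10 ^ 6 := by
  have key : ∀ e g, ‖u e g‖ ≤ 1 + 1 / 10 ^ 6 := by
    intro e g
    have h2 : ‖star (u e g) * u e g‖ = ‖u e g‖ * ‖u e g‖ := CStarRing.norm_star_mul_self
    have h3 : star (u e g) * u e g = (star (u e g) - u e g⁻¹) * u e g +
        (u e g⁻¹ * u e g - u e (g⁻¹ * g)) + (u e 1 - 1) + 1 := by
      rw [inv_mul_cancel]; noncomm_ring
    have h4 : ‖(1 : B)‖ ≤ 1 := by
      rcases subsingleton_or_nontrivial B with hB | hB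
      · rw [Subsingleton.elim (1 : B) 0, norm_zero]; exact zero_le_one
      · rw [norm_one]
    have h5 : ‖u e g‖ * ‖u e g‖ ≤ δ * ‖u e g‖ + δ + δ + 1 := by
      rw [← h2, h3]
      refine (norm_add_le _ _).trans (add_le_add ((norm_add_le _ _).trans (add_le_add
        ((norm_add_le _ _).trans (add_le_add ?_ (hs.mul e g⁻¹ g))) (hs.one e))) h4)
      exact (norm_mul_le _ _).trans (mul_le_mul_of_nonneg_right (hs.star e g) (norm_nonneg _))
    by_contra hcon
    push Not at hcon
    nlinarith [norm_nonneg (u e g)]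
  fin_cases i
  · have := key 0 ⟨c, 0, 0⟩
    rw [hs.src] at this
    exact this
  · have := key 1 ⟨c, 0, 0⟩
    rw [hs.src] at this
    exact this
  · have := key 2 ⟨c, 0, 0⟩
    rw [hs.src] at this
    exact this
  · have := key 3 ⟨0, c, 0⟩
    rw [hs.tgt] at this
    exact this

/-- no approximate model in a C*-algebra generated by a Cuntz pair -/
theorem no_model {O : Type} [CStarAlgebra O] [Nontrivial O] {S : Fin 2 → O} (hS : IsCuntzPair S)
    (hgen : (StarAlgebra.adjoin ℂ (Set.range S)).topologicalClosure = ⊤)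
    {u : Fin 6 → Heis → O} {G : Fin 4 → F → O} {s : X → O} {a : O}
    (hm : IsModel (1 / 10 ^ 16) u G s a) : False := by
  obtain ⟨H, _, _, _, _, ⟨ρ⟩⟩ := exists_rep O
  have hm' := IsModel.map ρ hm
  have hS' : IsCuntzPair (fun i => ρ (S i)) := by
    constructor
    · intro i
      rw [← map_star, ← map_mul, hS.isometry, map_one]
    · rw [← map_star, ← map_star, ← map_mul, ← map_mul, ← map_add, hS.sum, map_one]
  choose Z hZ using fun k => exists_permSysW (k + 1)
  have hcont : Continuous ρ := by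
    have hn : ∀ x : O, ‖ρ x‖ ≤ 1 * ‖x‖ := fun x => by
      rw [one_mul]; exact NonUnitalStarAlgHom.norm_apply_le ρ x
    exact AddMonoidHomClass.continuous_of_bound ρ 1 hn
  have hmem : ∀ x : O, ρ x ∈
      (StarAlgebra.adjoin ℂ (Set.range fun i => ρ (S i))).topologicalClosure := by
    intro x
    have hx : x ∈ (StarAlgebra.adjoin ℂ (Set.range S)).topologicalClosure := by
      rw [hgen]; trivial
    have h1 : (StarAlgebra.adjoin ℂ (Set.range S)).map ρ =
        StarAlgebra.adjoin ℂ (Set.range fun i => ρ (S i)) := by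
      rw [StarAlgHom.map_adjoin, ← Set.range_comp]
      rfl
    rw [← h1]
    have hx' : x ∈ closure ((StarAlgebra.adjoin ℂ (Set.range S) : StarSubalgebra ℂ O) : Set O) := hx
    have h2 : ρ x ∈ closure (ρ '' ((StarAlgebra.adjoin ℂ (Set.range S) : StarSubalgebra ℂ O) : Set O)) :=
      image_closure_subset_closure_image hcont ⟨x, hx', rfl⟩
    exact h2
  refine no_levels hS' (fun i c => ρ (G i c)) (fun i c => hmem _) (fun i c => ?_) Z hZ
    (fun k => all_levels hm' Z hZ k)
  exact norm_G_le' le_rfl hm'.sys i c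

theorem main_thm : ∃ (A : Type) (_ : CStarAlgebra A) (_ : Nontrivial A),
    TopologicalSpace.SeparableSpace A ∧
    ∀ (O : Type) [CStarAlgebra O] [Nontrivial O] (s : Fin 2 → O), IsCuntzPair s →
      (StarAlgebra.adjoin ℂ (Set.range s)).topologicalClosure = ⊤ →
      ∀ ω : Ultrafilter ℕ,
        (∃ (U : Type) (_ : CStarAlgebra U) (q : (ℕ →ᵇ O) →⋆ₐ[ℂ] U), IsUltrapowerMap ω q) ∧
        ∀ (U : Type) [CStarAlgebra U] (q : (ℕ →ᵇ O) →⋆ₐ[ℂ] U), IsUltrapowerMap ω q →
          IsEmpty (A →⋆ₐ[ℂ] U) := by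
  obtain ⟨A, _, _, hsep, u, G, s, a, hm⟩ := exists_model
  refine ⟨A, inferInstance, inferInstance, hsep, ?_⟩
  intro O _ _ S hS hgen ω
  refine ⟨exists_ultrapower O ω, ?_⟩
  intro U _ q hq
  refine ⟨fun φ => ?_⟩
  obtain ⟨u', G', s', a', hm'⟩ := lift_model hq φ hm (δ := 1 / 10 ^ 16) (by norm_num)
  exact no_model hS hgen hm'

end Vale.Agent.P083
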