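import Mathlib
import Vale.Agent.Lib.P083.States

/-!
# P083: for every element of a C*-algebra there is a representation attaining its norm
-/

namespace Vale.Agent.P083

open scoped ComplexOrder
open Complex

namespace RepNorm

attribute [local instance] CStarAlgebra.spectralOrder CStarAlgebra.spectralOrderedRing

variable {O : Type} [CStarAlgebra O] [Nontrivial O]

/-- a state attaining the norm of a nonzero positive element -/
theorem exists_state (a : O) (ha : 0 ≤ a) (ha0 : a ≠ 0) :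
    ∃ g : StrongDual ℂ O, ‖g‖ = 1 ∧ g 1 = 1 ∧ g a = (‖a‖ : ℂ) := by
  have hpos : 0 < ‖a‖ := norm_pos_iff.2 ha0
  have hle : 2 * ‖a‖ ≤ ‖algebraMap ℝ O ‖a‖ + a‖ := by
    have h1 : ‖a‖ ∈ spectrum ℝ a := CStarAlgebra.norm_mem_spectrum_of_nonneg ha
    have h2 : ‖a‖ + ‖a‖ ∈ spectrum ℝ (algebraMap ℝ O ‖a‖ + a) :=
      spectrum.add_mem_add_iff.2 h1
    have h3 := spectrum.norm_le_norm_of_mem h2
    rw [Real.norm_of_nonneg (by positivity)] at h3
    linarith
  have hne : algebraMap ℝ O ‖a‖ + a ≠ 0 := by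
    intro h
    rw [h, norm_zero] at hle
    linarith
  obtain ⟨g, hg, h1⟩ := exists_dual_vector ℂ (algebraMap ℝ O ‖a‖ + a) (by
    rw [Ne, norm_eq_zero]
    exact hne)
  have e1 : algebraMap ℝ O ‖a‖ = (‖a‖ : ℂ) • (1 : O) := by
    rw [Algebra.algebraMap_eq_smul_one]
    exact (Complex.coe_smul _ _).symm
  have h2 : g (algebraMap ℝ O ‖a‖ + a) = ‖a‖ * g 1 + g a := by
    rw [map_add, e1, map_smul, smul_eq_mul]
  rw [h2] at h1
  have b1 : ‖g 1‖ ≤ 1 := by
    have := g.le_opNorm (1 : O)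
    rwa [hg, norm_one, one_mul] at this
  have b2 : ‖g a‖ ≤ ‖a‖ := by
    have := g.le_opNorm a
    rwa [hg, one_mul] at this
  have b3 : 2 * ‖a‖ ≤ ‖a‖ * (g 1).re + (g a).re := by
    have := congrArg Complex.re h1
    simp at this
    rw [this]
    exact hle
  have r1 : (g 1).re ≤ 1 := (Complex.re_le_norm _).trans b1
  have r2 : (g a).re ≤ ‖a‖ := (Complex.re_le_norm _).trans b2
  have r3 : (g 1).re = 1 := by nlinarith
  have r4 : (g a).re = ‖a‖ := by nlinarith
  refine ⟨g, hg, ?_, ?_⟩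
  · have h5 : (g 1).im = 0 := by
      have h6 : ‖g 1‖ ^ 2 = (g 1).re ^ 2 + (g 1).im ^ 2 := by
        rw [← normSq_eq_norm_sq, normSq_apply]; ring
      have h7 : ‖g 1‖ ^ 2 ≤ 1 := by nlinarith [norm_nonneg (g 1)]
      rw [h6, r3] at h7
      nlinarith [sq_nonneg (g 1).im]
    exact Complex.ext (by simpa using r3) (by simpa using h5)
  · have h5 : (g a).im = 0 := by
      have h6 : ‖g a‖ ^ 2 = (g a).re ^ 2 + (g a).im ^ 2 := by
        rw [← normSq_eq_norm_sq, normSq_apply]; ring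
      have h7 : ‖g a‖ ^ 2 ≤ ‖a‖ ^ 2 := by nlinarith [norm_nonneg (g a)]
      rw [h6, r4] at h7
      nlinarith [sq_nonneg (g a).im]
    exact Complex.ext (by simpa using r4) (by simpa using h5)

end RepNorm

open RepNorm in
theorem exists_rep_norm (O : Type) [CStarAlgebra O] [Nontrivial O] (x : O) :
    ∃ (H : Type) (_ : NormedAddCommGroup H) (_ : InnerProductSpace ℂ H) (_ : CompleteSpace H)
      (_ : Nontrivial H) (ρ : O →⋆ₐ[ℂ] (H →L[ℂ] H)), ‖ρ x‖ = ‖x‖ := by
  let _ := CStarAlgebra.spectralOrder O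
  let _ := CStarAlgebra.spectralOrderedRing O
  by_cases hx : x = 0
  · obtain ⟨H, i1, i2, i3, i4, ⟨ρ⟩⟩ := exists_rep O
    exact ⟨H, i1, i2, i3, i4, ρ, by rw [hx, map_zero, norm_zero, norm_zero]⟩
  have ha : 0 ≤ star x * x := star_mul_self_nonneg x
  have hn : ‖star x * x‖ = ‖x‖ * ‖x‖ := CStarRing.norm_star_mul_self
  have ha0 : star x * x ≠ 0 := by
    intro h
    rw [h, norm_zero] at hn
    have : 0 < ‖x‖ := norm_pos_iff.2 hx
    nlinarith
  obtain ⟨g, hg, h1, h2⟩ := exists_state (star x * x) ha ha0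
  let f : O →ₚ[ℂ] ℂ := PositiveLinearMap.mk₀ (g : O →ₗ[ℂ] ℂ) (fun a ha => States.pos g hg h1 a ha)
  have key : ∀ y : O, ‖((f.toPreGNS y : f.PreGNS) : f.GNS)‖ ^ 2 = (g (star y * y)).re := by
    intro y
    rw [UniformSpace.Completion.norm_coe]
    have := congrArg Complex.re (f.preGNS_norm_sq (f.toPreGNS y))
    rw [f.ofPreGNS_toPreGNS] at this
    have h3 : (f (star y * y)).re = (g (star y * y)).re := rfl
    rw [← h3, ← this]
    norm_cast
  have k1 : ‖((f.toPreGNS 1 : f.PreGNS) : f.GNS)‖ = 1 := by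
    have := key 1
    rw [star_one, mul_one, h1] at this
    simp only [Complex.one_re] at this
    have h3 := norm_nonneg ((f.toPreGNS 1 : f.PreGNS) : f.GNS)
    nlinarith
  have k2 : ‖((f.toPreGNS x : f.PreGNS) : f.GNS)‖ = ‖x‖ := by
    have := key x
    rw [h2, hn] at this
    simp only [Complex.ofReal_re] at this
    have h3 := norm_nonneg ((f.toPreGNS x : f.PreGNS) : f.GNS)
    have h4 := norm_nonneg x
    nlinarith
  have k3 : f.gnsStarAlgHom x ((f.toPreGNS 1 : f.PreGNS) : f.GNS) =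
      ((f.toPreGNS x : f.PreGNS) : f.GNS) := by
    change f.gnsNonUnitalStarAlgHom x ((f.toPreGNS 1 : f.PreGNS) : f.GNS) = _
    rw [f.gnsNonUnitalStarAlgHom_apply_coe, f.leftMulMapPreGNS_apply, f.ofPreGNS_toPreGNS, mul_one]
  refine ⟨f.GNS, inferInstance, inferInstance, inferInstance, ?_, f.gnsStarAlgHom, ?_⟩
  · refine ⟨⟨((f.toPreGNS 1 : f.PreGNS) : f.GNS), 0, ?_⟩⟩
    intro h
    rw [h, norm_zero] at k1
    exact zero_ne_one k1
  · refine le_antisymm (NonUnitalStarAlgHom.norm_apply_le f.gnsStarAlgHom x) ?_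
    have h4 := (f.gnsStarAlgHom x).le_opNorm ((f.toPreGNS 1 : f.PreGNS) : f.GNS)
    rw [k3, k1, k2, mul_one] at h4
    exact h4

end Vale.Agent.P083
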