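import Mathlib
import Vale.Agent.Lib.P083.Final
import Vale.Agent.Lib.P083.Words
import Vale.Agent.Lib.P083.RepNorm
import Vale.Agent.Lib.P083.CuntzNorm

/-!
# P083: the universal property of the Cuntz algebra
-/

namespace Vale.Agent.P083

open scoped BigOperators InnerProductSpace Topology BoundedContinuousFunction ENNReal ComplexOrder
open Filter

namespace CuntzUniversal

section Basic

variable {O B : Type*} [CStarAlgebra O] [CStarAlgebra B] {S : Fin 2 → O} {T : Fin 2 → B}

/-- the pair in the product algebra -/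
def pr (S : Fin 2 → O) (T : Fin 2 → B) : Fin 2 → O × B := fun i => (S i, T i)

theorem pr_cuntz (hS : IsCuntzPair S) (hT : IsCuntzPair T) : IsCuntzPair (pr S T) :=
  ⟨fun i => Prod.ext (hS.isometry i) (hT.isometry i), Prod.ext hS.sum hT.sum⟩

theorem wd_pr (α : List (Fin 2)) : wd (pr S T) α = (wd S α, wd T α) := by
  induction α with
  | nil => rfl
  | cons i α ih =>
    change pr S T i * wd (pr S T) α = _
    rw [ih]
    rfl

theorem map_wd (ρ : O →⋆ₐ[ℂ] B) (α : List (Fin 2)) :
    ρ (wd S α) = wd (fun i => ρ (S i)) α := by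
  induction α with
  | nil => exact map_one ρ
  | cons i α ih =>
    change ρ (S i * wd S α) = ρ (S i) * wd (fun i => ρ (S i)) α
    rw [map_mul, ih]

theorem map_cuntz (ρ : O →⋆ₐ[ℂ] B) (hS : IsCuntzPair S) : IsCuntzPair (fun i => ρ (S i)) := by
  refine ⟨fun i => ?_, ?_⟩
  · rw [← map_star, ← map_mul, hS.isometry, map_one]
  · rw [← map_star, ← map_star, ← map_mul, ← map_mul, ← map_add, hS.sum, map_one]

end Basic

section Main

variable {O B : Type} [CStarAlgebra O] [CStarAlgebra B] {S : Fin 2 → O} {T : Fin 2 → B}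

/-- the norm inequality on the star algebra generated by the pair in the product -/
theorem norm_le_adjoin [Nontrivial O] (hS : IsCuntzPair S) (hT : IsCuntzPair T) {x : O × B}
    (hx : x ∈ StarAlgebra.adjoin ℂ (Set.range (pr S T))) : ‖x.2‖ ≤ ‖x.1‖ := by
  rcases subsingleton_or_nontrivial B with hB | hB
  · rw [Subsingleton.elim x.2 0, norm_zero]
    exact norm_nonneg _
  have h1 := adjoin_le_span (pr_cuntz hS hT) hx
  obtain ⟨H, i1, i2, i3, i4, ⟨ρ⟩⟩ := exists_rep O
  obtain ⟨K, j1, j2, j3, j4, τ, hτ⟩ := exists_rep_norm B x.2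
  have h2 := Submodule.mem_map_of_mem (f := LinearMap.prodMap (ρ : O →ₗ[ℂ] (H →L[ℂ] H))
    (τ : B →ₗ[ℂ] (K →L[ℂ] K))) h1
  rw [Submodule.map_span, ← Set.range_comp] at h2
  have h3 := cuntz_norm_ops (map_cuntz ρ hS) (map_cuntz τ hT) (ρ x.1, τ x.2) (by
    have e : (fun q : List (Fin 2) × List (Fin 2) =>
        (wd (fun i => ρ (S i)) q.1 * star (wd (fun i => ρ (S i)) q.2),
          wd (fun i => τ (T i)) q.1 * star (wd (fun i => τ (T i)) q.2))) =
        ⇑(LinearMap.prodMap (ρ : O →ₗ[ℂ] (H →L[ℂ] H)) (τ : B →ₗ[ℂ] (K →L[ℂ] K))) ∘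
          fun q : List (Fin 2) × List (Fin 2) => wd (pr S T) q.1 * star (wd (pr S T) q.2) := by
      funext q
      change _ = (ρ (wd (pr S T) q.1 * star (wd (pr S T) q.2)).1,
        τ (wd (pr S T) q.1 * star (wd (pr S T) q.2)).2)
      rw [wd_pr, wd_pr]
      change _ = (ρ (wd S q.1 * star (wd S q.2)), τ (wd T q.1 * star (wd T q.2)))
      rw [map_mul, map_mul, map_star, map_star, map_wd, map_wd, map_wd, map_wd]
    rw [e]
    exact h2)
  calc ‖x.2‖ = ‖τ x.2‖ := hτ.symm
    _ ≤ ‖ρ x.1‖ := h3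
    _ ≤ ‖x.1‖ := NonUnitalStarAlgHom.norm_apply_le ρ x.1

/-- the closed star algebra generated by the pair in the product -/
def R (S : Fin 2 → O) (T : Fin 2 → B) : StarSubalgebra ℂ (O × B) :=
  (StarAlgebra.adjoin ℂ (Set.range (pr S T))).topologicalClosure

theorem norm_le_R [Nontrivial O] (hS : IsCuntzPair S) (hT : IsCuntzPair T) {x : O × B}
    (hx : x ∈ R S T) : ‖x.2‖ ≤ ‖x.1‖ := by
  have hc : IsClosed {x : O × B | ‖x.2‖ ≤ ‖x.1‖} :=
    isClosed_le (continuous_snd.norm) (continuous_fst.norm)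
  have h1 : closure ((StarAlgebra.adjoin ℂ (Set.range (pr S T)) : StarSubalgebra ℂ (O × B)) :
      Set (O × B)) ⊆ {x : O × B | ‖x.2‖ ≤ ‖x.1‖} :=
    closure_minimal (fun y hy => norm_le_adjoin hS hT hy) hc
  exact h1 hx

theorem pr_mem (i : Fin 2) : pr S T i ∈ R S T :=
  StarSubalgebra.le_topologicalClosure _ (StarAlgebra.subset_adjoin ℂ _ ⟨i, rfl⟩)

theorem isClosed_R : IsClosed (R S T : Set (O × B)) :=
  StarSubalgebra.isClosed_topologicalClosure _

theorem exists_mem [Nontrivial O] (hS : IsCuntzPair S) (hT : IsCuntzPair T)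
    (hgen : (StarAlgebra.adjoin ℂ (Set.range S)).topologicalClosure = ⊤) (a : O) :
    ∃ b : B, (a, b) ∈ R S T := by
  have hcomp : CompleteSpace (R S T) := isClosed_R.completeSpace_coe
  have hiso : Isometry (fun x : R S T => (x : O × B).1) := by
    refine Isometry.of_dist_eq fun x y => ?_
    rw [dist_eq_norm, Subtype.dist_eq, dist_eq_norm, Prod.norm_def]
    have h := norm_le_R hS hT ((R S T).sub_mem x.2 y.2)
    exact (max_eq_left h).symm
  have hcl : IsClosed ((StarSubalgebra.map (StarAlgHom.fst ℂ O B) (R S T) :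
      StarSubalgebra ℂ O) : Set O) := by
    have h1 := hiso.isClosedEmbedding.isClosed_range
    have h2 : Set.range (fun x : R S T => (x : O × B).1) =
        ((StarSubalgebra.map (StarAlgHom.fst ℂ O B) (R S T) : StarSubalgebra ℂ O) : Set O) := by
      ext y
      constructor
      · rintro ⟨x, rfl⟩
        exact ⟨x, x.2, rfl⟩
      · rintro ⟨x, hx, rfl⟩
        exact ⟨⟨x, hx⟩, rfl⟩
    rwa [h2] at h1
  have hle : StarAlgebra.adjoin ℂ (Set.range S) ≤
      StarSubalgebra.map (StarAlgHom.fst ℂ O B) (R S T) := by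
    refine StarAlgebra.adjoin_le ?_
    rintro _ ⟨i, rfl⟩
    exact ⟨pr S T i, pr_mem i, rfl⟩
  have htop := StarSubalgebra.topologicalClosure_minimal hle hcl
  rw [hgen] at htop
  obtain ⟨x, hx, hxa⟩ := htop (StarSubalgebra.mem_top (x := a))
  refine ⟨x.2, ?_⟩
  have : (a, x.2) = x := Prod.ext hxa.symm rfl
  rw [this]
  exact hx

theorem unique_mem [Nontrivial O] (hS : IsCuntzPair S) (hT : IsCuntzPair T) {a : O} {b c : B}
    (hb : (a, b) ∈ R S T) (hc : (a, c) ∈ R S T) : b = c := by
  have h := norm_le_R hS hT ((R S T).sub_mem hb hc)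
  change ‖b - c‖ ≤ ‖a - a‖ at h
  rw [sub_self, norm_zero] at h
  exact sub_eq_zero.1 (norm_le_zero_iff.1 h)

end Main

end CuntzUniversal

open CuntzUniversal in
/-- the universal property: every Cuntz pair of a unital C*-algebra is the image of the given
generating one under a unique unital *-homomorphism -/
theorem cuntz_universal {O : Type} [CStarAlgebra O] [Nontrivial O] {S : Fin 2 → O}
    (hS : IsCuntzPair S) (hgen : (StarAlgebra.adjoin ℂ (Set.range S)).topologicalClosure = ⊤)
    (B : Type) [CStarAlgebra B] (T : Fin 2 → B) (hT : IsCuntzPair T) :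
    ∃! f : O →⋆ₐ[ℂ] B, ∀ i, f (S i) = T i := by
  choose F hF using exists_mem hS hT hgen
  have key : ∀ {a b}, (a, b) ∈ R S T → F a = b := fun {a b} h => unique_mem hS hT (hF a) h
  refine ⟨{ toFun := F
            map_one' := key (one_mem (R S T))
            map_mul' := fun a b => key (mul_mem (hF a) (hF b))
            map_zero' := key (zero_mem (R S T))
            map_add' := fun a b => key (add_mem (hF a) (hF b))
            commutes' := fun r => key (algebraMap_mem (R S T) r)
            map_star' := fun a => key (star_mem (hF a)) }, fun i => key (pr_mem i), ?_⟩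
  intro g hg
  have hgc : Continuous g := AddMonoidHomClass.continuous_of_bound g 1 (fun x => by
    rw [one_mul]
    exact NonUnitalStarAlgHom.norm_apply_le g x)
  ext a
  change g a = F a
  refine (key ?_).symm
  have hcl : IsClosed {a : O | (a, g a) ∈ R S T} :=
    (isClosed_R (S := S) (T := T)).preimage (continuous_id.prodMk hgc)
  have hle : StarAlgebra.adjoin ℂ (Set.range S) ≤
      StarSubalgebra.comap (StarAlgHom.prod (StarAlgHom.id ℂ O) g) (R S T) := by
    refine StarAlgebra.adjoin_le ?_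
    rintro _ ⟨i, rfl⟩
    change (S i, g (S i)) ∈ R S T
    rw [hg i]
    exact pr_mem i
  have htop := StarSubalgebra.topologicalClosure_minimal hle hcl
  rw [hgen] at htop
  exact htop (StarSubalgebra.mem_top (x := a))

end Vale.Agent.P083
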