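import Mathlib
import Vale.Agent.Lib.P083.Stmt

/-!
# P083: the Cuntz algebra by its universal property
-/

namespace Vale.Agent.P083

/-- `O`, with `s 0`, `s 1`, is the Cuntz algebra `O_2`: the universal unital C*-algebra generated by
two isometries with `s₀ s₀* + s₁ s₁* = 1`.  (Every Cuntz pair in a unital C*-algebra is the image of
`s` under exactly one unital *-homomorphism.) -/
structure IsCuntzTwo {O : Type} [CStarAlgebra O] (s : Fin 2 → O) : Prop where
  rel : IsCuntzPair s
  universal : ∀ (B : Type) [CStarAlgebra B] (t : Fin 2 → B), IsCuntzPair t →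
    ∃! f : O →⋆ₐ[ℂ] B, ∀ i, f (s i) = t i

end Vale.Agent.P083
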