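import Mathlib
import Vale.Agent.Lib.P083.StmtO2
import Vale.Agent.Lib.P083.Final
import Vale.Agent.Lib.P083.CuntzConcrete
import Vale.Agent.Lib.P083.RepNorm
import Vale.Agent.Lib.P083.CuntzNorm
import Vale.Agent.Lib.P083.CuntzUniversal

/-!
# P083: assembly of the second form
-/

namespace Vale.Agent.P083

open scoped Topology BoundedContinuousFunction
open Filter

theorem IsCuntzTwo.nontrivial {O : Type} [CStarAlgebra O] {s : Fin 2 → O} (hs : IsCuntzTwo s) :
    Nontrivial O := by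
  obtain ⟨B, _, _, t, ht, -⟩ := exists_cuntz
  obtain ⟨f, -, -⟩ := hs.universal B t ht
  refine ⟨⟨0, 1, fun h => ?_⟩⟩
  have h1 : f 0 = f 1 := by rw [h]
  rw [map_zero, map_one] at h1
  exact zero_ne_one h1

theorem IsCuntzTwo.generates {O : Type} [CStarAlgebra O] {s : Fin 2 → O} (hs : IsCuntzTwo s) :
    (StarAlgebra.adjoin ℂ (Set.range s)).topologicalClosure = ⊤ := by
  let R := (StarAlgebra.adjoin ℂ (Set.range s)).topologicalClosure
  have : IsClosed (R : Set O) := StarSubalgebra.isClosed_topologicalClosure _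
  have hmem : ∀ i, s i ∈ R := fun i =>
    StarSubalgebra.le_topologicalClosure _ (StarAlgebra.subset_adjoin ℂ _ ⟨i, rfl⟩)
  let t : Fin 2 → R := fun i => ⟨s i, hmem i⟩
  have ht : IsCuntzPair t := by
    constructor
    · intro i
      exact Subtype.ext (hs.rel.isometry i)
    · exact Subtype.ext hs.rel.sum
  obtain ⟨f, hf, -⟩ := hs.universal R t ht
  obtain ⟨g, -, hg⟩ := hs.universal O s hs.rel
  have h1 : R.subtype.comp f = StarAlgHom.id ℂ O := by
    rw [hg (R.subtype.comp f) (fun i => by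
      change ((f (s i) : R) : O) = s i
      rw [hf i]), hg (StarAlgHom.id ℂ O) (fun i => rfl)]
  refine eq_top_iff.2 fun x _ => ?_
  have h2 : ((f x : R) : O) = x := by
    have := congrArg (fun φ : O →⋆ₐ[ℂ] O => φ x) h1
    exact this
  rw [← h2]
  exact (f x).2

theorem exists_cuntzTwo : ∃ (O : Type) (_ : CStarAlgebra O) (s : Fin 2 → O), IsCuntzTwo s := by
  obtain ⟨O, _, _, s, hs, hgen⟩ := exists_cuntz
  exact ⟨O, inferInstance, s, hs, fun B _ t ht => cuntz_universal hs hgen B t ht⟩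

theorem main_thmU : (∃ (O : Type) (_ : CStarAlgebra O) (s : Fin 2 → O), IsCuntzTwo s) ∧
    ∃ (A : Type) (_ : CStarAlgebra A) (_ : Nontrivial A), TopologicalSpace.SeparableSpace A ∧
      ∀ (O : Type) [CStarAlgebra O] (s : Fin 2 → O), IsCuntzTwo s →
        ∀ ω : Ultrafilter ℕ,
          (∃ (U : Type) (_ : CStarAlgebra U) (q : (ℕ →ᵇ O) →⋆ₐ[ℂ] U), IsUltrapowerMap ω q) ∧
          ∀ (U : Type) [CStarAlgebra U] (q : (ℕ →ᵇ O) →⋆ₐ[ℂ] U), IsUltrapowerMap ω q →
            IsEmpty (A →⋆ₐ[ℂ] U) := by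
  refine ⟨exists_cuntzTwo, ?_⟩
  obtain ⟨A, _, _, hsep, h⟩ := main_thm
  refine ⟨A, inferInstance, inferInstance, hsep, ?_⟩
  intro O _ s hs ω
  have := hs.nontrivial
  exact h O s hs.rel hs.generates ω

end Vale.Agent.P083
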