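import Mathlib

/-!
# P083: the norm ultrapower as the quotient `ℓ^∞(ℕ, B) / I_ω(B)`
-/

open scoped Topology
open Filter

namespace Vale.Agent.P083

/-- `ℓ^∞(ℕ, B)`: the norm bounded sequences in `B` -/
def BddSeq (B : Type) [CStarAlgebra B] : Type := {b : ℕ → B // ∃ C : ℝ, ∀ n, ‖b n‖ ≤ C}

/-- the norm ultrapower `B^ω = ℓ^∞(ℕ, B) / I_ω(B)`: bounded sequences `b`, `c` are identified when
`b - c ∈ I_ω(B)`, that is `lim_{n → ω} ‖b_n - c_n‖ = 0` -/
def NormUltrapower (ω : Ultrafilter ℕ) (B : Type) [CStarAlgebra B] : Type :=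
  Quot fun b c : BddSeq B => Tendsto (fun n => ‖b.1 n - c.1 n‖) (ω : Filter ℕ) (𝓝 0)

/-- the class in `B^ω` of a bounded sequence -/
def cls (ω : Ultrafilter ℕ) {B : Type} [CStarAlgebra B] (b : BddSeq B) : NormUltrapower ω B :=
  Quot.mk _ b

/-- the map `φ : A → B^ω` is a unital *-homomorphism; the operations of `B^ω` are those of the
representing bounded sequences -/
structure IsUnitalStarHom {A B : Type} [CStarAlgebra A] [CStarAlgebra B] (ω : Ultrafilter ℕ)
    (φ : A → NormUltrapower ω B) : Prop where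
  one : ∀ z : BddSeq B, (∀ n, z.1 n = 1) → φ 1 = cls ω z
  add : ∀ (a b : A) (x y z : BddSeq B), φ a = cls ω x → φ b = cls ω y →
    (∀ n, z.1 n = x.1 n + y.1 n) → φ (a + b) = cls ω z
  mul : ∀ (a b : A) (x y z : BddSeq B), φ a = cls ω x → φ b = cls ω y →
    (∀ n, z.1 n = x.1 n * y.1 n) → φ (a * b) = cls ω z
  smul : ∀ (c : ℂ) (a : A) (x z : BddSeq B), φ a = cls ω x →
    (∀ n, z.1 n = c • x.1 n) → φ (c • a) = cls ω z
  star : ∀ (a : A) (x z : BddSeq B), φ a = cls ω x →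
    (∀ n, z.1 n = star (x.1 n)) → φ (star a) = cls ω z

end Vale.Agent.P083
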