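import Mathlib
import Vale.Agent.Lib.P083.StmtQ
import Vale.Agent.Lib.P083.FinalU

/-!
# P083: assembly of the third form (the ultrapower as a quotient of `ℓ^∞(ℕ, O)`)
-/

namespace Vale.Agent.P083

open scoped Topology BoundedContinuousFunction
open Filter

section

variable {A O U : Type} [CStarAlgebra A] [CStarAlgebra O] [CStarAlgebra U] {ω : Ultrafilter ℕ}

/-- a bounded sequence as a bounded function -/
noncomputable def bcf (b : BddSeq O) : ℕ →ᵇ O :=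
  BoundedContinuousFunction.ofNormedAddCommGroup b.1 continuous_of_discreteTopology b.2.choose
    b.2.choose_spec

theorem bcf_apply (b : BddSeq O) (n : ℕ) : bcf b n = b.1 n := rfl

/-- the map from the quotient to the target of a quotient map -/
noncomputable def liftQ (q : (ℕ →ᵇ O) →⋆ₐ[ℂ] U) (hq : IsUltrapowerMap ω q) :
    NormUltrapower ω O → U :=
  Quot.lift (fun b => q (bcf b)) fun b c h => by
    have h1 : q (bcf b - bcf c) = 0 := (hq.eq_zero_iff (bcf b - bcf c)).2 h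
    rw [map_sub] at h1
    exact sub_eq_zero.1 h1

theorem liftQ_cls (q : (ℕ →ᵇ O) →⋆ₐ[ℂ] U) (hq : IsUltrapowerMap ω q) (b : BddSeq O) :
    liftQ q hq (cls ω b) = q (bcf b) := rfl

theorem exists_seq (x : NormUltrapower ω O) : ∃ b : BddSeq O, x = cls ω b := by
  obtain ⟨b, hb⟩ := Quot.exists_rep x
  exact ⟨b, hb.symm⟩

/-- a bounded function as a bounded sequence -/
def toSeq (f : ℕ →ᵇ O) : BddSeq O := ⟨f, ‖f‖, fun n => f.norm_coe_le_norm n⟩

theorem bcf_toSeq (f : ℕ →ᵇ O) : bcf (toSeq f) = f := by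
  ext n
  rfl

/-- a unital *-homomorphism into the quotient gives one into `U` -/
theorem quot_exists_hom (q : (ℕ →ᵇ O) →⋆ₐ[ℂ] U) (hq : IsUltrapowerMap ω q)
    {φ : A → NormUltrapower ω O} (hφ : IsUnitalStarHom ω φ) : Nonempty (A →⋆ₐ[ℂ] U) := by
  have h1 : liftQ q hq (φ 1) = 1 := by
    rw [hφ.one (toSeq 1) (fun n => rfl), liftQ_cls, bcf_toSeq, map_one]
  have h2 : ∀ a b, liftQ q hq (φ (a * b)) = liftQ q hq (φ a) * liftQ q hq (φ b) := by
    intro a b
    obtain ⟨x, hx⟩ := exists_seq (φ a)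
    obtain ⟨y, hy⟩ := exists_seq (φ b)
    rw [hφ.mul a b x y (toSeq (bcf x * bcf y)) hx hy (fun n => rfl), hx, hy, liftQ_cls, liftQ_cls,
      liftQ_cls, bcf_toSeq, map_mul]
  have h3 : ∀ a b, liftQ q hq (φ (a + b)) = liftQ q hq (φ a) + liftQ q hq (φ b) := by
    intro a b
    obtain ⟨x, hx⟩ := exists_seq (φ a)
    obtain ⟨y, hy⟩ := exists_seq (φ b)
    rw [hφ.add a b x y (toSeq (bcf x + bcf y)) hx hy (fun n => rfl), hx, hy, liftQ_cls, liftQ_cls,
      liftQ_cls, bcf_toSeq, map_add]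
  have h4 : ∀ (c : ℂ) a, liftQ q hq (φ (c • a)) = c • liftQ q hq (φ a) := by
    intro c a
    obtain ⟨x, hx⟩ := exists_seq (φ a)
    rw [hφ.smul c a x (toSeq (c • bcf x)) hx (fun n => rfl), hx, liftQ_cls, liftQ_cls, bcf_toSeq,
      map_smul]
  have h5 : ∀ a, liftQ q hq (φ (star a)) = star (liftQ q hq (φ a)) := by
    intro a
    obtain ⟨x, hx⟩ := exists_seq (φ a)
    rw [hφ.star a x (toSeq (star (bcf x))) hx (fun n => rfl), hx, liftQ_cls, liftQ_cls, bcf_toSeq,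
      map_star]
  let L : A →ₗ[ℂ] U :=
    { toFun := fun a => liftQ q hq (φ a)
      map_add' := h3
      map_smul' := h4 }
  exact ⟨{ AlgHom.ofLinearMap L h1 h2 with map_star' := h5 }⟩

end

theorem main_thmQ :
    ∃ (O : Type) (_ : CStarAlgebra O) (s₁ s₂ : O),
      (star s₁ * s₁ = 1 ∧ star s₂ * s₂ = 1 ∧ s₁ * star s₁ + s₂ * star s₂ = 1) ∧
      (∀ (B : Type) [CStarAlgebra B] (t₁ t₂ : B),
        star t₁ * t₁ = 1 → star t₂ * t₂ = 1 → t₁ * star t₁ + t₂ * star t₂ = 1 →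
          ∃! f : O →⋆ₐ[ℂ] B, f s₁ = t₁ ∧ f s₂ = t₂) ∧
      ∃ (A : Type) (_ : CStarAlgebra A), Nontrivial A ∧ TopologicalSpace.SeparableSpace A ∧
        ∀ ω : Ultrafilter ℕ, ¬ ∃ φ : A → NormUltrapower ω O, IsUnitalStarHom ω φ := by
  obtain ⟨⟨O, hO, s, hs⟩, A, hA, hnt, hsep, h⟩ := main_thmU
  refine ⟨O, hO, s 0, s 1, ⟨hs.rel.isometry 0, hs.rel.isometry 1, hs.rel.sum⟩, ?_, A, hA, hnt,
    hsep, ?_⟩
  · intro B _ t₁ t₂ h1 h2 h3
    have ht : IsCuntzPair ![t₁, t₂] := by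
      constructor
      · intro i
        fin_cases i
        · exact h1
        · exact h2
      · exact h3
    obtain ⟨f, hf, hu⟩ := hs.universal B ![t₁, t₂] ht
    refine ⟨f, ⟨hf 0, hf 1⟩, fun g hg => hu g fun i => ?_⟩
    fin_cases i
    · exact hg.1
    · exact hg.2
  · rintro ω ⟨φ, hφ⟩
    obtain ⟨⟨U, hU, q, hq⟩, h2⟩ := h O s hs ω
    obtain ⟨g⟩ := quot_exists_hom q hq hφ
    exact (h2 U q hq).false g

end Vale.Agent.P083
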